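import Crest.Agent.N346.P0.Defs
import Crest.Agent.N346.Id.Flat
import Crest.Agent.N346.P0.Jet

-- ▼ part N346/P0/Stat
section

/-!
Row 346, Part 0 (helper90): `conf : ConfStmt` and `st : STStmt`.
-/

set_option autoImplicit false
open Filter Topology Set
open scoped ContDiff
open Crest.GeometryTopology.CoordMetric
open Crest.MathPhysics.ExteriorData
open Crest.Agent.R202.Tens Crest.Agent.R247.Bo84 Crest.Agent.N346.Id

noncomputable section

namespace Crest.Agent.N346.P0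

theorem conf : ConfStmt := by
  intro n g K ψ hg hK hKs hψ x
  have hc : Conf g (fun y => Real.exp (2 * ψ y) • g y) ψ univ :=
    ⟨hg, hψ.contDiffOn, fun _ _ => rfl⟩
  have hS : SymT K univ := ⟨fun i j => (hK i j).contDiffOn, fun y _ i j => hKs y i j⟩
  refine ⟨hc.energy_eq hS (fun _ _ => rfl) (mem_univ x), fun i => ?_⟩
  rw [← Jw_ee, hc.Jw_eq hS (fun _ _ => rfl) (mem_univ x), Jw_ee, bil_ee_right]
  congr 3
  exact Finset.sum_congr rfl fun j _ => by rw [hKs x j i]; rfl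

theorem st : STStmt := by
  intro n _ b c f hb hc hf hg x lam γ ρ0 X dc hlam hγ hρ hX hdc
  have hx := mem_univ x
  have hφc : ContDiff ℝ ∞ (ph c : E n → ℝ) := (contDiff_const.mul hc).exp
  have hd : Jd (gS b c f) (ph c) f univ :=
    ⟨hg, hφc.contDiffOn, hf.contDiffOn, fun y _ => Real.exp_pos _⟩
  have hb0 := riem_const (n := n) hb
  have hcf : Conf (fun _ => b) (gb (gS b c f) (ph c) f) c univ :=
    ⟨hb0, hc.contDiffOn, fun y _ => by simp [gb, gS]⟩
  have hc2 : ContDiffAt ℝ 2 c x := hc.contDiffAt.of_le (by norm_cast)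
  have hcd : DifferentiableAt ℝ c x := hc2.differentiableAt (by norm_num)
  have hlv : lv (ph c : E n → ℝ) = fun y => -((n : ℝ) - 2) * c y := by
    funext y
    rw [lv, ph, Real.log_exp]
  have hlam0 : 0 < lam := hlam ▸ Real.exp_pos _
  have hinv : Real.exp (-(2 * c x)) = lam⁻¹ := by rw [Real.exp_neg, hlam]
  set w := wv (gS b c f) (ph c) f x with hw
  have hp : pp (gS b c f) (ph c) f x = Bs.qb b⁻¹ X X / lam := by
    rw [← hd.gam_gb_f_f hx, hcf.gam_eq hx, hinv, hX, gam, Bs.qb, div_eq_mul_inv]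
    simp only [inverseField, Finset.mul_sum, Finset.sum_mul]
    exact Finset.sum_congr rfl fun i _ => Finset.sum_congr rfl fun j _ => by ring
  have h1 := hd.gm_sq_mul hx
  rw [hp, ← hγ] at h1
  have hbw : ∀ Y, bil b Y w = γ * (ph c x * fderiv ℝ f x Y) / lam := by
    intro Y
    have h2 := hcf.bil_eq hx Y w
    rw [bil_symm hd.riemb hx, hw, hd.gb_wv hx, ← hlam, ← hγ] at h2
    rw [hd.phi_df hx, ← hγ, eq_div_iff hlam0.ne']
    linear_combination -h2
  have hcw : fderiv ℝ c x w = γ * Bs.qb b⁻¹ dc X / lam := by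
    rw [← bil_grad hb0 hx, hbw, ← gam_eq_fderiv_grad' hb0 hx, gam, hdc, hX, Bs.qb]
    congr 2
    simp only [inverseField, Finset.mul_sum]
    exact Finset.sum_congr rfl fun i _ => Finset.sum_congr rfl fun j _ => by ring
  have hlap : laplaceBeltrami (fun _ => b) c x = -ρ0 := by
    rw [lap_const_metric hb hc2, hρ, neg_neg]; rfl
  have hgam : gam (fun _ => b) c c x = Bs.qb b⁻¹ dc dc := by rw [hdc]; rfl
  have hJ : ∀ Y, Jw (gS b c f) (KS b c f) x Y = ((n : ℝ) - 1) * γ / lam *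
      (ρ0 * (ph c x * fderiv ℝ f x Y) - ((n : ℝ) - 2) * Bs.qb b⁻¹ dc X * fderiv ℝ c x Y) := by
    intro Y
    rw [KS, hd.id_C_J hx, hd.hess_lv hx, hd.lap_lv hx hd.riemb, hlv, hess_const_mul _ hc2,
      lap_const_mul hd.riemb hx _ hc2, gam_const_mul_left _ hcd, gam_const_mul_right _ hcd,
      fderiv_const_mul hcd, hcf.ric_eq hx, hcf.hess_eq hx, hcf.lap_eq hx hc2, hcf.gam_eq hx,
      hcf.bil_eq hx, bil_ricM_const, hinv, ← hlam, hlap, hgam, ← hw]
    simp only [smul_apply, smul_eq_mul]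
    rw [hbw, hcw]
    field_simp
    ring
  refine ⟨h1, ?_, fun i => ?_⟩
  · have h3 := hd.df_wv hx
    rw [← hw, hp, ← hγ] at h3
    have h4 := hd.id_C_mu hx
    rw [← hw, hcf.scalar_eq hx, scalarCurv_const, hinv, hlap, hgam] at h4
    change energyDensity (gS b c f) (KS b c f) x = _ + Jw (gS b c f) (KS b c f) x w at h4
    rw [h4, hJ, h3, hcw]
    field_simp
    field_simp at h1
    linear_combination (-2 * ((n : ℝ) - 1) * ρ0) * h1
  · rw [← Jw_ee, hJ, hX, hdc]
    rfl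

end Crest.Agent.N346.P0

end
end

-- ▼ part N346/P0/Fac

/-! Row 346, Part 0, leaf FAC (helper47): `fac : JLapStmt → VStmt → FacStmt`. -/

set_option autoImplicit false
open MeasureTheory Filter Topology Matrix
open scoped ContDiff
open Crest.GeometryTopology.CoordMetric
open Crest.MathPhysics.ExteriorData

noncomputable section

namespace Crest.Agent.N346.P0
open Bs

variable {n : ℕ} {g K : MetricField n}

theorem exists_lam {N e0 q c1 c2 C : ℝ} (hq : e0 < q) (hq0 : 0 ≤ q) (hc1 : 0 < c1) (hc2 : 0 < c2)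
    (hC : 0 ≤ C) (hN : 1 ≤ N) : ∃ lam : ℝ, 0 < lam ∧ ∀ r : ℝ, 1 ≤ r →
      c1 / 2 * r ^ (-N - e0) ≤ c1 * r ^ (-N - e0) - C * r ^ (-N - q)
        + lam * (c2 * r ^ (2 - 2 * N)) := by
  have h1 := (tendsto_rpow_neg_atTop (sub_pos.2 hq)).eventually
    (gt_mem_nhds (show (0 : ℝ) < c1 / (2 * (C + 1)) by positivity))
  obtain ⟨r0, hr0⟩ := eventually_atTop.1 (h1.and (eventually_ge_atTop 1))
  have hr1 : 1 ≤ r0 := (hr0 r0 le_rfl).2
  have hp : 0 < c2 * r0 ^ (2 - 2 * N) := by positivity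
  refine ⟨C / (c2 * r0 ^ (2 - 2 * N)) + 1, by positivity, fun r hr => ?_⟩
  have hr' : 0 < r := by linarith
  have hA : 0 < r ^ (-N - e0) := by positivity
  have hB : 0 < c2 * r ^ (2 - 2 * N) := by positivity
  rcases le_total r0 r with h | h
  · have h2 := (hr0 r h).1.le
    have h3 : r ^ (-N - q) = r ^ (-(q - e0)) * r ^ (-N - e0) := by
      rw [← Real.rpow_add hr']; congr 1; ring
    have h4 : C * r ^ (-(q - e0)) ≤ c1 / 2 := by
      calc _ ≤ (C + 1) * (c1 / (2 * (C + 1))) := by gcongr; linarith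
        _ = _ := by field_simp
    have h5 : 0 ≤ (C / (c2 * r0 ^ (2 - 2 * N)) + 1) * (c2 * r ^ (2 - 2 * N)) := by positivity
    rw [h3, ← mul_assoc]
    nlinarith
  · have h2 : r ^ (-N - q) ≤ 1 := Real.rpow_le_one_of_one_le_of_nonpos hr (by linarith)
    have h3 : r0 ^ (2 - 2 * N) ≤ r ^ (2 - 2 * N) :=
      Real.rpow_le_rpow_of_nonpos hr' h (by linarith)
    have h4 : C ≤ C / (c2 * r0 ^ (2 - 2 * N)) * (c2 * r ^ (2 - 2 * N)) := by
      calc C = C / (c2 * r0 ^ (2 - 2 * N)) * (c2 * r0 ^ (2 - 2 * N)) := by field_simp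
        _ ≤ _ := by gcongr
    nlinarith

/-- the identities for `ψ = e₁ (1 - exp (-λ V))` -/
theorem fac_ident (hg : IsRiemannianOn g Set.univ) {V : E n → ℝ} (hV : ContDiff ℝ ∞ V)
    (e1 lam : ℝ) (x : E n) :
    (∀ i, pderiv i (fun y => e1 * (1 - Real.exp (-lam * V y))) x
      = e1 * lam * Real.exp (-lam * V x) * pderiv i V x) ∧
    (∀ i, gradV g (fun y => e1 * (1 - Real.exp (-lam * V y))) x i
      = e1 * lam * Real.exp (-lam * V x) * gradV g V x i) ∧
    gradSq g (fun y => e1 * (1 - Real.exp (-lam * V y))) x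
      = (e1 * lam * Real.exp (-lam * V x)) ^ 2 * gradSq g V x ∧
    laplaceBeltrami g (fun y => e1 * (1 - Real.exp (-lam * V y))) x
      = e1 * lam * Real.exp (-lam * V x) * (laplaceBeltrami g V x - lam * gradSq g V x) := by
  have hE : ∀ t : ℝ, HasDerivAt (fun t => Real.exp (-lam * t)) (Real.exp (-lam * t) * -lam) t :=
    fun t => by simpa using ((hasDerivAt_id t).const_mul (-lam)).exp
  have hθ : ∀ t : ℝ, HasDerivAt (fun t => e1 * (1 - Real.exp (-lam * t)))
      (e1 * lam * Real.exp (-lam * t)) t := fun t =>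
    (((hE t).const_sub 1).const_mul e1).congr_deriv (by ring)
  have hm : ∀ t : ℝ, HasDerivAt (fun t => e1 * lam * Real.exp (-lam * t))
      (-lam * (e1 * lam * Real.exp (-lam * t))) t := fun t =>
    ((hE t).const_mul (e1 * lam)).congr_deriv (by ring)
  have h1 : ∀ x i, pderiv i (fun y => e1 * (1 - Real.exp (-lam * V y))) x
      = e1 * lam * Real.exp (-lam * V x) * pderiv i V x :=
    fun x i => pd_comp (hθ (V x)) (smooth_diff hV x) i
  have h2 : ∀ x i, gradV g (fun y => e1 * (1 - Real.exp (-lam * V y))) x i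
      = e1 * lam * Real.exp (-lam * V x) * gradV g V x i := fun x i => by
    simp only [gradV, h1, Finset.mul_sum]
    exact Finset.sum_congr rfl fun j _ => by ring
  refine ⟨h1 x, h2 x, gradSq_comp (hθ (V x)) (smooth_diff hV x), ?_⟩
  rw [laplaceBeltrami_eq, laplaceBeltrami_eq,
    show gradV g (fun y => e1 * (1 - Real.exp (-lam * V y)))
      = fun y i => e1 * lam * Real.exp (-lam * V y) * gradV g V y i from
      funext fun y => funext fun i => h2 y i,
    gDiv_smul hg (φ := fun y => e1 * lam * Real.exp (-lam * V y))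
      ((hm (V x)).differentiableAt.comp x (smooth_diff hV x))
      fun i => smooth_diff (contDiff_grad hg hV i) x,
    sum_pd_grad, gradDot_comp_left (hm (V x)) (smooth_diff hV x), gradSq]
  ring

theorem abs_Kterm_le {Λ κ a : ℝ} {x : E n} (hΛ : 1 ≤ Λ) (hg : (g x).PosDef) (hL : Lo Λ g x)
    {V : E n → ℝ} (hκ : 0 ≤ κ) (ha : 0 ≤ a) (hK : ∀ i j, |K x i j| ≤ κ)
    (hV : ∀ i, |pderiv i V x| ≤ a) {v : E n} (hv : quadForm g x v ≤ 1) :
    |∑ i, (∑ j, K x i j * gradV g V x j) * v i| ≤ n * (n * (n * (Λ * Λ))) * (κ * a) := by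
  have hΛ0 : 0 < Λ := by linarith
  have h1 : ∀ j, |gradV g V x j| ≤ n * (Λ * a) := fun j => by
    refine (Finset.abs_sum_le_sum_abs _ _).trans ?_
    calc _ ≤ ∑ _l : Fin n, Λ * a := Finset.sum_le_sum fun l _ => by
          rw [abs_mul]; gcongr; exacts [hL.abs_inv_le hΛ0 hg j l, hV l]
      _ = _ := by simp
  have h2 : ‖v‖ ≤ Λ := by
    have := hL.norm_sq_le hΛ0 v
    exact abs_le_of_sq_le_sq' (by nlinarith) hΛ0.le |>.2
  have h3 : ∀ i, |v i| ≤ Λ := fun i => (PiLp.norm_apply_le v i).trans h2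
  refine (Finset.abs_sum_le_sum_abs _ _).trans ?_
  calc _ ≤ ∑ _i : Fin n, n * (κ * (n * (Λ * a))) * Λ := Finset.sum_le_sum fun i _ => by
        rw [abs_mul]
        gcongr
        · refine (Finset.abs_sum_le_sum_abs _ _).trans ?_
          calc _ ≤ ∑ _j : Fin n, κ * (n * (Λ * a)) := Finset.sum_le_sum fun j _ => by
                rw [abs_mul]; gcongr; exacts [hK i j, h1 j]
            _ = _ := by simp
        · exact h3 i
    _ = _ := by simp; ring

theorem fac (hJ : JLapStmt) (hVS : VStmt) : FacStmt := by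
  intro n q e0 hE g K Λ hΛ hg hLo hD η hη
  have hn : (3 : ℝ) ≤ n := by exact_mod_cast hE.n_ge
  have hq0 : 0 < q := by have := hE.q_gt; linarith
  have heq : e0 < q := by have := hE.e0_lt; have := hE.q_lt; linarith
  have he0 := hE.e0_pos
  obtain ⟨hV1, C0, c, -, hc, hV2⟩ := hVS n hE.n_ge e0 hE.e0_pos hE.e0_lt_one
  obtain ⟨hVs, hV0, hVl, -, -, hVh⟩ := hV2 1 le_rfl
  choose D hD0 hDV using hV1
  set V : E n → ℝ := VV e0 1 with hVdef
  set CV := D 0 + D 1 + D 2 with hCV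
  have hCV0 : 0 ≤ CV := by have := hD0 0; have := hD0 1; have := hD0 2; positivity
  have hVk : ∀ k : ℕ, k ≤ 2 → ∀ y : E n,
      ‖iteratedFDeriv ℝ k V y‖ ≤ CV * (1 + ‖y‖) ^ (2 - (n : ℝ) - (k : ℝ)) := fun k hk y => by
    have h1 := hDV k 1 le_rfl y
    rw [Real.one_rpow, mul_one] at h1
    refine h1.trans ?_
    gcongr
    have := hD0 0; have := hD0 1; have := hD0 2
    interval_cases k <;> linarith
  have hJ1 : ∀ y : E n, Jb 2 V y (1 + ‖y‖) (CV * (1 + ‖y‖) ^ (2 - (n : ℝ))) := fun y =>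
    Jb.of_rpow (by positivity) fun k hk => hVk k hk y
  have hle : ∀ y : E n, CV * (1 + ‖y‖) ^ (2 - (n : ℝ)) ≤ CV := fun y =>
    mul_le_of_le_one_right hCV0 (Real.rpow_le_one_of_one_le_of_nonpos
      (by linarith [norm_nonneg y]) (by linarith))
  have hVle : ∀ y, V y ≤ CV := fun y => ((le_abs_self _).trans (hJ1 y).abs_le).trans (hle y)
  have hJ2 : ∀ y : E n, 1 ≤ ‖y‖ → Jb 2 V y ‖y‖ (CV * ‖y‖ ^ (2 - (n : ℝ))) := fun y hy =>
    Jb.of_rpow (by linarith) fun k hk => (hVk k hk y).trans (by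
      have : (0 : ℝ) ≤ k := Nat.cast_nonneg k
      gcongr CV * ?_
      exact Real.rpow_le_rpow_of_nonpos (by linarith) (by linarith) (by linarith))
  obtain ⟨CJ, hCJ, hJL⟩ := hJ n Λ hΛ
  have hΛ0 : 0 < Λ := by linarith
  obtain ⟨lam, hlam, hkey⟩ := exists_lam (N := n) (c1 := c * 2 ^ (-(n : ℝ) - e0 - 2))
    (c2 := (n * Λ + 1)⁻¹ * (c * 2 ^ (-(n : ℝ))) ^ 2 / 2)
    (C := (CJ + n * (n * (n * (Λ * Λ)))) * (Λ * CV)) heq hq0.le (by positivity) (by positivity)
    (by positivity) (by linarith)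
  obtain ⟨Cθ, hCθ, hθ⟩ := exists_jb_comp n (θ := fun t => 1 - Real.exp (-lam * t))
    (by fun_prop) (by simp) CV
  set e1 := min (1 / ((n : ℝ) - 2)) (η / (Cθ * CV + 1)) with he1
  have hn2 : (0 : ℝ) < n - 2 := by linarith
  have he1p : 0 < e1 := lt_min (by positivity) (by positivity)
  have he1a : ((n : ℝ) - 2) * e1 ≤ 1 := by
    have := min_le_left (1 / ((n : ℝ) - 2)) (η / (Cθ * CV + 1))
    rwa [le_div_iff₀' hn2] at this
  have he1b : e1 * (Cθ * CV + 1) ≤ η := by
    have := min_le_right (1 / ((n : ℝ) - 2)) (η / (Cθ * CV + 1))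
    rwa [le_div_iff₀ (by positivity)] at this
  have hexp : ∀ y, Real.exp (-lam * V y) ≤ 1 := fun y =>
    Real.exp_le_one_iff.2 (by have := hV0 y; nlinarith)
  have hθs : ContDiff ℝ ∞ fun y => 1 - Real.exp (-lam * V y) := by fun_prop
  refine ⟨fun y => e1 * (1 - Real.exp (-lam * V y)),
    e1 * lam * Real.exp (-lam * CV) * (c * 2 ^ (-(n : ℝ) - e0 - 2) / 2), by positivity,
    contDiff_const.mul hθs, fun y => mul_nonneg he1p.le (sub_nonneg.2 (hexp y)), fun k hk y => ?_,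
    fun x => ?_, fun x hx v hv => ?_⟩
  · have hr : 0 < 1 + ‖y‖ := by positivity
    refine Jb.to_rpow hr (((hθ V y _ _ hVs hr (hle y) (hJ1 y)).const_mul hθs e1).mono hr ?_) k hk
    rw [abs_of_pos he1p, ← mul_assoc, ← mul_assoc]
    gcongr
    nlinarith
  · obtain ⟨h, hh, hi⟩ := hVh x
    have hp : 0 < h := lt_of_lt_of_le (by positivity) hh
    refine ⟨e1 * lam * Real.exp (-lam * V x) * h, by positivity, fun i => ?_⟩
    rw [(fac_ident hg hVs e1 lam x).1, hi]
    ring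
  · obtain ⟨-, i2, i3, i4⟩ := fac_ident hg hVs e1 lam x
    have hr : 0 < ‖x‖ := by linarith
    have hα : Λ * ‖x‖ ^ (-q) ≤ Λ :=
      mul_le_of_le_one_right hΛ0.le (Real.rpow_le_one_of_one_le_of_nonpos hx (by linarith))
    have hw : Λ * ‖x‖ ^ (-q) * (CV * ‖x‖ ^ (2 - (n : ℝ))) / ‖x‖ ^ 2
        = Λ * CV * ‖x‖ ^ (-(n : ℝ) - q) := by
      rw [show -(n : ℝ) - q = -q + (2 - n) - (2 : ℕ) by push_cast; ring,
        Real.rpow_sub hr (-q + (2 - n)), Real.rpow_add hr, Real.rpow_natCast]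
      ring
    have b1 := hJL g hg V hVs x ‖x‖ _ _ hr (by positivity) hα (hLo x)
      (fun i j => ((hD x hx).1 i j).of_le (by norm_num)) (hJ2 x hx)
    have b2 := abs_Kterm_le (K := K) hΛ (riem_posDef hg x) (hLo x) (by positivity) (by positivity)
      (fun i j => ((hD x hx).2 i j).abs_le) (hJ2 x hx).abs_pd_le hv
    rw [div_mul_div_comm, ← sq ‖x‖] at b2
    rw [hw] at b1 b2
    have h2r : 1 + ‖x‖ ≤ 2 * ‖x‖ := by linarith
    have b3 : c * 2 ^ (-(n : ℝ) - e0 - 2) * ‖x‖ ^ (-(n : ℝ) - e0) ≤ -lap V x := by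
      refine le_trans ?_ (hVl x)
      calc _ = c * ‖x‖ ^ 2 * (2 * ‖x‖) ^ (-(n : ℝ) - e0 - 2) := by
            rw [Real.mul_rpow (by norm_num) hr.le, Real.rpow_sub hr _ 2, Real.rpow_two]
            field_simp
        _ ≤ _ := by
            gcongr c * ‖x‖ ^ 2 * ?_
            exact Real.rpow_le_rpow_of_nonpos (by positivity) h2r (by linarith)
    have b4 : (n * Λ + 1)⁻¹ * (c * 2 ^ (-(n : ℝ))) ^ 2 * ‖x‖ ^ (2 - 2 * (n : ℝ))
        ≤ gradSq g V x := by
      refine le_trans ?_ (le_gradSq hg (C := n * Λ + 1) (by positivity) (fun w => ?_) V)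
      · obtain ⟨h, hh, hi⟩ := hVh x
        rw [Real.one_rpow, mul_one] at hh
        have e : ‖fderiv ℝ V x‖ ^ 2 = h ^ 2 * ‖x‖ ^ 2 := by
          rw [← sum_pd_sq, norm_sq_eq x, Finset.mul_sum]
          exact Finset.sum_congr rfl fun i _ => by rw [hi]; ring
        have h1 : c * 2 ^ (-(n : ℝ)) * ‖x‖ ^ (-(n : ℝ)) ≤ h := by
          refine le_trans ?_ hh
          rw [mul_assoc, ← Real.mul_rpow (by norm_num) hr.le]
          gcongr c * ?_
          exact Real.rpow_le_rpow_of_nonpos (by positivity) h2r (by linarith)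
        rw [e, mul_assoc]
        gcongr _ * ?_
        calc _ = (c * 2 ^ (-(n : ℝ)) * ‖x‖ ^ (-(n : ℝ))) ^ 2 * ‖x‖ ^ 2 := by
              rw [show 2 - 2 * (n : ℝ) = -n + -n + (2 : ℕ) by push_cast; ring, Real.rpow_add hr,
                Real.rpow_add hr, Real.rpow_natCast]
              ring
          _ ≤ _ := by gcongr
      · have h1 := abs_quadForm_sub_le (g := fun _ => 1) (g' := g) (x := x) (a := Λ)
          (fun i j => ((hD x hx).1 i j).abs_le.trans hα) w
        rw [quadForm_one] at h1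
        have := (abs_le.1 h1).2
        linarith
    have b5 := hkey ‖x‖ hx
    have hG := gradSq_nonneg hg V x
    set m := e1 * lam * Real.exp (-lam * V x) with hm
    have hm0 : 0 < m := by positivity
    have hm1 : e1 * lam * Real.exp (-lam * CV) ≤ m := by
      rw [hm]; gcongr e1 * lam * Real.exp ?_
      have := hVle x
      nlinarith
    have hm2 : ((n : ℝ) - 2) * m ≤ lam := by
      calc _ = ((n : ℝ) - 2) * e1 * (lam * Real.exp (-lam * V x)) := by rw [hm]; ring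
        _ ≤ 1 * (lam * 1) := by gcongr; exact hexp x
        _ = _ := by ring
    have e : ∑ i, (∑ j, K x i j * gradV g (fun y => e1 * (1 - Real.exp (-lam * V y))) x j) * v i
        = m * ∑ i, (∑ j, K x i j * gradV g V x j) * v i := by
      simp only [i2, Finset.mul_sum, Finset.sum_mul]
      exact Finset.sum_congr rfl fun i _ => Finset.sum_congr rfl fun j _ => by ring
    rw [e, i3, i4]
    have b1' := (abs_le.1 b1).2
    have b2' := (abs_le.1 b2).2
    set T := ∑ i, (∑ j, K x i j * gradV g V x j) * v i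
    set G := gradSq g V x
    have b6 : c * 2 ^ (-(n : ℝ) - e0 - 2) / 2 * ‖x‖ ^ (-(n : ℝ) - e0)
        ≤ -laplaceBeltrami g V x + lam * G - ((n : ℝ) - 2) * m / 2 * G - T := by
      have h1 : ((n : ℝ) - 2) * m / 2 * G ≤ lam / 2 * G := by gcongr
      have h2 := mul_le_mul_of_nonneg_left b4 hlam.le
      linarith
    calc _ = e1 * lam * Real.exp (-lam * CV) *
          (c * 2 ^ (-(n : ℝ) - e0 - 2) / 2 * ‖x‖ ^ (-(n : ℝ) - e0)) := by ring
      _ ≤ m * (-laplaceBeltrami g V x + lam * G - ((n : ℝ) - 2) * m / 2 * G - T) := by gcongr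
      _ = _ := by ring

end Crest.Agent.N346.P0

end
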