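import Crest.Agent.N346.P0.GA3
import Mathlib
import Crest.Agent.N346.P0.Jet
import Crest.Agent.N346.P0.Lin
import Crest.Agent.N346.T.Sphere
import Crest.Agent.N346.P0.Defs

-- ▼ part N346/P0/GA
section

/-! Row 346, Part 0, step GA (helper15): `ga : NewtStmt → VStmt → FlBdStmt → GAStmt`. -/

set_option autoImplicit false
open MeasureTheory Filter Topology Matrix
open scoped ContDiff
open Crest.GeometryTopology.CoordMetric
open Crest.MathPhysics.ExteriorData

noncomputable section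

namespace Crest.Agent.N346.P0
open Bs GA

variable {n : ℕ}

theorem GA.abs_sum_mul_le {e : Fin n → ℝ} {v : E n} {L : ℝ} (hv : ‖v‖ ≤ L) :
    |∑ i, e i * v i| ≤ (∑ i, |e i|) * L := by
  rw [Finset.sum_mul]
  refine (Finset.abs_sum_le_sum_abs _ _).trans (Finset.sum_le_sum fun i _ => ?_)
  rw [abs_mul]
  gcongr
  exact (PiLp.norm_apply_le v i).trans hv

theorem GA.jb_annulus {k K : MetricField n} {Λ q R : ℝ} (hΛ : 0 ≤ Λ) (hq : 0 ≤ q) (hR : 0 < R)
    {x : E n} (hx : R ≤ ‖x‖) (h : JB k K x ‖x‖ (Λ * ‖x‖ ^ (-q))) : JB k K x R (Λ * R ^ (-q)) := by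
  have h1 : Λ * ‖x‖ ^ (-q) ≤ Λ * R ^ (-q) :=
    mul_le_mul_of_nonneg_left (Real.rpow_le_rpow_of_nonpos hR hx (by linarith)) hΛ
  exact ⟨fun i j => ((h.1 i j).scale hR hx).mono hR h1,
    fun i j => ((h.2 i j).scale hR hx).mono hR (by gcongr)⟩

theorem ga (hN : NewtStmt) (hV : VStmt) (hF : FlBdStmt) : GAStmt := by
  intro n q e0 hE g K EE E1 P Q A Λ c0 θ0 r1 S E' w ξ g0 B hE' hP hB Λ' hΛ'
  have hn := hE.n_ge
  have h3 : (3 : ℝ) ≤ n := by exact_mod_cast hn
  have hq := hE.q_lt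
  have hq0 : 0 ≤ q := by linarith [hE.q_gt]
  have hΛ : 0 ≤ Λ := by linarith [S.Λ_ge]
  have hω := unitSphereArea_pos (n := n) (by omega)
  have hk : Sm fun y => g y - 1 := (sm_riem S.riem).sub (Sm.const 1)
  have hK := S.K_smooth
  obtain ⟨CF, hCF, hFs⟩ := exists_F n
  obtain ⟨Cρ, hCρ, hρ⟩ := exists_rho n
  obtain ⟨CT, hCT, hT⟩ := exists_T hN hn
  obtain ⟨Cf, hCf, hF⟩ := hF n
  obtain ⟨Ω, hΩ⟩ : ∃ Ω : ℝ, Ω = ((n : ℝ) - 1) * unitSphereArea n := ⟨_, rfl⟩
  have hΩ0 : 0 < Ω := by rw [hΩ]; exact mul_pos (by linarith) hω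
  set M0 := CF * Λ + (|Ω * E'| + Cf * n * Λ) * Cρ
  have hM0 : 0 ≤ M0 := by positivity
  set M1 := CF * Λ + M0 + Cρ
  have hM1 : 0 ≤ M1 := by positivity
  obtain ⟨Cψ, c1, hCψ, hc1, hψ⟩ := exists_psi hN hV hE hB hM0
  refine ⟨Cψ + CT * (M1 * 3 ^ n), c1, by positivity, hc1, fun η hη => ?_⟩
  obtain ⟨η', hη', h1, h2⟩ : ∃ η' : ℝ, 0 < η' ∧ η' ≤ η ∧ η' * (1 + Λ') + n * η' * Λ' ≤ η := by
    have h : η / ((n + 1) * (1 + Λ')) * ((n + 1) * (1 + Λ')) = η := by field_simp
    have h0 : 0 < η / ((n + 1) * (1 + Λ')) := by positivity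
    exact ⟨_, h0, div_le_self hη.le (by nlinarith), by nlinarith⟩
  have hδ : Tendsto (fun R => ∑ i, |Ω * P i - ∫ x, eta R x * LJ K x i|) atTop (𝓝 0) := by
    have := tendsto_finsetSum Finset.univ fun i _ =>
      ((S.momentum i).const_sub (Ω * P i)).abs
    simpa [hΩ] using this
  have hδ' := hδ.mul_const Λ'
  rw [zero_mul] at hδ'
  filter_upwards [hψ η' hη', S.energy, eventually_ge_atTop 1, hδ.eventually_le_const one_pos,
    hδ'.eventually_le_const (mul_pos hΩ0 (sub_pos.2 hE'))] with R hψ hEn hR1 hδ1 hδ2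
  rw [← hΩ] at hEn hψ
  have hR : 0 < R := by linarith
  have hann : ∀ x : E n, R ≤ ‖x‖ → JB (fun y => g y - 1) K x R (Λ * R ^ (-q)) := fun x hx =>
    jb_annulus hΛ hq0 hR hx (S.decay x (hR1.trans hx))
  obtain ⟨hF0, hFi⟩ := hFs _ K hk hK R _ hR (by positivity) fun x hx _ => hann x hx
  have e1 : CF * (Λ * R ^ (-q) / R ^ 2) = CF * Λ * R ^ (-q - 2) := by
    rw [Real.rpow_sub hR, Real.rpow_two]; ring
  rw [e1] at hF0 hFi
  have hp : 0 < R ^ (-q - 2) := by positivity
  have e2 : R ^ ((n : ℝ) - q - 2) = R ^ (-q - 2) * R ^ n := by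
    rw [← Real.rpow_natCast, ← Real.rpow_add hR]; congr 1; ring
  have e3 : 1 ≤ R ^ (-q - 2) * R ^ n := e2 ▸ Real.one_le_rpow hR1 (by linarith)
  have hρ' : ∀ a b : ℝ, |a| ≤ b * (R ^ (-q - 2) * R ^ n) →
      Src (fun y : E n => a * rho R y) (3 * R) (b * Cρ * R ^ (-q - 2)) := fun a b h =>
    ((hρ R hR).const_mul a).mono (by positivity) (by
      calc _ ≤ b * (R ^ (-q - 2) * R ^ n) * (Cρ / R ^ n) := by gcongr
        _ = _ := by field_simp)
  obtain ⟨a, ha⟩ : ∃ a : ℝ, a = Ω * E' - ∫ x, eta R x * Lmu (fun y => g y - 1) x := ⟨_, rfl⟩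
  have ha0 : Ω * (E' - E1) ≤ a := by rw [ha]; linarith
  have ha1 : |a| ≤ (|Ω * E'| + Cf * n * Λ) * (R ^ (-q - 2) * R ^ n) := by
    have h := hF (eV fun y => g y - 1) R _ hR (by positivity) (contDiff_eV hk)
      fun x hx _ i => (jb_eV (j := 1) hR hk (hann x hx).1 i).abs_le
    have e4 : ∫ x, eta R x * Lmu (fun y => g y - 1) x
        = (∫ x, eta R x * divE (eV fun y => g y - 1) x) / 2 := by
      rw [← integral_div]; simp only [Lmu, mul_div_assoc]
    have e5 : Cf * (n * (Λ * R ^ (-q) / R + Λ * R ^ (-q) / R)) * R ^ ((n : ℝ) - 1)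
        = Cf * n * Λ * (R ^ (-q - 2) * R ^ n) * 2 := by
      rw [Real.rpow_sub hR, Real.rpow_sub hR, Real.rpow_two, Real.rpow_one, Real.rpow_natCast]
      field_simp
      ring
    rw [e5] at h
    rw [ha, e4]
    refine (abs_sub _ _).trans ?_
    rw [abs_div, abs_two]
    have := mul_le_mul_of_nonneg_left e3 (abs_nonneg (Ω * E'))
    linarith
  set δ : Fin n → ℝ := fun i => Ω * P i - ∫ x, eta R x * LJ K x i with hδd
  have hδi : ∀ i, |δ i| ≤ 1 * (R ^ (-q - 2) * R ^ n) := fun i =>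
    ((Finset.single_le_sum (f := fun i => |δ i|) (fun i _ => abs_nonneg _)
      (Finset.mem_univ i)).trans hδ1).trans (by linarith)
  have hw : ∀ i, |-w i| ≤ 1 := fun i => by
    rw [abs_neg]; exact (PiLp.norm_apply_le w i).trans hB.w_lt.le
  have s0 := hρ' a _ ha1
  have hG0 := (hF0.neg.add s0).mono (M' := M0 * R ^ (-q - 2)) (by positivity)
    (le_of_eq (by simp only [M0]; ring))
  have i0 : ∫ x, -F0 (fun y => g y - 1) R x + a * rho R x = Ω * E' := by
    rw [integral_add hF0.neg.integrable s0.integrable, integral_neg, integral_const_mul,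
      integral_rho hR, integral_F0 hk hR hF0.integrable, ha]
    ring
  have hGi := fun i => (((hFi i).neg.add (hG0.const_mul (-w i))).add (hρ' _ _ (hδi i))).mono
    (M' := M1 * R ^ (-q - 2)) (by positivity) (by
      have := mul_le_mul_of_nonneg_right (hw i) (mul_nonneg hM0 hp.le)
      simp only [M1]; linarith)
  obtain ⟨T, R2, hTs, hTy, hT0, hTj, hTl⟩ := hT _ _ _ (by linarith) hGi (fun i => by
    rw [integral_add ((hFi i).neg.add (hG0.const_mul (-w i))).integrable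
      (hρ' _ _ (hδi i)).integrable, integral_add (hFi i).neg.integrable
      (hG0.const_mul (-w i)).integrable, integral_neg, integral_const_mul, integral_const_mul,
      integral_rho hR, integral_Fi hK hR i (hFi i).integrable, i0, hδd, hP]
    simp only [PiLp.smul_apply, smul_eq_mul]
    ring) e0 hE.e0_pos.le hE.e0_lt_one η' hη'
  obtain ⟨ψ, s2, C', c', hfar, hc', hψj, hs0, hs1, hs2, hψl⟩ := hψ _ E' hG0 i0
  have hCT' : 0 ≤ CT * (M1 * 3 ^ n) := by positivity
  refine ⟨ψ, T, s2, max (g0 * (3 * R)) R2, C', c',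
    hfar.mono (le_max_left _ _) le_rfl le_rfl (by linarith), hc',
    fun k hk y => (hψj k hk y).trans (by gcongr; linarith), hTs, hTy, fun i j k hk x => ?_,
    le_max_of_le_left (by nlinarith [hB.g0_ge]), fun x hx => hT0 x ((le_max_right _ _).trans hx),
    hs0, fun x => (hs1 x).trans (by gcongr; linarith), hs2, fun x hx v hv => ?_⟩
  · have hx := norm_nonneg x
    have hr : 0 < R + ‖x‖ := by positivity
    refine (((hTj i j x).scale hr (by linarith)).mono hr ?_).to_rpow hr k hk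
    have := size (n := n) (ρ := 3 * R) (s := 1 - (n : ℝ)) hR (by linarith) hx hq.le (by linarith)
    rw [show (n : ℝ) - q - 2 + (1 - n) = -q - 1 by ring] at this
    calc _ = CT * (M1 * 3 ^ n) * (R ^ (-q - 2) * R ^ n * (3 * R + ‖x‖) ^ (1 - (n : ℝ))) := by
          rw [mul_pow]; ring
      _ ≤ _ := by gcongr; linarith
  · have b1 := hψl x hx
    have b2 := hTl x hx
    obtain ⟨p, hp⟩ : ∃ p : ℝ, p = ‖x‖ ^ (-(n : ℝ) - e0) := ⟨_, rfl⟩
    have hp0 : 0 ≤ p := by rw [hp]; positivity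
    rw [← hp] at b1 b2 ⊢
    obtain ⟨L, hL⟩ : ∃ L : ℝ, L = ((n : ℝ) - 1) * g0 ^ 2 * lap ψ (lin B x) := ⟨_, rfl⟩
    rw [← hL] at b1 ⊢
    change _ ≤ F0 (fun y => g y - 1) R x - L - ∑ i, (Fi K R i x - w i * L + LJ T x i) * v i
    set f := F0 (fun y => g y - 1) R x
    set e := L + (-f + a * rho R x) + s2 x with he
    set ε : Fin n → ℝ := fun i =>
      LJ T x i - (-Fi K R i x + -w i * (-f + a * rho R x) + δ i * rho R x) with hε
    have e4 : ∑ i, (Fi K R i x - w i * L + LJ T x i) * v i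
        = rho R x * ∑ i, δ i * v i + (s2 x - e) * dotF w v + ∑ i, ε i * v i := by
      simp only [dotF, Finset.mul_sum, ← Finset.sum_add_distrib, he, hε]
      exact Finset.sum_congr rfl fun i _ => by ring
    have b3 : ∑ i, δ i * v i ≤ a := ((le_abs_self _).trans (abs_sum_mul_le hv)).trans
      (hδ2.trans ha0)
    have b4 : ∑ i, ε i * v i ≤ n * η' * Λ' * p := by
      refine ((le_abs_self _).trans (abs_sum_mul_le hv)).trans ?_
      have : ∑ i, |ε i| ≤ n * (η' * p) := by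
        simpa using Finset.sum_le_card_nsmul Finset.univ (fun i => |ε i|) (η' * p) fun i _ => b2 i
      calc _ ≤ n * (η' * p) * Λ' := by gcongr
        _ = _ := by ring
    have b5 : e * (1 - dotF w v) ≤ η' * (1 + Λ') * p := by
      refine (le_abs_self _).trans ?_
      have : |1 - dotF w v| ≤ 1 + Λ' := by
        refine (abs_sub _ _).trans ?_
        have := (abs_dotF_le w v).trans (mul_le_mul hB.w_lt.le hv (norm_nonneg _) zero_le_one)
        rw [abs_one]; linarith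
      rw [abs_mul]
      calc _ ≤ η' * p * (1 + Λ') := by gcongr
        _ = _ := by ring
    have b6 := mul_le_mul_of_nonneg_left b3 (rho_nonneg hR x)
    have b7 := mul_le_mul_of_nonneg_right h2 hp0
    rw [e4]
    have e5 : L = e + f - a * rho R x - s2 x := by rw [he]; ring
    rw [e5]
    linarith

end Crest.Agent.N346.P0

end
end

-- ▼ part N346/P0/JL1
section

/-! Row 346, Part 0, leaf JL (helper47): an abstract order calculus for pairs of values.

A context `X : Cx P` is a family (indexed by `c : X.ι`) of pairs of points `p c`, `p' c : P` with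
sizes `a c` (distance of `p c` from the base point), `b c` (distance from `p c` to `p' c`) and an
inverse length `ρ c`.  `X.O0 w Q`, `X.O1 w Q`, `X.O2 w Q`: the quantity `Q : P → ℝ` of weight `w`
is Lipschitz of order `0`, `1`, `2`, uniformly over the family. -/

set_option autoImplicit false

noncomputable section

namespace Crest.Agent.N346.P0.JLc

/-- `|u| ≤ C s` uniformly -/
def Bd {ι : Type} (u s : ι → ℝ) : Prop := ∃ C : ℝ, 0 ≤ C ∧ ∀ c, |u c| ≤ C * s c

namespace Bd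
variable {ι : Type} {u v s t : ι → ℝ}

theorem of_le (h : ∀ c, |u c| ≤ s c) : Bd u s := ⟨1, zero_le_one, fun c => by simpa using h c⟩

theorem of_eq (hu : Bd u s) (h : ∀ c, v c = u c) : Bd v s := by
  obtain ⟨C, hC, h1⟩ := hu
  exact ⟨C, hC, fun c => by rw [h]; exact h1 c⟩

theorem zero (s : ι → ℝ) : Bd (fun _ => 0) s := ⟨0, le_rfl, fun c => by simp⟩

theorem add (hu : Bd u s) (hv : Bd v s) : Bd (fun c => u c + v c) s := by
  obtain ⟨C, hC, h1⟩ := hu
  obtain ⟨D, hD, h2⟩ := hv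
  exact ⟨C + D, by positivity, fun c => (abs_add_le _ _).trans (by
    have := h1 c; have := h2 c; linarith)⟩

theorem neg (hu : Bd u s) : Bd (fun c => -u c) s := by
  obtain ⟨C, hC, h1⟩ := hu
  exact ⟨C, hC, fun c => by rw [abs_neg]; exact h1 c⟩

theorem sub (hu : Bd u s) (hv : Bd v s) : Bd (fun c => u c - v c) s :=
  (hu.add hv.neg).of_eq fun _ => sub_eq_add_neg _ _

theorem mul (hu : Bd u s) (hv : Bd v t) : Bd (fun c => u c * v c) fun c => s c * t c := by
  obtain ⟨C, hC, h1⟩ := hu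
  obtain ⟨D, hD, h2⟩ := hv
  refine ⟨C * D, by positivity, fun c => ?_⟩
  rw [abs_mul]
  calc _ ≤ C * s c * (D * t c) :=
        mul_le_mul (h1 c) (h2 c) (abs_nonneg _) ((abs_nonneg _).trans (h1 c))
    _ = _ := by ring

theorem const_mul (k : ℝ) (hu : Bd u s) : Bd (fun c => k * u c) s := by
  obtain ⟨C, hC, h1⟩ := hu
  refine ⟨|k| * C, by positivity, fun c => ?_⟩
  rw [abs_mul, mul_assoc]
  exact mul_le_mul_of_nonneg_left (h1 c) (abs_nonneg _)

theorem sum {κ : Type} (S : Finset κ) {U : κ → ι → ℝ} (h : ∀ k, Bd (U k) s) :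
    Bd (fun c => ∑ k ∈ S, U k c) s := by
  classical
  induction S using Finset.induction_on with
  | empty => simpa using zero s
  | insert k S hk ih => simpa only [Finset.sum_insert hk] using (h k).add ih

theorem mono (hu : Bd u s) {D : ℝ} (hD : 0 ≤ D) (h : ∀ c, s c ≤ D * t c) : Bd u t := by
  obtain ⟨C, hC, h1⟩ := hu
  refine ⟨C * D, by positivity, fun c => (h1 c).trans ?_⟩
  rw [mul_assoc]
  exact mul_le_mul_of_nonneg_left (h c) hC

theorem mono' (hu : Bd u s) (h : ∀ c, s c ≤ t c) : Bd u t :=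
  hu.mono zero_le_one fun c => by simpa using h c

/-- a uniform constant over a finite family -/
theorem unif {κ : Type} [Fintype κ] {U : κ → ι → ℝ} (h : ∀ k, Bd (U k) s) (hs : ∀ c, 0 ≤ s c) :
    ∃ C : ℝ, 0 ≤ C ∧ ∀ k c, |U k c| ≤ C * s c := by
  choose C hC h1 using h
  refine ⟨∑ k, C k, Finset.sum_nonneg fun k _ => hC k, fun k c => (h1 k c).trans ?_⟩
  exact mul_le_mul_of_nonneg_right
    (Finset.single_le_sum (f := C) (fun k _ => hC k) (Finset.mem_univ k)) (hs c)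

end Bd

/-- a family of pairs of points with sizes -/
structure Cx (P : Type) where
  ι : Type
  p : ι → P
  p' : ι → P
  a : ι → ℝ
  b : ι → ℝ
  ρ : ι → ℝ
  L : ℝ
  a0 : ∀ c, 0 ≤ a c
  b0 : ∀ c, 0 ≤ b c
  ρ0 : ∀ c, 0 ≤ ρ c
  L0 : 0 ≤ L
  aL : ∀ c, a c ≤ L
  bL : ∀ c, b c ≤ L

namespace Cx
variable {P : Type} (X : Cx P)

/-- `Q p = O(s)`, `Q p' - Q p = O(t)` -/
def O (s t : X.ι → ℝ) (Q : P → ℝ) : Prop :=
  Bd (fun c => Q (X.p c)) s ∧ Bd (fun c => Q (X.p' c) - Q (X.p c)) t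

/-- order zero -/
def O0 (w : ℕ) (Q : P → ℝ) : Prop := X.O (fun c => X.ρ c ^ w) (fun c => X.b c * X.ρ c ^ w) Q

/-- order one -/
def O1 (w : ℕ) (Q : P → ℝ) : Prop :=
  X.O (fun c => X.a c * X.ρ c ^ w) (fun c => X.b c * X.ρ c ^ w) Q

/-- order two -/
def O2 (w : ℕ) (Q : P → ℝ) : Prop :=
  X.O (fun c => X.a c * X.ρ c ^ w) (fun c => (X.a c + X.b c) * X.b c * X.ρ c ^ w) Q

variable {X} {s t s' t' S T : X.ι → ℝ} {Q R : P → ℝ} {v w u : ℕ}

theorem O.of_eq (h : X.O s t Q) (e : ∀ z, R z = Q z) : X.O s t R := by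
  rw [show R = Q from funext e]; exact h

theorem O.add (hQ : X.O s t Q) (hR : X.O s t R) : X.O s t fun z => Q z + R z :=
  ⟨hQ.1.add hR.1, (hQ.2.add hR.2).of_eq fun _ => by ring⟩

theorem O.sub (hQ : X.O s t Q) (hR : X.O s t R) : X.O s t fun z => Q z - R z :=
  ⟨hQ.1.sub hR.1, (hQ.2.sub hR.2).of_eq fun _ => by ring⟩

theorem O.neg (hQ : X.O s t Q) : X.O s t fun z => -Q z :=
  ⟨hQ.1.neg, hQ.2.neg.of_eq fun _ => by ring⟩

theorem O.const_mul (k : ℝ) (hQ : X.O s t Q) : X.O s t fun z => k * Q z :=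
  ⟨hQ.1.const_mul k, (hQ.2.const_mul k).of_eq fun _ => by ring⟩

theorem O.sum {κ : Type} (A : Finset κ) {U : κ → P → ℝ} (h : ∀ k, X.O s t (U k)) :
    X.O s t fun z => ∑ k ∈ A, U k z :=
  ⟨Bd.sum A fun k => (h k).1, (Bd.sum A fun k => (h k).2).of_eq fun _ => by
    rw [Finset.sum_sub_distrib]⟩

theorem O.mul (hQ : X.O s t Q) (hR : X.O s' t' R) {D : ℝ} (hD : 0 ≤ D)
    (h1 : ∀ c, s c * s' c ≤ D * S c) (h2 : ∀ c, t c * t' c ≤ D * T c)
    (h3 : ∀ c, t c * s' c ≤ D * T c) (h4 : ∀ c, s c * t' c ≤ D * T c) :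
    X.O S T fun z => Q z * R z :=
  ⟨(hQ.1.mul hR.1).mono hD h1,
    ((((hQ.2.mul hR.2).mono hD h2).add ((hQ.2.mul hR.1).mono hD h3)).add
      ((hQ.1.mul hR.2).mono hD h4)).of_eq fun _ => by ring⟩

theorem le_aux (c : X.ι) (v w : ℕ) {x y z D : ℝ} (h : x * y ≤ D * z) :
    x * X.ρ c ^ v * (y * X.ρ c ^ w) ≤ D * (z * X.ρ c ^ (v + w)) := by
  have := X.ρ0 c
  calc _ = x * y * X.ρ c ^ (v + w) := by rw [pow_add]; ring
    _ ≤ D * z * X.ρ c ^ (v + w) := by gcongr
    _ = _ := by ring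

theorem O0.one_mul (h : X.O0 w Q) :
    X.O (fun c => 1 * X.ρ c ^ w) (fun c => X.b c * X.ρ c ^ w) Q := by
  simpa only [_root_.one_mul, O0] using h

theorem O0.mul (hQ : X.O0 v Q) (hR : X.O0 w R) (e : v + w = u := by rfl) :
    X.O0 u fun z => Q z * R z := by
  subst e
  have hL := X.L0
  have : X.O (fun c => 1 * X.ρ c ^ (v + w)) (fun c => X.b c * X.ρ c ^ (v + w))
      fun z => Q z * R z := by
    refine O.mul hQ.one_mul hR.one_mul (D := X.L + 1) (by positivity) (fun c => ?_) (fun c => ?_)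
      (fun c => ?_) (fun c => ?_) <;> refine le_aux c v w ?_ <;>
      have := X.b0 c <;> have := X.bL c <;> nlinarith
  simpa only [_root_.one_mul, O0] using this

theorem O0.mul1 (hQ : X.O0 v Q) (hR : X.O1 w R) (e : v + w = u := by rfl) :
    X.O1 u fun z => Q z * R z := by
  subst e
  have hL := X.L0
  refine O.mul hQ.one_mul hR (D := X.L + 1) (by positivity) (fun c => ?_) (fun c => ?_)
      (fun c => ?_) (fun c => ?_) <;> refine le_aux c v w ?_ <;>
      have := X.b0 c <;> have := X.bL c <;> have := X.a0 c <;> have := X.aL c <;> nlinarith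

theorem O1.mul0 (hQ : X.O1 v Q) (hR : X.O0 w R) (e : v + w = u := by rfl) :
    X.O1 u fun z => Q z * R z :=
  O.of_eq (hR.mul1 hQ (by omega)) fun _ => mul_comm _ _

theorem O1.mul (hQ : X.O1 v Q) (hR : X.O1 w R) (e : v + w = u := by rfl) :
    X.O2 u fun z => Q z * R z := by
  subst e
  have hL := X.L0
  refine O.mul hQ hR (D := X.L + 1) (by positivity) (fun c => ?_) (fun c => ?_)
      (fun c => ?_) (fun c => ?_) <;> refine le_aux c v w ?_ <;>
      have h1 := X.b0 c <;> have := X.bL c <;> have h2 := X.a0 c <;> have := X.aL c <;>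
      have := mul_nonneg h1 h2 <;> have := mul_nonneg h1 h1 <;>
      have := mul_nonneg hL (mul_nonneg (add_nonneg h2 h1) h1) <;> nlinarith

theorem O2.o1 (hQ : X.O2 w Q) : X.O1 w Q := by
  have hL := X.L0
  refine ⟨hQ.1, hQ.2.mono (D := 2 * X.L) (by positivity) fun c => ?_⟩
  have := X.b0 c; have := X.bL c; have := X.aL c; have := X.ρ0 c
  rw [mul_assoc]
  gcongr
  linarith

theorem O1.o0 (hQ : X.O1 w Q) : X.O0 w Q := by
  refine ⟨hQ.1.mono X.L0 fun c => ?_, hQ.2⟩
  have := X.aL c; have := X.ρ0 c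
  gcongr

theorem O0.const (k : ℝ) : X.O0 0 fun _ => k :=
  ⟨⟨|k|, abs_nonneg _, fun c => by simp⟩, (Bd.zero _).of_eq fun _ => sub_self _⟩

/-- `Q` has linear part `l` -/
def Lin (X : Cx P) (w : ℕ) (Q l : P → ℝ) : Prop := X.O2 w (fun z => Q z - l z) ∧ X.O1 w l

variable {l m : P → ℝ}

theorem Lin.o1 (h : X.Lin w Q l) : X.O1 w Q :=
  O.of_eq (O.add h.1.o1 h.2) fun _ => by ring

theorem O1.lin (h : X.O1 w Q) : X.Lin w Q Q :=
  ⟨⟨(Bd.zero _).of_eq fun _ => sub_self _, (Bd.zero _).of_eq fun _ => by ring⟩, h⟩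

theorem O2.lin (h : X.O2 w Q) : X.Lin w Q fun _ => 0 :=
  ⟨O.of_eq h fun _ => sub_zero _, ⟨Bd.zero _, (Bd.zero _).of_eq fun _ => sub_self _⟩⟩

theorem Lin.of_eq (h : X.Lin w Q l) (e : ∀ z, R z = Q z) (e' : ∀ z, m z = l z) : X.Lin w R m := by
  rw [show R = Q from funext e, show m = l from funext e']; exact h

theorem Lin.add (hQ : X.Lin w Q l) (hR : X.Lin w R m) :
    X.Lin w (fun z => Q z + R z) fun z => l z + m z :=
  ⟨O.of_eq (O.add hQ.1 hR.1) fun _ => by ring, O.add hQ.2 hR.2⟩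

theorem Lin.sub (hQ : X.Lin w Q l) (hR : X.Lin w R m) :
    X.Lin w (fun z => Q z - R z) fun z => l z - m z :=
  ⟨O.of_eq (O.sub hQ.1 hR.1) fun _ => by ring, O.sub hQ.2 hR.2⟩

theorem Lin.const_mul (k : ℝ) (hQ : X.Lin w Q l) :
    X.Lin w (fun z => k * Q z) fun z => k * l z :=
  ⟨O.of_eq (O.const_mul k hQ.1) fun _ => by ring, O.const_mul k hQ.2⟩

theorem Lin.sum {κ : Type} (A : Finset κ) {U V : κ → P → ℝ} (h : ∀ k, X.Lin w (U k) (V k)) :
    X.Lin w (fun z => ∑ k ∈ A, U k z) fun z => ∑ k ∈ A, V k z :=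
  ⟨O.of_eq (O.sum A fun k => (h k).1) fun _ => by rw [Finset.sum_sub_distrib],
    O.sum A fun k => (h k).2⟩

/-- multiplication by a coefficient that is close to the constant `k` -/
theorem Lin.coef {k : ℝ} (hR : X.O1 0 fun z => R z - k) (hQ : X.Lin w Q l) :
    X.Lin w (fun z => R z * Q z) fun z => k * l z :=
  ⟨O.of_eq (O.add (hR.mul hQ.o1 (zero_add w)) (O.const_mul k hQ.1)) fun _ => by ring,
    O.const_mul k hQ.2⟩

theorem Lin.bd (h : X.Lin w Q l) :
    Bd (fun c => Q (X.p' c) - Q (X.p c) - (l (X.p' c) - l (X.p c)))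
      fun c => (X.a c + X.b c) * X.b c * X.ρ c ^ w :=
  h.1.2.of_eq fun _ => by ring

end Cx

end Crest.Agent.N346.P0.JLc

end
end

-- ▼ part N346/P0/JL2
section

/-! Row 346, Part 0, leaf JL (helper47): the constraint map written in jets. -/

set_option autoImplicit false
open MeasureTheory Filter Topology Matrix
open scoped ContDiff
open Crest.GeometryTopology.CoordMetric
open Crest.MathPhysics.ExteriorData

noncomputable section

namespace Crest.Agent.N346.P0
open Bs JLc JLc.Cx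

variable {n : ℕ} {g K k : MetricField n}

/-! ### formulas -/

theorem pd_inverse (hg : IsRiemannianOn g Set.univ) (x : E n) (m i j : Fin n) :
    pderiv m (fun y => inverseField g y i j) x = -∑ a, ∑ b,
      inverseField g x i a * pderiv m (fun y => g y a b) x * inverseField g x b j := by
  have hI := fun a b => smooth_diff (contDiff_inv hg a b) x
  have hG := fun a b => smooth_diff (contDiff_g hg a b) x
  have h1 : ∀ b, ∑ a, pderiv m (fun y => inverseField g y i a) x * g x a b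
      = -∑ a, inverseField g x i a * pderiv m (fun y => g y a b) x := fun b => by
    have e : (fun y => ∑ a, inverseField g y i a * g y a b) = fun _ => if i = b then (1 : ℝ) else 0 :=
      funext fun y => sum_inv_mul (riem_posDef hg y) i b
    have h2 := pd_sum (x := x) (s := Finset.univ) (F := fun a y => inverseField g y i a * g y a b)
      (fun a _ => (hI i a).mul (hG a b)) m
    rw [e, pd_const] at h2
    simp only [pd_mul (hI i _) (hG _ b), Finset.sum_add_distrib] at h2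
    linarith
  have h3 : pderiv m (fun y => inverseField g y i j) x
      = ∑ b, (∑ a, pderiv m (fun y => inverseField g y i a) x * g x a b) * inverseField g x b j := by
    simp only [Finset.sum_mul]
    rw [Finset.sum_comm]
    simp only [mul_assoc, ← Finset.mul_sum]
    simp only [inverseField, sum_mul_inv (riem_posDef hg x), mul_ite, mul_one, mul_zero,
      Finset.sum_ite_eq', Finset.mem_univ, if_true]
  rw [h3, Finset.sum_comm]
  simp only [h1, neg_mul, Finset.sum_mul, Finset.sum_neg_distrib]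

theorem contDiff_chr (hg : IsRiemannianOn g Set.univ) (c i j : Fin n) :
    ContDiff ℝ ∞ fun y => christoffel g y c i j :=
  contDiff_const.mul (ContDiff.sum fun l _ => (contDiff_inv hg c l).mul
    (((contDiff_pd (contDiff_g hg j l) i).add (contDiff_pd (contDiff_g hg i l) j)).sub
      (contDiff_pd (contDiff_g hg i j) l)))

theorem pd_chr (hg : IsRiemannianOn g Set.univ) (x : E n) (m c i j : Fin n) :
    pderiv m (fun y => christoffel g y c i j) x = (1 / 2) * ∑ l,
      (pderiv m (fun y => inverseField g y c l) x * (pderiv i (fun y => g y j l) x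
          + pderiv j (fun y => g y i l) x - pderiv l (fun y => g y i j) x)
        + inverseField g x c l * (pderiv m (pderiv i fun y => g y j l) x
          + pderiv m (pderiv j fun y => g y i l) x - pderiv m (pderiv l fun y => g y i j) x)) := by
  have hI := fun a b => smooth_diff (contDiff_inv hg a b) x
  have hD := fun a b c => smooth_diff (contDiff_pd (contDiff_g hg a b) c) x
  unfold christoffel
  rw [pd_const_mul,
    pd_sum fun l _ => (hI c l).fun_mul (((hD j l i).fun_add (hD i l j)).fun_sub (hD i j l))]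
  congr 1
  refine Finset.sum_congr rfl fun l _ => ?_
  rw [pd_mul (hI c l) (((hD j l i).fun_add (hD i l j)).fun_sub (hD i j l)),
    pd_sub ((hD j l i).fun_add (hD i l j)) (hD i j l), pd_add (hD j l i) (hD i l j)]

theorem pd_traceK (hg : IsRiemannianOn g Set.univ) (hK : Sm K) (x : E n) (m : Fin n) :
    pderiv m (traceK g K) x = ∑ a, ∑ b, (pderiv m (fun y => inverseField g y a b) x * K x a b
      + inverseField g x a b * pderiv m (fun y => K y a b) x) := by
  have hI := fun a b => smooth_diff (contDiff_inv hg a b) x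
  have hK' := fun a b => smooth_diff (hK a b) x
  unfold traceK
  rw [pd_sum fun a _ => DifferentiableAt.fun_sum fun b _ => (hI a b).fun_mul (hK' a b)]
  refine Finset.sum_congr rfl fun a _ => ?_
  rw [pd_sum fun b _ => (hI a b).fun_mul (hK' a b)]
  refine Finset.sum_congr rfl fun b _ => ?_
  rw [pd_mul (hI a b) (hK' a b)]

theorem Lmu_eq (hk : Sm k) (x : E n) : Lmu k x = (1 / 2) * ∑ i, ∑ j,
    (pderiv i (pderiv j fun y => k y i j) x - pderiv i (pderiv i fun y => k y j j) x) := by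
  have hD := fun a b c => smooth_diff (contDiff_pd (hk a b) c) x
  rw [Lmu, divE, div_eq_inv_mul, one_div]
  congr 1
  refine Finset.sum_congr rfl fun i _ => ?_
  unfold eV
  rw [pd_sum fun j _ => (hD i j j).fun_sub (hD j j i)]
  exact Finset.sum_congr rfl fun j _ => pd_sub (hD i j j) (hD j j i) i

theorem LJ_eq (hK : Sm K) (x : E n) (i : Fin n) : LJ K x i
    = ∑ j, pderiv j (fun y => K y i j) x - ∑ a, pderiv i (fun y => K y a a) x := by
  have hK' := fun a b => smooth_diff (hK a b) x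
  have hT : DifferentiableAt ℝ (fun y => ∑ a, K y a a) x :=
    DifferentiableAt.fun_sum fun a _ => hK' a a
  rw [LJ, divE, ← pd_sum fun a _ => hK' a a]
  unfold pV
  simp only [pd_sub (hK' _ _) (hT.mul_const _), pd_mul_const, Finset.sum_sub_distrib]
  simp only [Matrix.one_apply, mul_ite, mul_one, mul_zero, Finset.sum_ite_eq, Finset.mem_univ,
    if_true]

theorem lapB_eq (hg : IsRiemannianOn g Set.univ) {v : E n → ℝ} (hv : ContDiff ℝ ∞ v) (x : E n) :
    laplaceBeltrami g v x = ∑ i, ((∑ c, christoffel g x c c i) *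
      (∑ j, inverseField g x i j * pderiv j v x) + ∑ j,
      (pderiv i (fun y => inverseField g y i j) x * pderiv j v x
        + inverseField g x i j * pderiv i (pderiv j v) x)) := by
  have hI := fun a b => smooth_diff (contDiff_inv hg a b) x
  have hD := fun a => smooth_diff (contDiff_pd hv a) x
  have hV : DifferentiableAt ℝ (fun y => Real.sqrt (g y).det) x :=
    smooth_diff (contDiff_volDensity hg) x
  have h0 : Real.sqrt (g x).det ≠ 0 := (volDensity_pos hg x).ne'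
  rw [laplaceBeltrami, Finset.mul_sum]
  refine Finset.sum_congr rfl fun i _ => ?_
  rw [pd_mul hV (DifferentiableAt.fun_sum fun j _ => (hI i j).fun_mul (hD j)),
    pd_sum fun j _ => (hI i j).fun_mul (hD j),
    R247.Bo84.pderiv_sqrt_det hg (Set.mem_univ x)]
  simp only [pd_mul (hI i _) (hD _)]
  field_simp

theorem abs_inv_sub_le {A B : Matrix (Fin n) (Fin n) ℝ} (hA : A.PosDef) (hB : B.PosDef) {L β : ℝ}
    (h1 : ∀ i j, |A⁻¹ i j| ≤ L) (h2 : ∀ i j, |B⁻¹ i j| ≤ L) (h : ∀ i j, |(B - A) i j| ≤ β)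
    (i j : Fin n) : |B⁻¹ i j - A⁻¹ i j| ≤ n * (n * (L * L)) * β := by
  have e := Matrix.inv_sub_inv (A := A) (B := B) (iff_of_true hA.isUnit hB.isUnit)
  have hL : 0 ≤ L := (abs_nonneg _).trans (h1 i j)
  have hβ : 0 ≤ β := (abs_nonneg _).trans (h i j)
  rw [abs_sub_comm, ← Matrix.sub_apply, e, Matrix.mul_apply]
  refine (Finset.abs_sum_le_sum_abs _ _).trans ?_
  calc _ ≤ ∑ _b : Fin n, n * (L * β) * L := by
        refine Finset.sum_le_sum fun b _ => ?_
        rw [abs_mul, Matrix.mul_apply]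
        gcongr
        · refine (Finset.abs_sum_le_sum_abs _ _).trans ?_
          calc _ ≤ ∑ _a : Fin n, L * β := Finset.sum_le_sum fun a _ => by
                rw [abs_mul]; gcongr; exacts [h1 i a, h a b]
            _ = _ := by simp
        · exact h2 b j
    _ = _ := by simp; ring

/-! ### order estimates -/

/-- initial data with a point -/
structure Pt (n : ℕ) where
  g : MetricField n
  K : MetricField n
  x : E n
  hg : IsRiemannianOn g Set.univ
  hK : Sm K

section First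
variable {X : Cx (Pt n)}
  (hH : ∀ i j, X.O1 0 fun z => inverseField z.g z.x i j - (1 : Matrix (Fin n) (Fin n) ℝ) i j)
  (hg1 : ∀ m i j, X.O1 1 fun z => pderiv m (fun y => z.g y i j) z.x)
include hH

theorem o_H (i j : Fin n) : X.O0 0 fun z => inverseField z.g z.x i j :=
  O.of_eq (O.add (hH i j).o0 (O0.const ((1 : Matrix (Fin n) (Fin n) ℝ) i j))) fun _ => by ring

include hg1

theorem o_dH (m i j : Fin n) : X.O1 1 fun z => pderiv m (fun y => inverseField z.g y i j) z.x :=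
  O.of_eq (O.neg (O.sum _ fun a => O.sum _ fun b =>
    ((o_H hH i a).mul1 (hg1 m a b)).mul0 (o_H hH b j))) fun z => pd_inverse z.hg z.x m i j

theorem o_chr (c i j : Fin n) : X.O1 1 fun z => christoffel z.g z.x c i j :=
  O.const_mul _ (O.sum _ fun l => (o_H hH c l).mul1
    (O.sub (O.add (hg1 i j l) (hg1 j i l)) (hg1 l i j)))

variable (hg2 : ∀ l m i j, X.O1 2 fun z => pderiv l (pderiv m fun y => z.g y i j) z.x)
  (hK0 : ∀ i j, X.O1 1 fun z => z.K z.x i j)
  (hK1 : ∀ m i j, X.O1 2 fun z => pderiv m (fun y => z.K y i j) z.x)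

include hg2 in
theorem l_dchr (m c i j : Fin n) :
    X.Lin 2 (fun z => pderiv m (fun y => christoffel z.g y c i j) z.x) fun z => (1 / 2) *
      (pderiv m (pderiv i fun y => z.g y j c) z.x + pderiv m (pderiv j fun y => z.g y i c) z.x
        - pderiv m (pderiv c fun y => z.g y i j) z.x) :=
  Lin.of_eq (Lin.const_mul (1 / 2) (Lin.sum Finset.univ fun l => Lin.add
    ((o_dH hH hg1 m c l).mul (O.sub (O.add (hg1 i j l) (hg1 j i l)) (hg1 l i j))).lin
    (Lin.coef (hH c l) (O1.lin (O.sub (O.add (hg2 m i j l) (hg2 m j i l)) (hg2 m l i j))))))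
    (fun z => pd_chr z.hg z.x m c i j) fun z => by
      simp only [Matrix.one_apply, zero_add, ite_mul, one_mul, zero_mul, Finset.sum_ite_eq,
        Finset.mem_univ, if_true]

include hg2 in
theorem l_ric (i j : Fin n) : X.Lin 2 (fun z => ricci z.g z.x i j) fun z =>
    ∑ c, (1 / 2) * (pderiv c (pderiv i fun y => z.g y j c) z.x
      + pderiv c (pderiv j fun y => z.g y i c) z.x - pderiv c (pderiv c fun y => z.g y i j) z.x)
    - ∑ c, (1 / 2) * (pderiv j (pderiv c fun y => z.g y i c) z.x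
      + pderiv j (pderiv i fun y => z.g y c c) z.x - pderiv j (pderiv c fun y => z.g y c i) z.x) :=
  Lin.of_eq (Lin.sub (Lin.add (Lin.sub (Lin.sum Finset.univ fun c => l_dchr hH hg1 hg2 c c i j)
      (Lin.sum Finset.univ fun c => l_dchr hH hg1 hg2 j c c i))
      (O2.lin (O.sum Finset.univ fun c => O.sum Finset.univ fun l =>
        (o_chr hH hg1 c c l).mul (o_chr hH hg1 l i j))))
      (O2.lin (O.sum Finset.univ fun c => O.sum Finset.univ fun l =>
        (o_chr hH hg1 c j l).mul (o_chr hH hg1 l c i))))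
    (fun z => by
      rw [ricci, pd_sum fun c _ => smooth_diff (contDiff_chr z.hg c c i) z.x])
    fun z => by rw [add_zero, sub_zero]

include hg2 hK0 in
theorem l_mu : X.Lin 2 (fun z => energyDensity z.g z.K z.x) fun z => Lmu z.g z.x := by
  have hT : X.O1 1 fun z => traceK z.g z.K z.x :=
    O.sum _ fun i => O.sum _ fun j => (o_H hH i j).mul1 (hK0 i j)
  have hN : X.O2 2 fun z => normSqK z.g z.K z.x :=
    O.sum _ fun i => O.sum _ fun j => O.sum _ fun a => O.sum _ fun b =>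
      O1.mul (((o_H hH i a).mul (o_H hH j b)).mul1 (hK0 i j)) (hK0 a b)
  refine Lin.of_eq (Lin.const_mul (1 / 2) (Lin.sub (Lin.add (Lin.sum Finset.univ fun i =>
    Lin.sum Finset.univ fun j => Lin.coef (hH i j) (l_ric hH hg1 hg2 i j)) (hT.mul hT).lin) hN.lin))
    (fun z => by rw [energyDensity, scalarCurv]; ring) fun z => ?_
  have hs : ∀ a b, (fun y => z.g y a b) = fun y => z.g y b a :=
    fun a b => funext fun y => riem_symm z.hg y a b
  rw [Lmu_eq (sm_riem z.hg)]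
  congr 1
  simp only [Matrix.one_apply, ite_mul, one_mul, zero_mul, Finset.sum_ite_eq, Finset.mem_univ,
    if_true, add_zero, sub_zero, Finset.sum_sub_distrib, Finset.sum_add_distrib, mul_sub, mul_add]
  have e1 : ∑ i, ∑ c, (1 / 2 : ℝ) * pderiv c (pderiv i fun y => z.g y i c) z.x
      = ∑ i, ∑ c, (1 / 2 : ℝ) * pderiv i (pderiv c fun y => z.g y i c) z.x := by
    rw [Finset.sum_comm]
    exact Finset.sum_congr rfl fun i _ => Finset.sum_congr rfl fun c _ => by rw [hs c i]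
  have e2 : ∑ i, ∑ c, (1 / 2 : ℝ) * pderiv c (pderiv c fun y => z.g y i i) z.x
      = ∑ i, ∑ c, (1 / 2 : ℝ) * pderiv i (pderiv i fun y => z.g y c c) z.x := Finset.sum_comm
  have e3 : ∑ i, ∑ c, (1 / 2 : ℝ) * pderiv i (pderiv c fun y => z.g y c i) z.x
      = ∑ i, ∑ c, (1 / 2 : ℝ) * pderiv i (pderiv c fun y => z.g y i c) z.x :=
    Finset.sum_congr rfl fun i _ => Finset.sum_congr rfl fun c _ => by rw [hs c i]
  rw [e1, e2, e3]
  simp only [← Finset.mul_sum]
  ring

include hK0 hK1 in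
theorem l_J (i : Fin n) :
    X.Lin 2 (fun z => momentumDensity z.g z.K z.x i) fun z => LJ z.K z.x i := by
  refine Lin.of_eq (Lin.sub (Lin.sum Finset.univ fun j => Lin.sum Finset.univ fun c =>
    Lin.coef (hH j c) (Lin.sub (Lin.sub (hK1 c i j).lin
      (O2.lin (O.sum Finset.univ fun l => (o_chr hH hg1 l c i).mul (hK0 l j))))
      (O2.lin (O.sum Finset.univ fun l => (o_chr hH hg1 l c j).mul (hK0 i l)))))
    (Lin.sum Finset.univ fun a => Lin.sum Finset.univ fun b =>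
      Lin.add ((o_dH hH hg1 i a b).mul (hK0 a b)).lin (Lin.coef (hH a b) (hK1 i a b).lin)))
    (fun z => by rw [momentumDensity, pd_traceK z.hg z.hK]; rfl) fun z => ?_
  rw [LJ_eq z.hK]
  simp only [Matrix.one_apply, ite_mul, one_mul, zero_mul, Finset.sum_ite_eq, Finset.mem_univ,
    if_true, zero_add, sub_zero]

end First

end Crest.Agent.N346.P0

end
end

-- ▼ part N346/P0/JL
section

/-! Row 346, Part 0, leaf JL (helper47): `jl : JLStmt`, `jlap : JLapStmt`. -/

set_option autoImplicit false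
open MeasureTheory Filter Topology Matrix
open scoped ContDiff
open Crest.GeometryTopology.CoordMetric
open Crest.MathPhysics.ExteriorData

noncomputable section

namespace Crest.Agent.N346.P0
open Bs JLc JLc.Cx

variable {n : ℕ} {g g' K K' k k' : MetricField n}

theorem pd_entry_sub (hk : Sm k) (hk' : Sm k') (m i j : Fin n) :
    pderiv m (fun y => (k' y - k y) i j)
      = fun x => pderiv m (fun y => k' y i j) x - pderiv m (fun y => k y i j) x :=
  funext fun x => pd_sub (smooth_diff (hk' i j) x) (smooth_diff (hk i j) x) m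

theorem pd_pd_entry_sub (hk : Sm k) (hk' : Sm k') (l m i j : Fin n) (x : E n) :
    pderiv l (pderiv m fun y => (k' y - k y) i j) x
      = pderiv l (pderiv m fun y => k' y i j) x - pderiv l (pderiv m fun y => k y i j) x := by
  rw [pd_entry_sub hk hk']
  exact pd_sub (smooth_diff (contDiff_pd (hk' i j) m) x) (smooth_diff (contDiff_pd (hk i j) m) x) l

theorem pd_entry_sub_one (k : MetricField n) (m i j : Fin n) :
    pderiv m (fun y => (k y - 1) i j) = pderiv m fun y => k y i j :=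
  funext fun x => pd_sub_const _ _ m x

theorem Lmu_sub' (hk : Sm k) (hk' : Sm k') (x : E n) :
    Lmu (fun y => k' y - k y) x = Lmu k' x - Lmu k x := by
  rw [Lmu_eq (hk'.sub hk), Lmu_eq hk, Lmu_eq hk', ← mul_sub, ← Finset.sum_sub_distrib]
  congr 1
  refine Finset.sum_congr rfl fun i _ => ?_
  rw [← Finset.sum_sub_distrib]
  refine Finset.sum_congr rfl fun j _ => ?_
  rw [pd_pd_entry_sub hk hk', pd_pd_entry_sub hk hk']
  ring

theorem LJ_sub' (hk : Sm K) (hk' : Sm K') (x : E n) (i : Fin n) :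
    LJ (fun y => K' y - K y) x i = LJ K' x i - LJ K x i := by
  rw [LJ_eq (hk'.sub hk), LJ_eq hk, LJ_eq hk']
  simp only [pd_entry_sub hk hk', Finset.sum_sub_distrib]
  ring

theorem abs_inv_sub_one_le {Λ α : ℝ} (hΛ : 1 ≤ Λ) {x : E n} (hg : (g x).PosDef) (hL : Lo Λ g x)
    (h : ∀ i j, |(g x - 1) i j| ≤ α) (i j : Fin n) :
    |inverseField g x i j - (1 : Matrix (Fin n) (Fin n) ℝ) i j| ≤ n * (n * (Λ * Λ)) * α := by
  have := abs_inv_sub_le (A := 1) (B := g x) PosDef.one hg (L := Λ) (fun i j => by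
    rw [inv_one, Matrix.one_apply]
    split_ifs <;> simp <;> linarith) (hL.abs_inv_le (by linarith) hg) h i j
  rwa [inv_one] at this

/-- configurations of `JLStmt` -/
structure Cf (n : ℕ) (Λ : ℝ) where
  g : MetricField n
  g' : MetricField n
  K : MetricField n
  K' : MetricField n
  x : E n
  r : ℝ
  α : ℝ
  β : ℝ
  hg : IsRiemannianOn g Set.univ
  hg' : IsRiemannianOn g' Set.univ
  hK : Sm K
  hK' : Sm K'
  hr : 0 < r
  α0 : 0 ≤ α
  αL : α ≤ Λ
  β0 : 0 ≤ β
  βL : β ≤ Λ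
  lo : Lo Λ g x
  lo' : Lo Λ g' x
  j1 : JB (fun y => g y - 1) K x r α
  j2 : JB (fun y => g' y - g y) (fun y => K' y - K y) x r β

/-- the context of `JLStmt` -/
def cxJ (n : ℕ) {Λ : ℝ} (hΛ : 1 ≤ Λ) : Cx (Pt n) where
  ι := Cf n Λ
  p c := ⟨c.g, c.K, c.x, c.hg, c.hK⟩
  p' c := ⟨c.g', c.K', c.x, c.hg', c.hK'⟩
  a c := c.α
  b c := c.β
  ρ c := c.r⁻¹
  L := Λ
  a0 c := c.α0
  b0 c := c.β0
  ρ0 c := (inv_pos.2 c.hr).le
  L0 := by linarith
  aL c := c.αL
  bL c := c.βL

theorem jl : JLStmt := by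
  intro n Λ hΛ
  have hΛ0 : 0 < Λ := by linarith
  have hH : ∀ i j, (cxJ n hΛ).O1 0
      fun z => inverseField z.g z.x i j - (1 : Matrix (Fin n) (Fin n) ℝ) i j := fun i j => by
    refine ⟨⟨n * (n * (Λ * Λ)), by positivity, fun c : Cf n Λ => ?_⟩,
      ⟨n * (n * (Λ * Λ)), by positivity, fun c : Cf n Λ => ?_⟩⟩
    · simp only [pow_zero, mul_one]
      exact abs_inv_sub_one_le hΛ (riem_posDef c.hg c.x) c.lo
        (fun i j => (c.j1.1 i j).abs_le) i j
    · simp only [pow_zero, mul_one, sub_sub_sub_cancel_right]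
      exact abs_inv_sub_le (riem_posDef c.hg c.x) (riem_posDef c.hg' c.x)
          (c.lo.abs_inv_le hΛ0 (riem_posDef c.hg c.x))
          (c.lo'.abs_inv_le hΛ0 (riem_posDef c.hg' c.x)) (fun i j => (c.j2.1 i j).abs_le) i j
  have hg1 : ∀ m i j, (cxJ n hΛ).O1 1 fun z => pderiv m (fun y => z.g y i j) z.x := fun m i j => by
    refine ⟨Bd.of_le fun c : Cf n Λ => ?_, Bd.of_le fun c : Cf n Λ => ?_⟩
    · have := (c.j1.1 i j).abs_pd_le m
      rw [pd_entry_sub_one, div_eq_mul_inv, ← pow_one c.r⁻¹] at this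
      exact this
    · have := (c.j2.1 i j).abs_pd_le m
      rw [pd_entry_sub (sm_riem c.hg) (sm_riem c.hg'), div_eq_mul_inv, ← pow_one c.r⁻¹] at this
      exact this
  have hg2 : ∀ l m i j, (cxJ n hΛ).O1 2
      fun z => pderiv l (pderiv m fun y => z.g y i j) z.x := fun l m i j => by
    refine ⟨Bd.of_le fun c : Cf n Λ => ?_, Bd.of_le fun c : Cf n Λ => ?_⟩
    · have := (c.j1.1 i j).abs_pd_pd_le (((sm_riem c.hg).sub (Sm.const 1)) i j) l m
      rw [pd_entry_sub_one, div_eq_mul_inv, ← inv_pow] at this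
      exact this
    · have := (c.j2.1 i j).abs_pd_pd_le (((sm_riem c.hg').sub (sm_riem c.hg)) i j) l m
      rw [pd_pd_entry_sub (sm_riem c.hg) (sm_riem c.hg'), div_eq_mul_inv, ← inv_pow] at this
      exact this
  have hK0 : ∀ i j, (cxJ n hΛ).O1 1 fun z => z.K z.x i j := fun i j => by
    refine ⟨Bd.of_le fun c : Cf n Λ => ?_, Bd.of_le fun c : Cf n Λ => ?_⟩
    · have := (c.j1.2 i j).abs_le
      rw [div_eq_mul_inv, ← pow_one c.r⁻¹] at this
      exact this
    · have := (c.j2.2 i j).abs_le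
      rw [div_eq_mul_inv, ← pow_one c.r⁻¹] at this
      exact this
  have hK1 : ∀ m i j, (cxJ n hΛ).O1 2 fun z => pderiv m (fun y => z.K y i j) z.x := fun m i j => by
    refine ⟨Bd.of_le fun c : Cf n Λ => ?_, Bd.of_le fun c : Cf n Λ => ?_⟩
    · have := (c.j1.2 i j).abs_pd_le m
      rw [div_div, ← sq, div_eq_mul_inv, ← inv_pow] at this
      exact this
    · have := (c.j2.2 i j).abs_pd_le m
      rw [pd_entry_sub c.hK c.hK', div_div, ← sq, div_eq_mul_inv, ← inv_pow] at this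
      exact this
  obtain ⟨C1, hC1, h1⟩ := (l_mu hH hg1 hg2 hK0).bd
  obtain ⟨C2, hC2, h2⟩ := Bd.unif (fun i => (l_J hH hg1 hK0 hK1 i).bd) fun c => by
    have := (cxJ n hΛ).a0 c; have := (cxJ n hΛ).b0 c; have := (cxJ n hΛ).ρ0 c
    positivity
  refine ⟨C1 + C2, by positivity, fun g g' K K' hg hg' hK hK' x r α β hr α0 αL β0 βL lo lo' j1 j2 =>
    ?_⟩
  let c : Cf n Λ := ⟨g, g', K, K', x, r, α, β, hg, hg', hK, hK', hr, α0, αL, β0, βL, lo, lo', j1, j2⟩
  have h0 : 0 ≤ (α + β) * β * r⁻¹ ^ 2 := by positivity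
  rw [div_eq_mul_inv, ← inv_pow, Lmu_sub' (sm_riem hg) (sm_riem hg')]
  refine ⟨(h1 c).trans (mul_le_mul_of_nonneg_right (by linarith) h0), fun i => ?_⟩
  rw [LJ_sub' hK hK']
  exact (h2 i c).trans (mul_le_mul_of_nonneg_right (by linarith) h0)

/-- configurations of `JLapStmt` -/
structure Cl (n : ℕ) (Λ : ℝ) where
  g : MetricField n
  v : E n → ℝ
  x : E n
  r : ℝ
  α : ℝ
  a : ℝ
  hg : IsRiemannianOn g Set.univ
  hv : ContDiff ℝ ∞ v
  hr : 0 < r
  α0 : 0 ≤ α
  αL : α ≤ Λ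
  lo : Lo Λ g x
  j1 : ∀ i j, Jb 1 (fun y => (g y - 1) i j) x r α
  j2 : Jb 2 v x r a

/-- the context of `JLapStmt` -/
def cxL (n : ℕ) {Λ : ℝ} (hΛ : 1 ≤ Λ) : Cx (Pt n) where
  ι := Cl n Λ
  p c := ⟨c.g, fun _ => 0, c.x, c.hg, Sm.const 0⟩
  p' c := ⟨c.g, fun _ => 0, c.x, c.hg, Sm.const 0⟩
  a c := c.α
  b _ := 0
  ρ c := c.r⁻¹
  L := Λ
  a0 c := c.α0
  b0 _ := le_rfl
  ρ0 c := (inv_pos.2 c.hr).le
  L0 := by linarith
  aL c := c.αL
  bL _ := by linarith

theorem jlap : JLapStmt := by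
  intro n Λ hΛ
  have hΛ0 : 0 < Λ := by linarith
  have hH : ∀ i j, (cxL n hΛ).O1 0
      fun z => inverseField z.g z.x i j - (1 : Matrix (Fin n) (Fin n) ℝ) i j := fun i j => by
    refine ⟨⟨n * (n * (Λ * Λ)), by positivity, fun c : Cl n Λ => ?_⟩,
      (Bd.zero _).of_eq fun _ => sub_self _⟩
    simp only [pow_zero, mul_one]
    exact abs_inv_sub_one_le hΛ (riem_posDef c.hg c.x) c.lo
        (fun i j => (c.j1 i j).abs_le) i j
  have hg1 : ∀ m i j, (cxL n hΛ).O1 1 fun z => pderiv m (fun y => z.g y i j) z.x := fun m i j => by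
    refine ⟨Bd.of_le fun c : Cl n Λ => ?_, (Bd.zero _).of_eq fun _ => sub_self _⟩
    have := (c.j1 i j).abs_pd_le m
    rw [pd_entry_sub_one, div_eq_mul_inv, ← pow_one c.r⁻¹] at this
    exact this
  have hv1 : ∀ j, Bd (fun c : Cl n Λ => pderiv j c.v c.x) fun c => c.a * c.r⁻¹ :=
    fun j => Bd.of_le fun c => c.j2.abs_pd_le j
  have hv2 : ∀ i j, Bd (fun c : Cl n Λ => pderiv i (pderiv j c.v) c.x) fun c => c.a * c.r⁻¹ ^ 2 :=
    fun i j => Bd.of_le fun c => by
      have := c.j2.abs_pd_pd_le c.hv i j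
      rwa [div_eq_mul_inv, ← inv_pow] at this
  have key : Bd (fun c : Cl n Λ => laplaceBeltrami c.g c.v c.x - lap c.v c.x)
      fun c => c.α * c.a / c.r ^ 2 := by
    have t1 : ∀ i, Bd (fun c : Cl n Λ => (∑ e, christoffel c.g c.x e e i) *
        ∑ j, inverseField c.g c.x i j * pderiv j c.v c.x) fun c => c.α * c.a / c.r ^ 2 := fun i =>
      ((Bd.sum _ fun e => (o_chr hH hg1 e e i).1).mul
        (Bd.sum _ fun j => (o_H hH i j).1.mul (hv1 j))).mono' fun c : Cl n Λ => le_of_eq (by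
          change c.α * c.r⁻¹ ^ 1 * (c.r⁻¹ ^ 0 * (c.a * c.r⁻¹)) = _
          ring)
    have t2 : ∀ i j, Bd (fun c : Cl n Λ => pderiv i (fun y => inverseField c.g y i j) c.x *
        pderiv j c.v c.x) fun c => c.α * c.a / c.r ^ 2 := fun i j =>
      ((o_dH hH hg1 i i j).1.mul (hv1 j)).mono' fun c : Cl n Λ => le_of_eq (by
          change c.α * c.r⁻¹ ^ 1 * (c.a * c.r⁻¹) = _
          ring)
    have t3 : ∀ i j, Bd (fun c : Cl n Λ =>
        (inverseField c.g c.x i j - (1 : Matrix (Fin n) (Fin n) ℝ) i j) *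
        pderiv i (pderiv j c.v) c.x) fun c => c.α * c.a / c.r ^ 2 := fun i j =>
      ((hH i j).1.mul (hv2 i j)).mono' fun c : Cl n Λ => le_of_eq (by
          change c.α * c.r⁻¹ ^ 0 * (c.a * c.r⁻¹ ^ 2) = _
          ring)
    refine (Bd.sum Finset.univ fun i => (t1 i).add
      (Bd.sum Finset.univ fun j => (t2 i j).add (t3 i j))).of_eq fun c => ?_
    rw [lapB_eq c.hg c.hv, lap, ← Finset.sum_sub_distrib]
    refine Finset.sum_congr rfl fun i _ => ?_
    simp only [sub_mul, Finset.sum_add_distrib, Finset.sum_sub_distrib, Matrix.one_apply, ite_mul,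
      one_mul, zero_mul, Finset.sum_ite_eq, Finset.mem_univ, if_true]
    ring
  obtain ⟨C, hC, h⟩ := key
  exact ⟨C, hC, fun g hg v hv x r α a hr α0 αL lo j1 j2 =>
    h ⟨g, v, x, r, α, a, hg, hv, hr, α0, αL, lo, j1, j2⟩⟩

end Crest.Agent.N346.P0

end
end

-- ▼ part N346/P0/NewtA
section

/-!
Row 346, P0-NEWT (helper30), part 1: convolution calculus and kernel estimates.
-/

set_option autoImplicit false
open MeasureTheory Filter Topology Metric
open scoped ContDiff Convolution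
open Crest.GeometryTopology.CoordMetric
open Crest.MathPhysics.ExteriorData

noncomputable section

namespace Crest.Agent.N346.P0.Nw
open Crest.Agent.N346.Bs

variable {n : ℕ} {a b u : E n → ℝ}

/-! ### norms of iterated derivatives and partial derivatives -/

theorem nd_pd_le (hu : ContDiff ℝ ∞ u) (k : ℕ) (i : Fin n) (y : E n) :
    ‖iteratedFDeriv ℝ k (pderiv i u) y‖ ≤ ‖iteratedFDeriv ℝ (k + 1) u y‖ := by
  have h1 := norm_iteratedFDeriv_clm_apply_const (𝕜 := ℝ) (f := fderiv ℝ u)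
    (c := EuclideanSpace.single i (1 : ℝ)) (x := y) (N := ∞) (n := k)
    (hu.fderiv_right (m := ∞) le_rfl).contDiffAt (natle k)
  rw [norm_iteratedFDeriv_fderiv, EuclideanSpace.norm_single, norm_one, one_mul] at h1
  exact h1

theorem nd_succ_le (hu : ContDiff ℝ ∞ u) (k : ℕ) (y : E n) :
    ‖iteratedFDeriv ℝ (k + 1) u y‖ ≤ ∑ i, ‖iteratedFDeriv ℝ k (pderiv i u) y‖ := by
  set L : Fin n → ℝ →L[ℝ] (E n →L[ℝ] ℝ) := fun i =>
    ContinuousLinearMap.toSpanSingleton ℝ (EuclideanSpace.proj i : E n →L[ℝ] ℝ) with hL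
  have e : fderiv ℝ u = fun z => ∑ i, (L i ∘ pderiv i u) z := by
    funext z; ext w
    simp [hL, fderiv_eq_sum]
  have hn : ∀ i, ‖L i‖ ≤ 1 := fun i => by
    rw [hL, ContinuousLinearMap.norm_toSpanSingleton]
    exact ContinuousLinearMap.opNorm_le_bound _ zero_le_one fun w => by
      simpa using PiLp.norm_apply_le w i
  rw [← norm_iteratedFDeriv_fderiv, e, iteratedFDeriv_fun_sum_apply fun i _ =>
    (((L i).contDiff.comp (contDiff_pd hu i)).of_le (natle k)).contDiffAt]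
  refine (norm_sum_le _ _).trans (Finset.sum_le_sum fun i _ => ?_)
  exact ((L i).norm_iteratedFDeriv_comp_left (contDiff_pd hu i).contDiffAt (natle k)).trans
    (mul_le_of_le_one_left (norm_nonneg _) (hn i))

theorem abs_pd_le1 (hu : ContDiff ℝ ∞ u) (i : Fin n) (y : E n) :
    |pderiv i u y| ≤ ‖iteratedFDeriv ℝ 1 u y‖ := by simpa using nd_pd_le hu 0 i y

theorem norm_fderiv_pd_le (hu : ContDiff ℝ ∞ u) (i : Fin n) (y : E n) :
    ‖fderiv ℝ (pderiv i u) y‖ ≤ ‖iteratedFDeriv ℝ 2 u y‖ := by simpa using nd_pd_le hu 1 i y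


theorem nd1_le (hu : ContDiff ℝ ∞ u) (y : E n) {c : ℝ} (h : ∀ i, |pderiv i u y| ≤ c) :
    ‖iteratedFDeriv ℝ 1 u y‖ ≤ n * c :=
  (nd_succ_le hu 0 y).trans (by
    simpa using Finset.sum_le_sum (s := Finset.univ) fun i _ => h i)

theorem nd2_le (hu : ContDiff ℝ ∞ u) (y : E n) {c : ℝ}
    (h : ∀ i j, |pderiv j (pderiv i u) y| ≤ c) : ‖iteratedFDeriv ℝ 2 u y‖ ≤ n * (n * c) :=
  (nd_succ_le hu 1 y).trans (by
    simpa using Finset.sum_le_sum (s := Finset.univ) fun i _ => nd1_le (contDiff_pd hu i) y (h i))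

/-! ### convolution -/

/-- `∫ a(z) b(y - z) dz` -/
def cv (a b : E n → ℝ) : E n → ℝ := b ⋆[ContinuousLinearMap.mul ℝ ℝ, volume] a

theorem cv_eq (a b : E n → ℝ) (y : E n) : cv a b y = ∫ z, a z * b (y - z) := by
  rw [cv, convolution_eq_swap]; simp [mul_comm]

theorem cv_eq' (a b : E n → ℝ) (y : E n) : cv a b y = ∫ w, a (y - w) * b w := by
  rw [cv, convolution_def]; simp [mul_comm]

theorem cv_smooth (ha : ContDiff ℝ ∞ a) (hc : HasCompactSupport a) (hb : Continuous b) :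
    ContDiff ℝ ∞ (cv a b) := hc.contDiff_convolution_right _ hb.locallyIntegrable ha

theorem pd_cv (ha : ContDiff ℝ 1 a) (hc : HasCompactSupport a) (hb : Continuous b) (i : Fin n) :
    pderiv i (cv a b) = cv (pderiv i a) b := by
  funext y
  rw [pderiv, cv, (hc.hasFDerivAt_convolution_right _ hb.locallyIntegrable ha y).fderiv,
    convolution_precompR_apply _ hb.locallyIntegrable (hc.fderiv ℝ)
      (ha.continuous_fderiv one_ne_zero)]
  rfl

theorem cv_pd (ha : ContDiff ℝ 1 a) (hc : HasCompactSupport a) (hb : ContDiff ℝ 1 b) (i : Fin n) :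
    cv (pderiv i a) b = cv a (pderiv i b) := by
  funext y
  have h1 : ContDiff ℝ 1 fun z => b (y - z) := hb.comp (contDiff_const.sub contDiff_id)
  have h2 : ∀ z, pderiv i (fun z => b (y - z)) z = -pderiv i b (y - z) := fun z => by
    have := ((hb.differentiable one_ne_zero (y - z)).hasFDerivAt.comp z
      ((hasFDerivAt_id z).const_sub y)).fderiv
    rw [pderiv, show (fun z => b (y - z)) = b ∘ HSub.hSub y from rfl, this]
    simp [pderiv]
  have := ibp ha hc h1 i
  simp only [h2, mul_neg, integral_neg, neg_inj] at this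
  rw [cv_eq, cv_eq, this]

theorem int_cv (ha : Continuous a) (hc : HasCompactSupport a) (hb : Continuous b) (y : E n) :
    Integrable fun z => a z * b (y - z) :=
  (ha.mul (hb.comp (continuous_const.sub continuous_id))).integrable_of_hasCompactSupport
    hc.mul_right

theorem cv_sum (ha : Continuous a) (hc : HasCompactSupport a) {b : Fin n → E n → ℝ}
    (hb : ∀ i, Continuous (b i)) (y : E n) :
    ∑ i, cv a (b i) y = cv a (fun w => ∑ i, b i w) y := by
  simp only [cv_eq, Finset.mul_sum]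
  rw [integral_finsetSum _ fun i _ => int_cv ha hc (hb i) y]

theorem lap_cv (ha : ContDiff ℝ ∞ a) (hc : HasCompactSupport a) (hb : ContDiff ℝ ∞ b) (y : E n) :
    lap (cv a b) y = cv a (lap b) y := by
  have h : ∀ i, pderiv i (pderiv i (cv a b)) = cv a (pderiv i (pderiv i b)) := fun i => by
    rw [pd_cv (smooth_one ha) hc hb.continuous, cv_pd (smooth_one ha) hc (smooth_one hb),
      pd_cv (smooth_one ha) hc (contDiff_pd hb i).continuous,
      cv_pd (smooth_one ha) hc (smooth_one (contDiff_pd hb i))]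
  simp only [lap, h]
  exact cv_sum ha.continuous hc (fun i => (contDiff_pd (contDiff_pd hb i) i).continuous) y

theorem cv_bdd {B : ℝ} (hb : Continuous b) (hB : ∀ w, |b w| ≤ B) (k : ℕ) :
    ∀ a : E n → ℝ, ContDiff ℝ ∞ a → HasCompactSupport a →
      ∃ D : ℝ, ∀ y, ‖iteratedFDeriv ℝ k (cv a b) y‖ ≤ D := by
  induction k with
  | zero =>
    intro a ha hc
    refine ⟨∫ z, ‖a z‖ * B, fun y => ?_⟩
    rw [norm_iteratedFDeriv_zero, cv_eq]
    refine norm_integral_le_of_norm_le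
      ((ha.continuous.integrable_of_hasCompactSupport hc).norm.mul_const B)
      (ae_of_all _ fun z => ?_)
    rw [norm_mul]
    exact mul_le_mul_of_nonneg_left (hB _) (norm_nonneg _)
  | succ k ih =>
    intro a ha hc
    choose D hD using fun i => ih (pderiv i a) (contDiff_pd ha i) (hasCompactSupport_pd hc i)
    refine ⟨∑ i, D i, fun y => (nd_succ_le (cv_smooth ha hc hb) k y).trans
      (Finset.sum_le_sum fun i _ => ?_)⟩
    rw [pd_cv (smooth_one ha) hc hb]
    exact hD i y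

/-! ### kernel estimates -/

theorem rpow_cmp {s t x : ℝ} (hs : 0 ≤ s) (hx : 0 < x) (ht : 0 < t) {y : ℝ} (h : x ≤ t * y) :
    y ^ (-s) ≤ t ^ s * x ^ (-s) := by
  have h1 : x / t ≤ y := by rw [div_le_iff₀ ht]; linarith
  refine (Real.rpow_le_rpow_of_nonpos (by positivity) h1 (by linarith)).trans (le_of_eq ?_)
  rw [Real.div_rpow hx.le ht.le, Real.rpow_neg ht.le, div_inv_eq_mul, mul_comm]

theorem int_scale {Φ : E n → ℝ} (hΦ : Integrable Φ) {r : ℝ} (hr : 0 < r) (y : E n) :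
    Integrable (fun z => Φ (r⁻¹ • (y - z))) ∧ ∫ z, Φ (r⁻¹ • (y - z)) = r ^ n * ∫ w, Φ w := by
  refine ⟨(hΦ.comp_smul (inv_pos.2 hr).ne').comp_sub_left y, ?_⟩
  rw [integral_sub_left_eq_self (fun w => Φ (r⁻¹ • w)) volume y,
    Measure.integral_comp_inv_smul_of_nonneg _ _ hr.le]
  simp

/-- far from the support -/
theorem cv_far (n : ℕ) {s : ℝ} (hs : 0 ≤ s) : ∃ C : ℝ, 0 ≤ C ∧ ∀ (a b : E n → ℝ) (m c ε ρ : ℝ),
    0 < ε → 0 < ρ → 0 ≤ c → (∀ z, |a z| ≤ m) → (∀ z, ρ < ‖z‖ → a z = 0) →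
    (∀ w, |b w| ≤ c * (ε + ‖w‖) ^ (-s)) → ∀ y, 2 * ρ ≤ ‖y‖ →
    |cv a b y| ≤ C * m * c * ρ ^ n * (ρ + ‖y‖) ^ (-s) := by
  set Φ : E n → ℝ := (closedBall (0 : E n) 1).indicator fun _ => 1 with hΦ
  have iΦ : Integrable Φ := (integrable_indicator_iff measurableSet_closedBall).2
    (integrableOn_const (measure_closedBall_lt_top).ne)
  have Φ0 : ∀ w, 0 ≤ Φ w := fun w => Set.indicator_nonneg (fun _ _ => zero_le_one) w
  refine ⟨3 ^ s * ∫ w, Φ w, mul_nonneg (by positivity) (integral_nonneg Φ0), ?_⟩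
  intro a b m c ε ρ hε hρ hc ha ha0 hb y hy
  have hm : 0 ≤ m := (abs_nonneg _).trans (ha 0)
  obtain ⟨i1, i2⟩ := int_scale iΦ hρ 0
  rw [cv_eq, ← Real.norm_eq_abs]
  refine (norm_integral_le_of_norm_le (i1.const_mul (m * (c * (3 ^ s * (ρ + ‖y‖) ^ (-s)))))
    (ae_of_all _ fun z => ?_)).trans (le_of_eq ?_)
  · rcases lt_or_ge ρ ‖z‖ with hz | hz
    · rw [ha0 z hz, zero_mul, norm_zero]
      exact mul_nonneg (by positivity) (Φ0 _)
    · have h1 : Φ (ρ⁻¹ • (0 - z)) = 1 := Set.indicator_of_mem (by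
        rw [mem_closedBall_zero_iff, norm_smul, zero_sub, norm_neg, norm_inv,
          Real.norm_of_nonneg hρ.le, inv_mul_le_iff₀ hρ]; linarith) _
      have h2 : (ε + ‖y - z‖) ^ (-s) ≤ 3 ^ s * (ρ + ‖y‖) ^ (-s) :=
        rpow_cmp hs (by positivity) (by norm_num) (by linarith [norm_sub_norm_le y z])
      rw [h1, mul_one, norm_mul]
      exact mul_le_mul (ha z) ((hb _).trans (by gcongr)) (norm_nonneg _) hm
  · rw [integral_const_mul, i2]; ring

/-- near the support (integrable singularity) -/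
theorem cv_near (n : ℕ) (hn : 1 ≤ n) {s : ℝ} (hs : 0 ≤ s) (hsn : s < n) : ∃ C : ℝ, 0 ≤ C ∧
    ∀ (a b : E n → ℝ) (m c ε ρ : ℝ),
    0 < ε → 0 < ρ → 0 ≤ c → (∀ z, |a z| ≤ m) → (∀ z, ρ < ‖z‖ → a z = 0) →
    (∀ w, |b w| ≤ c * (ε + ‖w‖) ^ (-s)) → ∀ y, ‖y‖ ≤ 2 * ρ →
    |cv a b y| ≤ C * m * c * ρ ^ n * (ρ + ‖y‖) ^ (-s) := by
  set Φ : E n → ℝ := (ball (0 : E n) 1).indicator fun w => ‖w‖ ^ (-s) with hΦ
  have iΦ : Integrable Φ := (integrable_indicator_iff measurableSet_ball).2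
    (integrableOn_ball_of_norm_le_rpow (C := 1) (α := s) (by simpa using hn) (by simpa using hsn)
      (ae_of_all _ fun w => by rw [one_mul, Real.norm_of_nonneg (by positivity)])
      (Measurable.aestronglyMeasurable (by fun_prop)))
  have Φ0 : ∀ w, 0 ≤ Φ w := fun w => Set.indicator_nonneg (fun _ _ => by positivity) w
  refine ⟨4 ^ n * ∫ w, Φ w, mul_nonneg (by positivity) (integral_nonneg Φ0), ?_⟩
  intro a b m c ε ρ hε hρ hc ha ha0 hb y hy
  have hm : 0 ≤ m := (abs_nonneg _).trans (ha 0)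
  have hρ4 : 0 < 4 * ρ := by positivity
  obtain ⟨i1, i2⟩ := int_scale iΦ hρ4 y
  have : Nontrivial (E n) := Module.nontrivial_of_finrank_pos (R := ℝ) (by simp; omega)
  rw [cv_eq, ← Real.norm_eq_abs]
  refine (norm_integral_le_of_norm_le (i1.const_mul (m * (c * (4 * ρ) ^ (-s)))) ?_).trans ?_
  · filter_upwards [compl_mem_ae_iff.2 (measure_singleton y)] with z hzy
    have hw : 0 < ‖y - z‖ := norm_pos_iff.2 (sub_ne_zero.2 (Ne.symm hzy))
    rcases lt_or_ge ρ ‖z‖ with hz | hz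
    · rw [ha0 z hz, zero_mul, norm_zero]
      exact mul_nonneg (by positivity) (Φ0 _)
    · have h0 : ‖(4 * ρ)⁻¹ • (y - z)‖ = ‖y - z‖ / (4 * ρ) := by
        rw [norm_smul, norm_inv, Real.norm_of_nonneg hρ4.le, div_eq_inv_mul]
      have h1 : Φ ((4 * ρ)⁻¹ • (y - z)) = (‖y - z‖ / (4 * ρ)) ^ (-s) := by
        rw [← h0]
        exact Set.indicator_of_mem (by
          rw [mem_ball_zero_iff, h0, div_lt_one hρ4]; linarith [norm_sub_le y z]) _
      have h2 : (ε + ‖y - z‖) ^ (-s) ≤ (4 * ρ) ^ (-s) * (‖y - z‖ / (4 * ρ)) ^ (-s) := by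
        rw [← Real.mul_rpow hρ4.le (by positivity), mul_div_cancel₀ _ hρ4.ne']
        exact Real.rpow_le_rpow_of_nonpos hw (by linarith) (by linarith)
      rw [h1, norm_mul, mul_assoc, mul_assoc]
      exact mul_le_mul (ha z) ((hb _).trans (by gcongr)) (norm_nonneg _) hm
  · have h3 : (4 * ρ) ^ (-s) ≤ (ρ + ‖y‖) ^ (-s) :=
      Real.rpow_le_rpow_of_nonpos (by positivity) (by linarith) (by linarith)
    have : 0 ≤ ∫ w, Φ w := integral_nonneg Φ0
    rw [integral_const_mul, i2, mul_pow]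
    calc m * (c * (4 * ρ) ^ (-s)) * (4 ^ n * ρ ^ n * ∫ w, Φ w)
        ≤ m * (c * (ρ + ‖y‖) ^ (-s)) * (4 ^ n * ρ ^ n * ∫ w, Φ w) := by gcongr
      _ = _ := by ring

theorem cv_all (n : ℕ) (hn : 1 ≤ n) {s : ℝ} (hs : 0 ≤ s) (hsn : s < n) : ∃ C : ℝ, 0 ≤ C ∧
    ∀ (a b : E n → ℝ) (m c ε ρ : ℝ),
    0 < ε → 0 < ρ → 0 ≤ c → (∀ z, |a z| ≤ m) → (∀ z, ρ < ‖z‖ → a z = 0) →
    (∀ w, |b w| ≤ c * (ε + ‖w‖) ^ (-s)) → ∀ y,
    |cv a b y| ≤ C * m * c * ρ ^ n * (ρ + ‖y‖) ^ (-s) := by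
  obtain ⟨C1, h1, H1⟩ := cv_far n hs
  obtain ⟨C2, h2, H2⟩ := cv_near n hn hs hsn
  refine ⟨C1 + C2, by positivity, fun a b m c ε ρ hε hρ hc ha ha0 hb y => ?_⟩
  have hm : 0 ≤ m := (abs_nonneg _).trans (ha 0)
  rcases le_total (2 * ρ) ‖y‖ with hy | hy
  · exact (H1 a b m c ε ρ hε hρ hc ha ha0 hb y hy).trans (by gcongr; linarith)
  · exact (H2 a b m c ε ρ hε hρ hc ha ha0 hb y hy).trans (by gcongr; linarith)

end Crest.Agent.N346.P0.Nw

end
end

-- ▼ part N346/P0/Newt
section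

/-!
Row 346, P0-NEWT (helper30), part 2: `newt : HomStmt → NewtStmt`.
-/

set_option autoImplicit false
open MeasureTheory Filter Topology Metric
open scoped ContDiff
open Crest.GeometryTopology.CoordMetric
open Crest.MathPhysics.ExteriorData

noncomputable section

namespace Crest.Agent.N346.P0
namespace Nw
open Crest.Agent.N346.Bs

variable {n : ℕ}

theorem br_pos {τ : ℝ} (hτ : 0 < τ) (p : ℝ) (w : E n) : 0 < br τ p w :=
  Real.rpow_pos_of_pos (by positivity) _

theorem br_scale {ε : ℝ} (hε : 0 < ε) (w : E n) :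
    ε ^ 2 * br ε (((n : ℝ) - 2) / 2 + 2) w
      = (ε ^ n)⁻¹ * br 1 (((n : ℝ) - 2) / 2 + 2) (ε⁻¹ • w) := by
  have h1 : ε ^ 2 + ‖w‖ ^ 2 = ε ^ 2 * (1 ^ 2 + ‖ε⁻¹ • w‖ ^ 2) := by
    rw [norm_smul, norm_inv, Real.norm_of_nonneg hε.le]; field_simp
  have h2 : ε ^ 2 * (ε ^ 2) ^ (-(((n : ℝ) - 2) / 2 + 2)) = (ε ^ n)⁻¹ := by
    rw [← Real.rpow_natCast ε 2, ← Real.rpow_mul hε.le, ← Real.rpow_add hε, ← Real.rpow_natCast,
      ← Real.rpow_neg hε.le]
    congr 1; push_cast; ring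
  rw [br, br, h1, Real.mul_rpow (by positivity) (by positivity), ← mul_assoc, h2]

/-- the approximation of the identity -/
theorem approx {G ψ : E n → ℝ} {L ε : ℝ} (hε : 0 < ε) (hG : ContDiff ℝ 1 G) {M : ℝ}
    (hM : ∀ y, |G y| ≤ M) (hL : ∀ y, ‖fderiv ℝ G y‖ ≤ L) (hψ0 : ∀ w, 0 ≤ ψ w)
    (hψ : Integrable ψ) (hψ1 : Integrable fun w => ‖w‖ * ψ w) (y : E n) :
    |(∫ w, ψ w) * G y - cv G (fun w => (ε ^ n)⁻¹ * ψ (ε⁻¹ • w)) y|
      ≤ ε * (L * ∫ w, ‖w‖ * ψ w) := by
  have e1 : cv G (fun w => (ε ^ n)⁻¹ * ψ (ε⁻¹ • w)) y = ∫ w, G (y - ε • w) * ψ w := by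
    have := Measure.integral_comp_inv_smul_of_nonneg volume
      (fun w : E n => G (y - ε • w) * ψ w) hε.le
    simp only [smul_inv_smul₀ hε.ne', finrank_euclideanSpace, Fintype.card_fin, smul_eq_mul] at this
    rw [cv_eq']
    simp only [mul_left_comm (G _), integral_const_mul]
    rw [this, inv_mul_cancel_left₀ (by positivity)]
  have i1 : Integrable fun w => G (y - ε • w) * ψ w :=
    hψ.bdd_mul (c := M) (hG.continuous.comp (by fun_prop)).aestronglyMeasurable
      (ae_of_all _ fun w => hM _)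
  rw [e1, mul_comm _ (G y), ← integral_const_mul, ← integral_sub (hψ.const_mul _) i1,
    ← Real.norm_eq_abs, ← mul_assoc, ← integral_const_mul]
  refine norm_integral_le_of_norm_le (hψ1.const_mul _) (ae_of_all _ fun w => ?_)
  have h1 := convex_univ.norm_image_sub_le_of_norm_fderiv_le (𝕜 := ℝ) (f := G)
    (fun x _ => hG.differentiable one_ne_zero x) (fun x _ => hL x) (Set.mem_univ (y - ε • w))
    (Set.mem_univ y)
  rw [sub_sub_cancel, norm_smul, Real.norm_of_nonneg hε.le] at h1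
  rw [← sub_mul, norm_mul, Real.norm_of_nonneg (hψ0 w)]
  calc ‖G y - G (y - ε • w)‖ * ψ w ≤ L * (ε * ‖w‖) * ψ w :=
        mul_le_mul_of_nonneg_right h1 (hψ0 w)
    _ = _ := by ring

/-- extra decay for mean zero sources -/
theorem cv_mean {G b : E n → ℝ} {ρ c ε : ℝ} (hε : 0 < ε) (hε1 : ε ≤ 1) (hρ : 0 < ρ) (hc : 0 ≤ c)
    (hG : Continuous G) (hG0 : ∀ z, ρ < ‖z‖ → G z = 0) (h0 : ∫ z, G z = 0) (hb : ContDiff ℝ 1 b)
    (hb' : ∀ w, ‖fderiv ℝ b w‖ ≤ c * (ε + ‖w‖) ^ (-(n : ℝ))) :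
    ∃ D : ℝ, ∀ y, |cv G b y| ≤ D * (1 + ‖y‖) ^ (-(n : ℝ)) := by
  have hGc : HasCompactSupport G := hasCompactSupport_of_far hG0
  have iG : Integrable G := hG.integrable_of_hasCompactSupport hGc
  set t := ((1 + ρ) / ε) ^ (n : ℝ) with ht
  have ht0 : 0 ≤ t := by positivity
  refine ⟨(∫ z, ‖G z‖) * (c * t * ρ), fun y => ?_⟩
  have e : cv G b y = ∫ z, G z * (b (y - z) - b y) := by
    simp only [mul_sub]
    rw [integral_sub (int_cv hG hGc hb.continuous y) (iG.mul_const _), integral_mul_const, h0,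
      zero_mul, sub_zero, cv_eq]
  rw [e, mul_assoc, ← integral_mul_const, ← Real.norm_eq_abs]
  refine norm_integral_le_of_norm_le (iG.norm.mul_const _) (ae_of_all _ fun z => ?_)
  rcases lt_or_ge ρ ‖z‖ with hz | hz
  · simp [hG0 z hz]
  rw [norm_mul]
  refine mul_le_mul_of_nonneg_left ?_ (norm_nonneg _)
  have h1 := (convex_closedBall y ρ).norm_image_sub_le_of_norm_fderiv_le (𝕜 := ℝ) (f := b)
    (C := c * (t * (1 + ‖y‖) ^ (-(n : ℝ)))) (fun x _ => hb.differentiable one_ne_zero x)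
    (fun x hx => (hb' x).trans (mul_le_mul_of_nonneg_left
      (rpow_cmp (by positivity) (by positivity) (by positivity) (by
        have h2 : ‖y‖ ≤ ‖x‖ + ρ := by
          have := norm_sub_norm_le y x
          rw [mem_closedBall, dist_comm, dist_eq_norm] at hx
          linarith
        have h3 : 1 ≤ (1 + ρ) / ε := by rw [le_div_iff₀ hε]; linarith
        have h4 : (1 + ρ) / ε * ε = 1 + ρ := div_mul_cancel₀ _ hε.ne'
        nlinarith [norm_nonneg x])) hc))
    (mem_closedBall_self hρ.le) (show y - z ∈ closedBall y ρ by simpa using hz)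
  refine h1.trans ?_
  rw [sub_sub_cancel_left, norm_neg]
  calc c * (t * (1 + ‖y‖) ^ (-(n : ℝ))) * ‖z‖ ≤ c * (t * (1 + ‖y‖) ^ (-(n : ℝ))) * ρ := by gcongr
    _ = _ := by ring

end Nw
open Nw Crest.Agent.N346.Bs

set_option maxHeartbeats 400000 in
theorem newt : HomStmt → NewtStmt := by
  intro hom n hn
  have h3 : (3 : ℝ) ≤ n := by exact_mod_cast hn
  have hn1 : 1 ≤ n := by omega
  obtain ⟨p0, hp0⟩ : ∃ p0 : ℝ, p0 = ((n : ℝ) - 2) / 2 := ⟨_, rfl⟩
  obtain ⟨sN, -, lapN, bN⟩ := hom n p0 (by linarith)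
  obtain ⟨sψ, -, -, bψ⟩ := hom n (p0 + 2) (by linarith)
  obtain ⟨c0, hc0, b0⟩ := bN 0
  obtain ⟨c1, hc1, b1⟩ := bN 1
  obtain ⟨c2, hc2, b2⟩ := bN 2
  obtain ⟨c3, hc3, b3⟩ := bψ 0
  have x0 : -(2 * p0) - ((0 : ℕ) : ℝ) = -((n : ℝ) - 2) := by rw [hp0]; push_cast; ring
  have x1 : -(2 * p0) - ((1 : ℕ) : ℝ) = -((n : ℝ) - 1) := by rw [hp0]; push_cast; ring
  have x2 : -(2 * p0) - ((2 : ℕ) : ℝ) = -(n : ℝ) := by rw [hp0]; push_cast; ring
  have x3 : -(2 * (p0 + 2)) - ((0 : ℕ) : ℝ) = -((n : ℝ) + 2) := by rw [hp0]; push_cast; ring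
  simp only [x0, norm_iteratedFDeriv_zero, Real.norm_eq_abs] at b0
  simp only [x3, norm_iteratedFDeriv_zero, Real.norm_eq_abs] at b3
  simp only [x1] at b1
  simp only [x2] at b2
  obtain ⟨A0, hA0, H0⟩ := cv_all n hn1 (s := (n : ℝ) - 2) (by linarith) (by linarith)
  obtain ⟨A1, hA1, H1⟩ := cv_all n hn1 (s := (n : ℝ) - 1) (by linarith) (by linarith)
  obtain ⟨A2, hA2, H2⟩ := cv_far n (s := (n : ℝ)) (by linarith)
  obtain ⟨A3, hA3, H3⟩ := cv_far n (s := (n : ℝ) + 2) (by linarith)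
  -- the profile
  obtain ⟨ψ, hψ⟩ : ∃ ψ : E n → ℝ, ψ = br 1 (p0 + 2) := ⟨_, rfl⟩
  have ψ0 : ∀ w, 0 < ψ w := hψ ▸ br_pos one_pos _
  have cψ : Continuous ψ := hψ ▸ (sψ 1 one_pos).continuous
  have iψ1 : Integrable fun w : E n => (1 + ‖w‖) * ψ w := by
    refine ((integrable_one_add_norm (E := E n) (μ := volume) (r := (n : ℝ) + 1)
      (by simp)).const_mul c3).mono' ((continuous_const.add continuous_norm).mul
      cψ).aestronglyMeasurable (ae_of_all _ fun w => ?_)
    have h1 : 0 < 1 + ‖w‖ := by positivity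
    rw [norm_mul, Real.norm_of_nonneg h1.le, hψ]
    refine (mul_le_mul_of_nonneg_left (b3 1 one_pos w) h1.le).trans (le_of_eq ?_)
    rw [show -((n : ℝ) + 1) = -((n : ℝ) + 2) + 1 by ring, Real.rpow_add h1, Real.rpow_one]; ring
  have iψ : Integrable ψ := iψ1.mono' cψ.aestronglyMeasurable (ae_of_all _ fun w => by
    rw [Real.norm_of_nonneg (ψ0 w).le]
    exact le_mul_of_one_le_left (ψ0 w).le (by simp))
  have iψ2 : Integrable fun w : E n => ‖w‖ * ψ w :=
    iψ1.mono' (continuous_norm.mul cψ).aestronglyMeasurable (ae_of_all _ fun w => by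
      rw [Real.norm_of_nonneg (mul_nonneg (norm_nonneg _) (ψ0 w).le)]
      exact mul_le_mul_of_nonneg_right (by simp) (ψ0 w).le)
  obtain ⟨I, hI⟩ : ∃ I : ℝ, I = ∫ w, ψ w := ⟨_, rfl⟩
  have hI0 : 0 < I := by
    rw [hI, integral_pos_iff_support_of_nonneg (fun w => (ψ0 w).le) iψ,
      Set.eq_univ_of_forall (s := Function.support ψ) fun w => (ψ0 w).ne']
    exact Measure.measure_univ_pos.2 (NeZero.ne _)
  obtain ⟨J, hJ⟩ : ∃ J : ℝ, J = ∫ w, ‖w‖ * ψ w := ⟨_, rfl⟩
  have hJ0 : 0 ≤ J := hJ ▸ integral_nonneg fun w => mul_nonneg (norm_nonneg _) (ψ0 w).le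
  obtain ⟨κ, hκ⟩ : ∃ κ : ℝ, κ = (n * (n - 2) * I)⁻¹ := ⟨_, rfl⟩
  have hnn : 0 < (n : ℝ) * (n - 2) := mul_pos (by linarith) (by linarith)
  have hκ0 : 0 < κ := hκ ▸ inv_pos.2 (mul_pos hnn hI0)
  refine ⟨κ * (A0 * c0) + κ * (n * (A1 * c1)) + κ * (n * (n * (3 * (A1 * c1) + A2 * c2))),
    by positivity, ?_⟩
  intro G ρ M hG hρ hG0 hJb η hη
  have hρ0 : 0 < ρ := by linarith
  have hM : ∀ y, |G y| ≤ M := fun y => (hJb y).abs_le
  have hM0 : 0 ≤ M := (hJb 0).nonneg
  have hG0' : ∀ z, ρ < ‖z‖ → G z = 0 := fun z hz => hG0 z hz.le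
  have hGc : HasCompactSupport G := hasCompactSupport_of_far hG0'
  -- the choice of `ε`
  obtain ⟨D, hD⟩ : ∃ D : ℝ,
      D = I⁻¹ * (M / ρ * J * (1 + 2 * ρ) ^ ((n : ℝ) + 1) + A3 * M * c3 * ρ ^ n) := ⟨_, rfl⟩
  have hD0 : 0 ≤ D := by rw [hD]; positivity
  obtain ⟨ε, hεd⟩ : ∃ ε : ℝ, ε = min 1 (η / (D + 1)) := ⟨_, rfl⟩
  have hε : 0 < ε := hεd ▸ lt_min one_pos (by positivity)
  have hε1 : ε ≤ 1 := hεd ▸ min_le_left _ _
  have hεD : ε * D ≤ η := by
    have : ε ≤ η / (D + 1) := hεd ▸ min_le_right _ _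
    rw [le_div_iff₀ (by positivity)] at this
    linarith only [this, hε]
  obtain ⟨N, hN⟩ : ∃ N : E n → ℝ, N = fun w => κ * br ε p0 w := ⟨_, rfl⟩
  have sN' : ContDiff ℝ ∞ N := hN ▸ contDiff_const.mul (sN ε hε)
  have ndN : ∀ (k : ℕ) w, ‖iteratedFDeriv ℝ k N w‖ = κ * ‖iteratedFDeriv ℝ k (br ε p0) w‖ := by
    intro k w
    have := iteratedFDeriv_const_smul_apply (𝕜 := ℝ) (i := k) (a := κ) (x := w)
      ((sN ε hε).of_le (natle k)).contDiffAt
    rw [show N = κ • br ε p0 from hN, this, norm_smul, Real.norm_of_nonneg hκ0.le]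
  have n0 : ∀ w, |N w| ≤ κ * c0 * (ε + ‖w‖) ^ (-((n : ℝ) - 2)) := fun w => by
    rw [hN, abs_mul, abs_of_pos hκ0, mul_assoc]
    exact mul_le_mul_of_nonneg_left (b0 ε hε w) hκ0.le
  have n1 : ∀ i w, |pderiv i N w| ≤ κ * c1 * (ε + ‖w‖) ^ (-((n : ℝ) - 1)) := fun i w => by
    refine (abs_pd_le1 sN' i w).trans ?_
    rw [ndN, mul_assoc]
    exact mul_le_mul_of_nonneg_left (b1 ε hε w) hκ0.le
  have n2' : ∀ i w, ‖fderiv ℝ (pderiv i N) w‖ ≤ κ * c2 * (ε + ‖w‖) ^ (-(n : ℝ)) := fun i w => by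
    refine (norm_fderiv_pd_le sN' i w).trans ?_
    rw [ndN, mul_assoc]
    exact mul_le_mul_of_nonneg_left (b2 ε hε w) hκ0.le
  have n2 : ∀ i j w, |pderiv j (pderiv i N) w| ≤ κ * c2 * (ε + ‖w‖) ^ (-(n : ℝ)) :=
    fun i j w => (abs_pd_le j _ w).trans (n2' i w)
  have su : ContDiff ℝ ∞ (cv G N) := cv_smooth hG hGc sN'.continuous
  have d1 : ∀ i, pderiv i (cv G N) = cv G (pderiv i N) := fun i => by
    rw [pd_cv (smooth_one hG) hGc sN'.continuous, cv_pd (smooth_one hG) hGc (smooth_one sN')]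
  have d2 : ∀ i j, pderiv j (pderiv i (cv G N)) = cv (pderiv j G) (pderiv i N) := fun i j => by
    rw [d1, pd_cv (smooth_one hG) hGc (contDiff_pd sN' i).continuous]
  have d2' : ∀ i j, pderiv j (pderiv i (cv G N)) = cv G (pderiv j (pderiv i N)) := fun i j => by
    rw [d2, cv_pd (smooth_one hG) hGc (smooth_one (contDiff_pd sN' i))]
  refine ⟨cv G N, su, fun k hk y => ?_, fun y => ?_, fun k => ?_, fun h0 => ?_⟩
  · have hy : 0 < ρ + ‖y‖ := by positivity
    have q0 : 0 ≤ κ * (A0 * c0) := by positivity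
    have q1 : 0 ≤ κ * (n * (A1 * c1)) := by positivity
    have q2 : 0 ≤ κ * (n * (n * (3 * (A1 * c1) + A2 * c2))) := by positivity
    interval_cases k
    · rw [norm_iteratedFDeriv_zero, show 2 - (n : ℝ) - ((0 : ℕ) : ℝ) = -((n : ℝ) - 2) by simp]
      refine (H0 G N M (κ * c0) ε ρ hε hρ0 (by positivity) hM hG0' n0 y).trans ?_
      gcongr ?_ * _ * _
      exact (show _ = κ * (A0 * c0) * M by ring).trans_le
        (mul_le_mul_of_nonneg_right (by linarith only [q1, q2]) hM0)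
    · rw [show 2 - (n : ℝ) - ((1 : ℕ) : ℝ) = -((n : ℝ) - 1) by push_cast; ring]
      refine (nd1_le su y fun i => by
        rw [d1]; exact H1 G _ M (κ * c1) ε ρ hε hρ0 (by positivity) hM hG0' (n1 i) y).trans ?_
      rw [← mul_assoc, ← mul_assoc]
      gcongr ?_ * _ * _
      exact (show _ = κ * (n * (A1 * c1)) * M by ring).trans_le
        (mul_le_mul_of_nonneg_right (by linarith only [q0, q2]) hM0)
    · rw [show 2 - (n : ℝ) - ((2 : ℕ) : ℝ) = -(n : ℝ) by push_cast; ring]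
      have key : ∀ i j, |pderiv j (pderiv i (cv G N)) y|
          ≤ κ * (3 * (A1 * c1) + A2 * c2) * M * ρ ^ n * (ρ + ‖y‖) ^ (-(n : ℝ)) := by
        intro i j
        rcases le_total (2 * ρ) ‖y‖ with h | h
        · rw [d2']
          refine (H2 G _ M (κ * c2) ε ρ hε hρ0 (by positivity) hM hG0' (n2 i j) y h).trans ?_
          gcongr ?_ * _ * _
          linarith only [mul_nonneg (mul_nonneg hκ0.le (mul_nonneg hA1 hc1)) hM0]
        · rw [d2]
          refine (H1 _ _ (M / ρ) (κ * c1) ε ρ hε hρ0 (by positivity)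
            (fun z => (hJb z).abs_pd_le j) (fun z hz => pd_of_far hG0 hz j) (n1 i) y).trans ?_
          have e : (ρ + ‖y‖) ^ (-((n : ℝ) - 1)) = (ρ + ‖y‖) * (ρ + ‖y‖) ^ (-(n : ℝ)) := by
            rw [show -((n : ℝ) - 1) = -(n : ℝ) + 1 by ring, Real.rpow_add hy, Real.rpow_one, mul_comm]
          have h5 : M / ρ * (ρ + ‖y‖) ≤ 3 * M := by
            rw [div_mul_eq_mul_div, div_le_iff₀ hρ0]; nlinarith only [hM0, h]
          calc A1 * (M / ρ) * (κ * c1) * ρ ^ n * (ρ + ‖y‖) ^ (-((n : ℝ) - 1))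
              = κ * (A1 * c1) * (M / ρ * (ρ + ‖y‖)) * ρ ^ n * (ρ + ‖y‖) ^ (-(n : ℝ)) := by
                rw [e]; ring
            _ ≤ κ * (A1 * c1) * (3 * M) * ρ ^ n * (ρ + ‖y‖) ^ (-(n : ℝ)) := by gcongr
            _ ≤ _ := by
                gcongr ?_ * _ * _
                linarith only [mul_nonneg (mul_nonneg hκ0.le (mul_nonneg hA2 hc2)) hM0]
      refine (nd2_le su y key).trans ?_
      rw [← mul_assoc, ← mul_assoc, ← mul_assoc, ← mul_assoc]
      gcongr ?_ * _ * _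
      exact (show _ = κ * (n * (n * (3 * (A1 * c1) + A2 * c2))) * M by ring).trans_le
        (mul_le_mul_of_nonneg_right (by linarith only [q0, q1]) hM0)
  · have hy : 0 < 1 + ‖y‖ := by positivity
    have eN : lap N = fun w => -I⁻¹ * (ε ^ 2 * br ε (p0 + 2) w) := by
      funext w
      have : lap N w = κ * lap (br ε p0) w := by
        simp only [lap, hN, funext (pd_const_mul κ (br ε p0) _), pd_const_mul, Finset.mul_sum]
      rw [this, lapN ε hε, hκ, hp0]
      have : (n : ℝ) - 2 ≠ 0 := by linarith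
      have : (n : ℝ) ≠ 0 := by linarith
      field_simp; ring
    have eL : lap (cv G N) y = -I⁻¹ * cv G (fun w => ε ^ 2 * br ε (p0 + 2) w) y := by
      rw [lap_cv hG hGc sN', eN, cv_eq, cv_eq, ← integral_const_mul]
      exact integral_congr_ae (ae_of_all _ fun z => by simp only; ring)
    have e2 : lap (cv G N) y + G y
        = I⁻¹ * (I * G y - cv G (fun w => ε ^ 2 * br ε (p0 + 2) w) y) := by
      rw [eL]; field_simp; ring
    rw [e2, abs_mul, abs_of_pos (inv_pos.2 hI0)]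
    refine le_trans ?_ (mul_le_mul_of_nonneg_right hεD (by positivity))
    rw [hD, mul_left_comm ε, mul_assoc]
    refine mul_le_mul_of_nonneg_left ?_ (inv_pos.2 hI0).le
    have q1 : 0 ≤ M / ρ * J * (1 + 2 * ρ) ^ ((n : ℝ) + 1) := by positivity
    have q2 : 0 ≤ A3 * M * c3 * ρ ^ n := by positivity
    rcases le_total (2 * ρ) ‖y‖ with h | h
    · rw [hG0 y (by linarith), mul_zero, zero_sub, abs_neg]
      refine (H3 G _ M (ε ^ 2 * c3) ε ρ hε hρ0 (by positivity) hM hG0' (fun w => by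
        rw [abs_mul, abs_of_pos (by positivity : 0 < ε ^ 2), mul_assoc]
        exact mul_le_mul_of_nonneg_left (b3 ε hε w) (by positivity)) y h).trans ?_
      have h5 : (ρ + ‖y‖) ^ (-((n : ℝ) + 2)) ≤ (1 + ‖y‖) ^ (-(n : ℝ) - 1) :=
        (Real.rpow_le_rpow_of_nonpos hy (by linarith) (by linarith)).trans
          (Real.rpow_le_rpow_of_exponent_le (by simp) (by linarith))
      have h6 : ε ^ 2 ≤ ε := by nlinarith only [hε, hε1]
      calc A3 * M * (ε ^ 2 * c3) * ρ ^ n * (ρ + ‖y‖) ^ (-((n : ℝ) + 2))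
          ≤ A3 * M * (ε * c3) * ρ ^ n * (1 + ‖y‖) ^ (-(n : ℝ) - 1) := by gcongr
        _ = ε * (A3 * M * c3 * ρ ^ n) * (1 + ‖y‖) ^ (-(n : ℝ) - 1) := by ring
        _ ≤ _ := by gcongr; linarith
    · have h4 := approx (ψ := ψ) hε (smooth_one hG) hM (fun z => (hJb z).norm_fderiv_le)
        (fun w => (ψ0 w).le) iψ iψ2 y
      rw [← hI, ← hJ] at h4
      simp only [hψ, hp0, ← br_scale hε] at h4
      rw [← hp0] at h4
      refine h4.trans ?_
      have h5 : 1 ≤ (1 + 2 * ρ) ^ ((n : ℝ) + 1) * (1 + ‖y‖) ^ (-(n : ℝ) - 1) := by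
        rw [show -(n : ℝ) - 1 = -((n : ℝ) + 1) by ring, Real.rpow_neg hy.le, ← div_eq_mul_inv,
          one_le_div (by positivity)]
        exact Real.rpow_le_rpow hy.le (by linarith) (by linarith)
      calc ε * (M / ρ * J)
          ≤ ε * (M / ρ * J) * ((1 + 2 * ρ) ^ ((n : ℝ) + 1) * (1 + ‖y‖) ^ (-(n : ℝ) - 1)) :=
            le_mul_of_one_le_right (by positivity) h5
        _ = ε * (M / ρ * J * (1 + 2 * ρ) ^ ((n : ℝ) + 1)) * (1 + ‖y‖) ^ (-(n : ℝ) - 1) := by ring
        _ ≤ _ := by gcongr; linarith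
  · refine cv_bdd (B := κ * c0 * ε ^ (-((n : ℝ) - 2))) sN'.continuous
      (fun w => (n0 w).trans ?_) k G hG hGc
    exact mul_le_mul_of_nonneg_left
      (Real.rpow_le_rpow_of_nonpos hε (by simp) (by linarith)) (by positivity)
  · choose D' hD' using fun i => cv_mean hε hε1 hρ0 (by positivity : 0 ≤ κ * c2) hG.continuous hG0'
      h0 (smooth_one (contDiff_pd sN' i)) (n2' i)
    refine ⟨∑ i, D' i, fun y => ?_⟩
    have := nd_succ_le su 0 y
    simp only [norm_iteratedFDeriv_zero, d1] at this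
    rw [Finset.sum_mul, ← norm_iteratedFDeriv_one]
    exact this.trans (Finset.sum_le_sum fun i _ => hD' i y)

end Crest.Agent.N346.P0

end
end

-- ▼ part N346/P0/Hom
section

/-! Row 346, Part 0 (helper6): `hom : HomStmt`, `vv : HomStmt → VStmt`. -/

set_option autoImplicit false
open MeasureTheory Filter Topology Matrix
open scoped ContDiff
open Crest.GeometryTopology.CoordMetric
open Crest.MathPhysics.ExteriorData

noncomputable section

namespace Crest.Agent.N346.P0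
open Bs

variable {n : ℕ} {f : E n → ℝ} {x : E n} {r τ p : ℝ}

theorem norm_proj_le (i : Fin n) : ‖(EuclideanSpace.proj i : E n →L[ℝ] ℝ)‖ ≤ 1 :=
  ContinuousLinearMap.opNorm_le_bound _ zero_le_one fun y => by
    simpa using PiLp.norm_apply_le y i

/-- the `k + 1`-st derivative is bounded by the `k`-th derivatives of the partial derivatives -/
theorem norm_succ_le (hf : ContDiff ℝ ∞ f) (k : ℕ) (x : E n) :
    ‖iteratedFDeriv ℝ (k + 1) f x‖ ≤ ∑ i, ‖iteratedFDeriv ℝ k (pderiv i f) x‖ := by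
  have e : fderiv ℝ f = fun y => ∑ i, (ContinuousLinearMap.toSpanSingleton ℝ
      (EuclideanSpace.proj i : E n →L[ℝ] ℝ) ∘ pderiv i f) y := by
    ext y w
    simp [fderiv_eq_sum]
  rw [← norm_iteratedFDeriv_fderiv, e, iteratedFDeriv_fun_sum_apply fun i _ =>
    ((ContinuousLinearMap.contDiff _).comp ((contDiff_pd hf i).of_le (natle k))).contDiffAt]
  refine (norm_sum_le _ _).trans (Finset.sum_le_sum fun i _ => ?_)
  refine (ContinuousLinearMap.norm_iteratedFDeriv_comp_left _ (contDiff_pd hf i).contDiffAt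
    (natle k)).trans (mul_le_of_le_one_left (norm_nonneg _) ?_)
  rw [ContinuousLinearMap.norm_toSpanSingleton]
  exact norm_proj_le i

theorem Jb.of_pd {j : ℕ} {a b : ℝ} (hf : ContDiff ℝ ∞ f) (hr : 0 < r) (h0 : |f x| ≤ a)
    (h : ∀ i, Jb j (pderiv i f) x r (b / r)) (hb : n * b ≤ a) : Jb (j + 1) f x r a := fun k hk => by
  rcases k with _ | k
  · simpa using h0
  refine (norm_succ_le hf k x).trans ((Finset.sum_le_sum fun i _ => h i k (by omega)).trans ?_)
  simp only [Finset.sum_const, Finset.card_univ, Fintype.card_fin, nsmul_eq_mul]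
  rw [div_div, ← pow_succ', ← mul_div_assoc]
  gcongr

theorem contDiff_coord (i : Fin n) : ContDiff ℝ ∞ fun y : E n => y i :=
  (EuclideanSpace.proj i : E n →L[ℝ] ℝ).contDiff

theorem Jb.coord (j : ℕ) (i : Fin n) (hr : 0 < r) (hx : ‖x‖ ≤ r) :
    Jb j (fun y : E n => y i) x r r := fun k _ => by
  rcases k with _ | k
  · simpa using (PiLp.norm_apply_le x i).trans hx
  have e : fderiv ℝ (fun y : E n => y i) = fun _ => (EuclideanSpace.proj i : E n →L[ℝ] ℝ) :=
    funext fun y => (EuclideanSpace.proj i : E n →L[ℝ] ℝ).fderiv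
  rw [← norm_iteratedFDeriv_fderiv, e]
  rcases k with _ | k
  · simpa [hr.ne'] using norm_proj_le i
  · rw [iteratedFDeriv_const_of_ne (by omega)]
    simp only [Pi.zero_apply, norm_zero]; positivity

theorem br_pos (hτ : 0 < τ) (p : ℝ) (y : E n) : 0 < br τ p y := by unfold br; positivity

theorem rpow_two_mul {s : ℝ} (hs : 0 ≤ s) (p : ℝ) : s ^ (-(2 * p)) = (s ^ 2) ^ (-p) := by
  rw [← Real.rpow_natCast, ← Real.rpow_mul hs]; congr 1; push_cast; ring

theorem le_br (hτ : 0 < τ) (hp : 0 ≤ p) (y : E n) : (τ + ‖y‖) ^ (-(2 * p)) ≤ br τ p y := by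
  rw [rpow_two_mul (by positivity)]
  exact Real.rpow_le_rpow_of_nonpos (by positivity) (by nlinarith [norm_nonneg y]) (by linarith)

theorem br_le (hτ : 0 < τ) (hp : 0 ≤ p) (y : E n) : br τ p y ≤ 2 ^ p * (τ + ‖y‖) ^ (-(2 * p)) := by
  have h : (τ ^ 2 + ‖y‖ ^ 2) ^ (-p) ≤ (2⁻¹ * (τ + ‖y‖) ^ 2) ^ (-p) :=
    Real.rpow_le_rpow_of_nonpos (by positivity) (by nlinarith [sq_nonneg (τ - ‖y‖)]) (by linarith)
  rwa [Real.mul_rpow (by norm_num) (by positivity), Real.inv_rpow (by norm_num),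
    Real.rpow_neg (x := 2) (by norm_num), inv_inv, ← rpow_two_mul (by positivity)] at h

theorem br_add_le (hτ : 0 < τ) (p : ℝ) {e : ℝ} (he : 0 ≤ e) (y : E n) :
    br τ (p + e / 2) y ≤ τ ^ (-e) * br τ p y := by
  unfold br
  rw [neg_add, Real.rpow_add (by positivity), mul_comm, show -e = -(2 * (e / 2)) by ring,
    rpow_two_mul hτ.le]
  gcongr ?_ * _
  exact Real.rpow_le_rpow_of_nonpos (by positivity) (by nlinarith [norm_nonneg y]) (by linarith)

theorem br_succ (hτ : 0 < τ) (p : ℝ) (y : E n) :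
    br τ p y = br τ (p + 1) y * (τ ^ 2 + ‖y‖ ^ 2) := by
  unfold br
  rw [← Real.rpow_add_one (by positivity)]; congr 1; ring

theorem contDiff_br (hτ : 0 < τ) (p : ℝ) : ContDiff ℝ ∞ (br τ p : E n → ℝ) :=
  (contDiff_const.add (contDiff_norm_sq ℝ)).rpow_const_of_ne fun y => by positivity

theorem pd_br (hτ : 0 < τ) (p : ℝ) (y : E n) (i : Fin n) :
    pderiv i (br τ p) y = -(2 * p * br τ (p + 1) y) * y i := by
  have h := pd_comp (u := fun y : E n => τ ^ 2 + ‖y‖ ^ 2) (x := y)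
    (Real.hasDerivAt_rpow_const (p := -p) (.inl (by positivity)))
    (smooth_diff (contDiff_const.add (contDiff_norm_sq ℝ)) y) i
  rw [pd_const_add, pd_normSq] at h
  refine h.trans ?_
  unfold br
  rw [show -(p + 1) = -p - 1 by ring]; ring

theorem lap_br (hτ : 0 < τ) (p : ℝ) (y : E n) : lap (br τ p) y =
    br τ (p + 2) y * (2 * p * (2 * p + 2 - n) * ‖y‖ ^ 2 - 2 * p * n * τ ^ 2) := by
  have e : ∀ i, pderiv i (pderiv i (br τ p)) y =
      4 * p * (p + 1) * br τ (p + 2) y * (y i * y i) - 2 * p * br τ (p + 1) y := fun i => by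
    rw [show pderiv i (br τ p) = fun y : E n => -(2 * p) * (br τ (p + 1) y * y i) from
      funext fun y => by rw [pd_br hτ]; ring, pd_const_mul,
      pd_mul (smooth_diff (contDiff_br hτ _) y) (smooth_diff (contDiff_coord i) y), pd_br hτ,
      pd_coord, if_pos rfl, show p + 1 + 1 = p + 2 by ring]
    ring
  simp only [lap, e, Finset.sum_sub_distrib, ← Finset.mul_sum, ← norm_sq_eq, Finset.sum_const,
    Finset.card_univ, Fintype.card_fin, nsmul_eq_mul]
  rw [br_succ hτ (p + 1), show p + 1 + 1 = p + 2 by ring]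
  ring

theorem exists_jb_br (n k : ℕ) : ∀ p : ℝ, 0 ≤ p → ∃ C : ℝ, 0 ≤ C ∧ ∀ τ : ℝ, 0 < τ → ∀ y : E n,
    Jb k (br τ p) y (τ + ‖y‖) (C * (τ + ‖y‖) ^ (-(2 * p))) := by
  induction k with
  | zero =>
    refine fun p hp => ⟨2 ^ p, by positivity, fun τ hτ y k hk => ?_⟩
    obtain rfl : k = 0 := by omega
    simpa [abs_of_pos (br_pos hτ p y)] using br_le hτ hp y
  | succ k ih =>
    intro p hp
    obtain ⟨C, hC, h⟩ := ih (p + 1) (by linarith)
    refine ⟨2 ^ p + n * (2 * p * 2 ^ k * C), by positivity, fun τ hτ y => ?_⟩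
    have hr : 0 < τ + ‖y‖ := by positivity
    have hs : 0 < (τ + ‖y‖) ^ (-(2 * p)) := by positivity
    refine Jb.of_pd (b := 2 * p * 2 ^ k * C * (τ + ‖y‖) ^ (-(2 * p))) (contDiff_br hτ p) hr ?_
      (fun i => ?_) ?_
    · rw [abs_of_pos (br_pos hτ p y)]
      exact (br_le hτ hp y).trans (by gcongr; exact le_add_of_nonneg_right (by positivity))
    · rw [show pderiv i (br τ p) = fun y : E n => -(2 * p) * (br τ (p + 1) y * y i) from
        funext fun y => by rw [pd_br hτ]; ring]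
      refine (Jb.const_mul ((contDiff_br hτ _).mul (contDiff_coord i)) _ (Jb.mul (contDiff_br hτ _)
        (contDiff_coord i) hr (h τ hτ y) (Jb.coord k i hr (by linarith)))).mono hr (le_of_eq ?_)
      rw [abs_neg, abs_of_nonneg (by positivity), show -(2 * (p + 1)) = -(2 * p) - (2 : ℕ) by
        push_cast; ring, Real.rpow_sub_natCast hr.ne']
      field_simp
    · rw [← mul_assoc]
      gcongr
      exact le_add_of_nonneg_left (by positivity)

theorem hom : HomStmt := fun n p hp =>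
  ⟨fun _ hτ => contDiff_br hτ p, fun _ hτ => pd_br hτ p, fun _ hτ => lap_br hτ p, fun k =>
    let ⟨C, hC, h⟩ := exists_jb_br n k p hp
    ⟨C, hC, fun τ hτ y => (h τ hτ y).to_rpow (by positivity) k le_rfl⟩⟩

theorem integral_add_norm {s R : ℝ} (hs : (n : ℝ) < s) (hR : 0 < R) :
    Integrable (fun y : E n => (R + ‖y‖) ^ (-s)) ∧
      ∫ y : E n, (R + ‖y‖) ^ (-s) = R ^ ((n : ℝ) - s) * ∫ y : E n, (1 + ‖y‖) ^ (-s) := by
  have e : (fun y : E n => (R + ‖y‖) ^ (-s)) = fun y => R ^ (-s) * (1 + ‖R⁻¹ • y‖) ^ (-s) := by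
    funext y
    rw [← Real.mul_rpow hR.le (by positivity), norm_smul, norm_inv, Real.norm_of_nonneg hR.le]
    congr 1; field_simp
  have hi : Integrable (fun y : E n => (1 + ‖y‖) ^ (-s)) :=
    integrable_one_add_norm (by simpa using hs)
  rw [e]
  refine ⟨(hi.comp_smul (inv_ne_zero hR.ne')).const_mul _, ?_⟩
  rw [integral_const_mul, Measure.integral_comp_inv_smul_of_nonneg volume
    (fun y : E n => (1 + ‖y‖) ^ (-s)) hR.le, sub_eq_add_neg, Real.rpow_add hR]
  simp only [finrank_euclideanSpace, Fintype.card_fin, smul_eq_mul, Real.rpow_natCast]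
  ring

theorem vv : HomStmt → VStmt := by
  intro _ n hn e he he1
  have hn' : (3 : ℝ) ≤ n := by exact_mod_cast hn
  obtain ⟨p, hp⟩ : ∃ p : ℝ, p = ((n : ℝ) - 2) / 2 := ⟨_, rfl⟩
  have hp0 : 0 < p := by linarith
  obtain ⟨A, hA⟩ : ∃ A : ℝ, A = 2 * (((n : ℝ) - 2 + e) / ((n : ℝ) - 2)) := ⟨_, rfl⟩
  have hAp : A * p = 2 * (p + e / 2) := by
    have : (n : ℝ) - 2 ≠ 0 := by linarith
    rw [hA, hp]; field_simp
  have hA1 : 1 ≤ A := by nlinarith
  have hV : ∀ R, (VV e R : E n → ℝ) = fun y => A * R ^ (-e) * br R p y - br R (p + e / 2) y :=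
    fun R => by funext y; rw [VV, hA, hp, add_div _ e 2]
  refine ⟨fun k => ?_, ?_⟩
  · obtain ⟨C₀, h₀, H₀⟩ := exists_jb_br n k p hp0.le
    obtain ⟨C₁, h₁, H₁⟩ := exists_jb_br n k (p + e / 2) (by positivity)
    refine ⟨A * C₀ + C₁, by positivity, fun R hR y => ?_⟩
    have hR0 : 0 < R := by linarith
    have hr : 0 < R + ‖y‖ := by positivity
    rw [hV]
    refine Jb.to_rpow (j := k) hr (((Jb.const_mul (contDiff_br hR0 p) _ (H₀ R hR0 y)).sub
      (contDiff_const.mul (contDiff_br hR0 p)) (contDiff_br hR0 _) (H₁ R hR0 y)).mono hr ?_) k le_rfl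
    have : (R + ‖y‖) ^ (-e) ≤ R ^ (-e) :=
      Real.rpow_le_rpow_of_nonpos hR0 (by linarith [norm_nonneg y]) (by linarith)
    rw [abs_of_nonneg (by positivity), show -(2 * (p + e / 2)) = -e + (2 - n) by linarith,
      show -(2 * p) = 2 - (n : ℝ) by linarith, Real.rpow_add hr]
    calc _ ≤ A * R ^ (-e) * (C₀ * (R + ‖y‖) ^ (2 - (n : ℝ))) +
          C₁ * (R ^ (-e) * (R + ‖y‖) ^ (2 - (n : ℝ))) := by gcongr
      _ = _ := by ring
  obtain ⟨C, hC⟩ : ∃ C : ℝ, C = 4 * (p + e / 2) * n * 2 ^ (p + 2) +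
    2 * (p + e / 2) * e * 2 ^ (p + e / 2 + 2) := ⟨_, rfl⟩
  have hC0 : 0 ≤ C := by rw [hC]; positivity
  obtain ⟨I, hI⟩ : ∃ I : ℝ, I = ∫ y : E n, (1 + ‖y‖) ^ (-(n + e)) := ⟨_, rfl⟩
  have hI0 : 0 ≤ I := hI ▸ integral_nonneg fun y => by positivity
  refine ⟨C * (1 + I), 2 * (p + e / 2) * e, by positivity, by positivity, fun R hR => ?_⟩
  have hR0 : 0 < R := by linarith
  have hs := contDiff_br (n := n) hR0
  have hpd : ∀ i, pderiv i (VV e R : E n → ℝ) = fun y =>
      A * R ^ (-e) * pderiv i (br R p) y - pderiv i (br R (p + e / 2)) y := fun i => by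
    funext y
    rw [hV, pd_sub (smooth_diff (contDiff_const.mul (hs _)) y) (smooth_diff (hs _) y), pd_const_mul]
  have hl : ∀ y : E n, -lap (VV e R) y = 4 * (p + e / 2) * n * R ^ 2 * (R ^ (-e) * br R (p + 2) y)
      + 2 * (p + e / 2) * e * ‖y‖ ^ 2 * br R (p + e / 2 + 2) y
      - 2 * (p + e / 2) * n * R ^ 2 * br R (p + e / 2 + 2) y := fun y => by
    have : lap (VV e R) y = A * R ^ (-e) * lap (br R p) y - lap (br R (p + e / 2)) y := by
      simp only [lap, hpd, Finset.mul_sum, ← Finset.sum_sub_distrib]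
      exact Finset.sum_congr rfl fun i _ => by
        rw [pd_sub (smooth_diff (contDiff_const.mul (contDiff_pd (hs _) i)) y)
          (smooth_diff (contDiff_pd (hs _) i) y), pd_const_mul]
    rw [this, lap_br hR0, lap_br hR0, show 2 * p + 2 - n = 0 by linarith,
      show 2 * (p + e / 2) + 2 - n = e by linarith]
    linear_combination (2 * n * R ^ 2 * R ^ (-e) * br R (p + 2) y) * hAp
  have lo : ∀ y : E n, 2 * (p + e / 2) * e * ‖y‖ ^ 2 * (R + ‖y‖) ^ (-(n : ℝ) - e - 2) ≤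
      -lap (VV e R) y := fun y => by
    have h1 := br_add_le hR0 (p + 2) he.le y
    have h2 := le_br hR0 (p := p + e / 2 + 2) (by positivity) y
    rw [show p + 2 + e / 2 = p + e / 2 + 2 by ring] at h1
    rw [show -(2 * (p + e / 2 + 2)) = -(n : ℝ) - e - 2 by linarith] at h2
    have h3 := mul_le_mul_of_nonneg_left h2 (show 0 ≤ 2 * (p + e / 2) * e * ‖y‖ ^ 2 by positivity)
    have h4 := mul_le_mul_of_nonneg_left h1 (show 0 ≤ 4 * (p + e / 2) * n * R ^ 2 by positivity)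
    have h5 := mul_pos (show 0 < 2 * (p + e / 2) * n * R ^ 2 by positivity)
      (br_pos hR0 (p + e / 2 + 2) y)
    rw [hl]; linarith
  have nn : ∀ y : E n, 0 ≤ -lap (VV e R) y := fun y => le_trans (by positivity) (lo y)
  have hi : ∀ y : E n, -lap (VV e R) y ≤ C * (R + ‖y‖) ^ (-(n + e)) := fun y => by
    have hr : 0 < R + ‖y‖ := by positivity
    have h1 := br_le hR0 (p := p + 2) (by positivity) y
    have h2 := br_le hR0 (p := p + e / 2 + 2) (by positivity) y
    have h3 : R ^ 2 * R ^ (-e) * (R + ‖y‖) ^ (-(2 * (p + 2))) ≤ (R + ‖y‖) ^ (-(n + e)) := by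
      rw [← Real.rpow_natCast, ← Real.rpow_add hR0, show -(n + e) = ((2 : ℕ) + -e) +
        -(2 * (p + 2)) by push_cast; linarith, Real.rpow_add hr]
      gcongr
      · push_cast; linarith
      · linarith [norm_nonneg y]
    have h4 : ‖y‖ ^ 2 * (R + ‖y‖) ^ (-(2 * (p + e / 2 + 2))) ≤ (R + ‖y‖) ^ (-(n + e)) := by
      rw [show -(n + e) = (2 : ℕ) + -(2 * (p + e / 2 + 2)) by push_cast; linarith,
        Real.rpow_add hr, Real.rpow_natCast]
      gcongr
      linarith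
    have h5 := mul_pos (show 0 < 2 * (p + e / 2) * n * R ^ 2 by positivity)
      (br_pos hR0 (p + e / 2 + 2) y)
    have h6 := mul_le_mul_of_nonneg_left h1
      (show 0 ≤ 4 * (p + e / 2) * n * R ^ 2 * R ^ (-e) by positivity)
    have h7 := mul_le_mul_of_nonneg_left h2 (show 0 ≤ 2 * (p + e / 2) * e * ‖y‖ ^ 2 by positivity)
    have h8 := mul_le_mul_of_nonneg_left h3
      (show 0 ≤ 4 * (p + e / 2) * n * 2 ^ (p + 2) by positivity)
    have h9 := mul_le_mul_of_nonneg_left h4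
      (show 0 ≤ 2 * (p + e / 2) * e * 2 ^ (p + e / 2 + 2) by positivity)
    rw [hl, hC]; linarith
  refine ⟨hV R ▸ (contDiff_const.mul (hs _)).sub (hs _), fun y => ?_, lo, fun y => ?_, ?_,
    fun y => ⟨4 * (p + e / 2) * (R ^ (-e) * br R (p + 1) y) - 2 * (p + e / 2) *
      br R (p + e / 2 + 1) y, ?_, fun i => ?_⟩⟩
  · have h1 := br_add_le hR0 p he.le y
    have h2 : 0 < R ^ (-e) * br R p y := mul_pos (by positivity) (br_pos hR0 p y)
    rw [hV]; dsimp only; nlinarith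
  · rw [← abs_neg, abs_of_nonneg (nn y), show -(n : ℝ) - e = -(n + e) by ring]
    exact (hi y).trans (by gcongr; exact le_mul_of_one_le_right hC0 (by linarith))
  · obtain ⟨h1, h2⟩ := integral_add_norm (n := n) (s := n + e) (by linarith) hR0
    rw [← integral_neg]
    refine (integral_mono_of_nonneg (.of_forall nn) (h1.const_mul C) (.of_forall hi)).trans ?_
    rw [integral_const_mul, h2, ← hI, show (n : ℝ) - (n + e) = -e by ring]
    have : 0 ≤ C * R ^ (-e) := by positivity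
    linarith
  · have h1 := br_add_le hR0 (p + 1) he.le y
    have h2 := le_br hR0 (p := p + 1) (by positivity) y
    rw [show p + 1 + e / 2 = p + e / 2 + 1 by ring] at h1
    rw [show -(2 * (p + 1)) = -(n : ℝ) by linarith] at h2
    have h3 := mul_le_mul_of_nonneg_left h2 (show 0 ≤ 2 * (p + e / 2) * R ^ (-e) by positivity)
    have h4 := mul_le_mul_of_nonneg_left h1 (show 0 ≤ 2 * (p + e / 2) by positivity)
    have h5 := mul_le_mul_of_nonneg_left he1.le
      (show 0 ≤ 2 * (p + e / 2) * R ^ (-e) * (R + ‖y‖) ^ (-(n : ℝ)) by positivity)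
    linarith
  · rw [hpd]
    dsimp only
    rw [pd_br hR0, pd_br hR0]
    linear_combination (-2 * R ^ (-e) * br R (p + 1) y * y i) * hAp

end Crest.Agent.N346.P0

end
end

-- ▼ part N346/P0/Avg
section

/-! Row 346, Part 0 (helper66): averaged ADM fluxes, `flbd : FlBdStmt` and `avg : AvgStmt`. -/

set_option autoImplicit false
open MeasureTheory Filter Topology Set Metric
open scoped ContDiff
open Crest.GeometryTopology.CoordMetric
open Crest.MathPhysics.ExteriorData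
open Crest.Agent.R202.SphDiv (Sph sig polar)

noncomputable section

namespace Crest.Agent.N346.P0
open Bs

variable {n : ℕ}

theorem flbd : FlBdStmt := by
  intro n
  obtain ⟨C, hC, h⟩ := exists_eta_grad n
  refine ⟨n * C * (2 ^ n * volume.real (closedBall (0 : E n) 1)), by positivity,
    fun V R a hR ha hV hb => ?_⟩
  rw [integral_eta_divE hR fun i => smooth_one (hV i), abs_neg,
    ← setIntegral_eq_integral_of_forall_compl_eq_zero (s := closedBall 0 (2 * R)) fun x hx =>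
      Finset.sum_eq_zero fun i _ => by
        rw [pd_eta_of_ge hR (not_le.1 (mt mem_closedBall_zero_iff.2 hx)).le, zero_mul]]
  rw [← Real.norm_eq_abs]
  refine (norm_setIntegral_le_of_norm_le_const (C := n * (C / R * a))
    (isCompact_closedBall (0 : E n) _).measure_lt_top fun x hx => ?_).trans (le_of_eq ?_)
  · refine (Finset.abs_sum_le_sum_abs _ _).trans ((Finset.sum_le_card_nsmul _ _ (C / R * a)
      fun i _ => ?_).trans (by simp))
    rcases le_total ‖x‖ R with h1 | h1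
    · rw [pd_eta_of_le hR h1, zero_mul, abs_zero]
      positivity
    · rw [abs_mul]
      exact mul_le_mul ((abs_pd_le i _ x).trans (h R hR x))
        (hb x h1 (mem_closedBall_zero_iff.1 hx) i) (abs_nonneg _) (by positivity)
  · rw [Measure.addHaar_real_closedBall' _ _ (by positivity), finrank_euclideanSpace_fin,
      Real.rpow_sub_one hR.ne', Real.rpow_natCast, mul_pow]
    ring

/-- the averaged flux has the same limit as the flux through spheres -/
theorem avg_flux (hn : 0 < n) {V : VectorField n} (hV : ∀ i, ContDiff ℝ 1 fun x => V x i) {L : ℝ}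
    (h : Tendsto (fun R => ∫ x in sphere (0 : E n) R, ∑ i, V x i * (x i / R) ∂μHE[n - 1]) atTop
      (𝓝 L)) : Tendsto (fun R => ∫ x, eta R x * divE V x) atTop (𝓝 L) := by
  set Φ : ℝ → ℝ := fun ρ =>
    ρ ^ (n - 1) * ∫ z : Sph n, ∑ i, V (ρ • (z : E n)) i * (z : E n) i ∂(sig n) with hΦ
  have hΦc : Continuous Φ := by
    refine (continuous_pow _).mul (T.continuous_slice (continuous_finsetSum _ fun i _ => ?_))
    exact ((hV i).continuous.comp (by fun_prop)).mul (by fun_prop)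
  have hΦt : Tendsto Φ atTop (𝓝 L) := by
    refine h.congr' ((eventually_gt_atTop 0).mono fun R hR => ?_)
    simp only [T.integral_sphere hn hR, hΦ, PiLp.smul_apply, smul_eq_mul,
      mul_div_cancel_left₀ _ hR.ne']
  rw [Metric.tendsto_atTop] at hΦt ⊢
  intro ε hε
  obtain ⟨N, hN⟩ := hΦt (ε / 2) (half_pos hε)
  refine ⟨max N 1, fun R hR' => ?_⟩
  have hR : 0 < R := one_pos.trans_le ((le_max_right _ _).trans hR')
  set f : ℝ → ℝ := fun r => Real.smoothTransition ((4 - r ^ 2 / R ^ 2) / 3) with hf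
  have hf1 : ContDiff ℝ 1 f := Real.smoothTransition.contDiff.comp (by fun_prop)
  have hf2 : HasCompactSupport f := .intro (isCompact_closedBall 0 (2 * R)) fun r hr => by
    refine Real.smoothTransition.zero_of_nonpos ?_
    rw [mem_closedBall_zero_iff, Real.norm_eq_abs, not_le] at hr
    have : 4 ≤ r ^ 2 / R ^ 2 := by rw [le_div_iff₀ (by positivity), ← sq_abs r]; nlinarith
    linarith
  have hd : ∀ r, deriv f r =
      -(2 / (3 * R ^ 2) * deriv Real.smoothTransition ((4 - r ^ 2 / R ^ 2) / 3) * r) := fun r => by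
    have h1 := ((Real.smoothTransition.contDiff (n := 1)).differentiable one_ne_zero
      ((4 - r ^ 2 / R ^ 2) / 3)).hasDerivAt.comp r
      ((((hasDerivAt_pow 2 r).div_const (R ^ 2)).const_sub 4).div_const 3)
    refine h1.deriv.trans ?_
    push_cast
    ring
  have hw0 : ∀ r, 0 ≤ r → deriv f r ≤ 0 := fun r hr => by
    rw [hd, neg_nonpos]
    have := Real.smoothTransition.monotone.deriv_nonneg (x := (4 - r ^ 2 / R ^ 2) / 3)
    positivity
  have hw1 : ∀ r, 0 ≤ r → r ≤ R → deriv f r = 0 := fun r hr hrR => by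
    refine IsLocalMax.deriv_eq_zero (.of_forall fun y =>
      (Real.smoothTransition.le_one _).trans (Real.smoothTransition.one_of_one_le ?_).ge)
    have : r ^ 2 / R ^ 2 ≤ 1 := (div_le_one (by positivity)).2 (by gcongr)
    linarith
  have hI : ∫ r in Ioi (0 : ℝ), deriv f r = -1 := by
    rw [hf2.integral_Ioi_deriv_eq hf1, hf]
    simp only
    rw [Real.smoothTransition.one_of_one_le (by norm_num)]
  have hc := hf1.continuous_deriv le_rfl
  have i1 : IntegrableOn (deriv f) (Ioi 0) :=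
    (hc.integrable_of_hasCompactSupport hf2.deriv).integrableOn
  have i2 : IntegrableOn (fun r => deriv f r * Φ r) (Ioi 0) :=
    ((hc.mul hΦc).integrable_of_hasCompactSupport hf2.deriv.mul_right).integrableOn
  have e : ∫ x, eta R x * divE V x = -∫ r in Ioi (0 : ℝ), deriv f r * Φ r := by
    rw [integral_eta_divE hR hV, polar hn (fun x => ∑ i, pderiv i (eta R) x * V x i)
      (integrable_finsetSum _ fun i _ =>
      ((contDiff_pd (contDiff_eta R) i).continuous.mul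
        (hV i).continuous).integrable_of_hasCompactSupport
          (hasCompactSupport_pd (hasCompactSupport_eta hR) i).mul_right)]
    congr 1
    refine setIntegral_congr_fun measurableSet_Ioi fun r hr => ?_
    simp only [hΦ]
    rw [mul_left_comm, ← integral_const_mul (deriv f r)]
    congr 2
    funext z
    rw [Finset.mul_sum]
    refine Finset.sum_congr rfl fun i _ => ?_
    rw [pd_eta, hd, norm_smul, mem_sphere_zero_iff_norm.1 z.2, mul_one, Real.norm_eq_abs, sq_abs,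
      PiLp.smul_apply, smul_eq_mul]
    ring
  have e2 : (∫ x, eta R x * divE V x) - L = ∫ r in Ioi (0 : ℝ), deriv f r * (L - Φ r) := by
    simp only [mul_sub]
    rw [integral_sub (i1.mul_const L) i2, integral_mul_const, hI, e]
    ring
  rw [dist_eq_norm, e2]
  refine (norm_integral_le_of_norm_le (i1.neg.mul_const (ε / 2))
    ((ae_restrict_iff' measurableSet_Ioi).2 (.of_forall fun r hr => ?_))).trans_lt ?_
  · rw [norm_mul, Real.norm_of_nonpos (hw0 r (le_of_lt hr)), Pi.neg_apply]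
    rcases le_total r R with h1 | h1
    · simp [hw1 r (le_of_lt hr) h1]
    · refine mul_le_mul_of_nonneg_left ?_ (neg_nonneg.2 (hw0 r (le_of_lt hr)))
      rw [← dist_eq_norm, dist_comm]
      exact (hN r (((le_max_left _ _).trans hR').trans h1)).le
  · simp only [Pi.neg_apply]
    rw [integral_mul_const, integral_neg, hI]
    linarith

theorem abs_sum_sum_le {F : Fin n → Fin n → ℝ} {c : ℝ} (h : ∀ a b, |F a b| ≤ c) :
    |∑ a, ∑ b, F a b| ≤ n * (n * c) :=
  (Finset.abs_sum_le_sum_abs _ _).trans ((Finset.sum_le_card_nsmul _ _ (n * c) fun a _ =>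
    (Finset.abs_sum_le_sum_abs _ _).trans ((Finset.sum_le_card_nsmul _ _ c fun b _ =>
      h a b).trans (by simp))).trans (by simp))

theorem trace_diff {g K : MetricField n} {x : E n} {α κ : ℝ} (hg : (g x).PosDef)
    (hα : ∀ i j, |g x i j - (1 : Matrix (Fin n) (Fin n) ℝ) i j| ≤ α) (hs : n * α ≤ 1 / 2)
    (hκ : ∀ i j, |K x i j| ≤ κ) (i j : Fin n) :
    |traceK g K x * g x i j - (∑ a, K x a a) * (1 : Matrix (Fin n) (Fin n) ℝ) i j| ≤
      (2 * n ^ 2 + 2 * n ^ 3) * (α * κ) := by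
  have hα0 : 0 ≤ α := (abs_nonneg _).trans (hα i j)
  have hκ0 : 0 ≤ κ := (abs_nonneg _).trans (hκ i j)
  have hlo : Lo 2 g x := fun v => by
    have h1 := abs_quadForm_sub_le (g := fun _ => 1) (g' := g) hα v
    rw [quadForm_one] at h1
    nlinarith [(abs_le.1 h1).1, sq_nonneg ‖v‖]
  have hi := hlo.abs_inv_le two_pos hg
  have h1 : ∀ a b, |inverseField g x a b - (1 : Matrix (Fin n) (Fin n) ℝ) a b| ≤ n * (2 * α) := by
    intro a b
    have e : inverseField g x a b - (1 : Matrix (Fin n) (Fin n) ℝ) a b =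
        -∑ c, inverseField g x a c * (g x c b - (1 : Matrix (Fin n) (Fin n) ℝ) c b) := by
      simp only [mul_sub, Finset.sum_sub_distrib, inverseField, sum_inv_mul hg, Matrix.one_apply]
      simp
    rw [e, abs_neg]
    refine (Finset.abs_sum_le_sum_abs _ _).trans ((Finset.sum_le_card_nsmul _ _ (2 * α)
      fun c _ => ?_).trans (by simp))
    rw [abs_mul]
    exact mul_le_mul (hi a c) (hα c b) (abs_nonneg _) two_pos.le
  have h2 : |traceK g K x| ≤ n * (n * (2 * κ)) := abs_sum_sum_le fun a b => by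
    rw [abs_mul]
    exact mul_le_mul (hi a b) (hκ a b) (abs_nonneg _) two_pos.le
  have h3 : |traceK g K x - ∑ a, K x a a| ≤ n * (n * (n * (2 * α) * κ)) := by
    have e : traceK g K x - ∑ a, K x a a =
        ∑ a, ∑ b, (inverseField g x a b - (1 : Matrix (Fin n) (Fin n) ℝ) a b) * K x a b := by
      simp [traceK, sub_mul, Finset.sum_sub_distrib, Matrix.one_apply]
    rw [e]
    refine abs_sum_sum_le fun a b => ?_
    rw [abs_mul]
    exact mul_le_mul (h1 a b) (hκ a b) (abs_nonneg _) (by positivity)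
  have h4 : |(1 : Matrix (Fin n) (Fin n) ℝ) i j| ≤ 1 := by
    rw [Matrix.one_apply]
    split_ifs <;> simp
  calc _ = |traceK g K x * (g x i j - (1 : Matrix (Fin n) (Fin n) ℝ) i j) +
        (traceK g K x - ∑ a, K x a a) * (1 : Matrix (Fin n) (Fin n) ℝ) i j| := by congr 1; ring
    _ ≤ n * (n * (2 * κ)) * α + n * (n * (n * (2 * α) * κ)) * 1 := by
        refine (abs_add_le _ _).trans ?_
        rw [abs_mul, abs_mul]
        gcongr
        exact hα i j
    _ = _ := by ring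

theorem exists_entry_decay {F : Fin n → Fin n → E n → ℝ} {j : ℕ} {s : ℝ}
    (h : ∀ a b, DecaysAt j s (F a b)) :
    ∃ C : ℝ, 0 ≤ C ∧ ∀ x : E n, 1 ≤ ‖x‖ → ∀ a b, |F a b x| ≤ C * ‖x‖ ^ (-s) := by
  choose C hC0 hC using fun a b => jb_of_decaysAt (h a b)
  refine ⟨∑ a, ∑ b, C a b, Finset.sum_nonneg fun a _ => Finset.sum_nonneg fun b _ => hC0 a b,
    fun x hx a b => (hC a b x hx).abs_le.trans ?_⟩
  gcongr
  exact (Finset.single_le_sum (f := fun b => C a b) (fun b _ => hC0 a b) (Finset.mem_univ b)).trans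
    (Finset.single_le_sum (f := fun a => ∑ b, C a b)
      (fun a _ => Finset.sum_nonneg fun b _ => hC0 a b) (Finset.mem_univ a))

theorem avg : AvgStmt := by
  intro n hn q g K EE En P Q hD
  have hn0 : 0 < n := by omega
  have hn3 : (3 : ℝ) ≤ n := by exact_mod_cast hn
  have hω := T.unitSphereArea_pos hn0
  have hn1 : (n : ℝ) - 1 ≠ 0 := by linarith
  have hg := sm_riem hD.riem
  refine ⟨?_, fun i => ?_⟩
  · have h1 := avg_flux hn0 (V := eV fun y => g y - 1)
      (fun i => smooth_one (contDiff_eV (hg.sub (Sm.const 1)) i))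
      (L := 2 * ((n : ℝ) - 1) * unitSphereArea n * En) <| by
        refine (hD.energy.const_mul (2 * ((n : ℝ) - 1) * unitSphereArea n)).congr fun R => ?_
        rw [energyFlux, ← mul_assoc, mul_one_div_cancel (by positivity), one_mul]
        simp only [eV, Matrix.sub_apply, pd_sub_const, Finset.sum_mul]
    convert h1.div_const 2 using 2
    · rw [← integral_div]
      simp only [Lmu, mul_div_assoc]
    · ring
  · have hT : ContDiff ℝ ∞ (traceK g K) := ContDiff.sum fun a _ => ContDiff.sum fun b _ =>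
      (contDiff_inv hD.riem a b).mul (hD.K_smooth a b)
    have hW : ∀ j, ContDiff ℝ ∞ fun x => K x i j - traceK g K x * g x i j := fun j =>
      (hD.K_smooth i j).sub (hT.mul (hg i j))
    have hS : ∀ j, ContDiff ℝ ∞ fun x => traceK g K x * g x i j -
        (∑ a, K x a a) * (1 : Matrix (Fin n) (Fin n) ℝ) i j := fun j =>
      (hT.mul (hg i j)).sub ((ContDiff.sum fun a _ => hD.K_smooth a a).mul contDiff_const)
    have h1 := avg_flux hn0 (V := fun x j => K x i j - traceK g K x * g x i j)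
      (fun j => smooth_one (hW j)) (L := ((n : ℝ) - 1) * unitSphereArea n * P i) <| by
        refine ((hD.momentum i).const_mul (((n : ℝ) - 1) * unitSphereArea n)).congr fun R => ?_
        rw [momentumFlux, ← mul_assoc, mul_one_div_cancel (by positivity), one_mul]
    obtain ⟨C, hC, hb⟩ := flbd n
    obtain ⟨A, hA, hA'⟩ := exists_entry_decay hD.g_decay
    obtain ⟨B, hB, hB'⟩ := exists_entry_decay hD.K_decay
    have hq := hD.q_gt
    have hq0 : 0 < q := by linarith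
    have h2 : Tendsto (fun R => ∫ x, eta R x * divE (fun x j => traceK g K x * g x i j -
        (∑ a, K x a a) * (1 : Matrix (Fin n) (Fin n) ℝ) i j) x) atTop (𝓝 0) := by
      have t1 := (tendsto_rpow_neg_atTop hq0).const_mul (n * A)
      have t2 := (tendsto_rpow_neg_atTop (show 0 < 2 * q - (n - 2) by linarith)).const_mul
        (C * ((2 * n ^ 2 + 2 * n ^ 3) * (A * B)))
      rw [mul_zero] at t1 t2
      refine squeeze_zero_norm' ?_ t2
      filter_upwards [eventually_ge_atTop 1, t1.eventually (ge_mem_nhds one_half_pos)]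
        with R hR hR'
      have hR0 : 0 < R := by linarith
      refine (hb _ R ((2 * n ^ 2 + 2 * n ^ 3) * (A * R ^ (-q) * (B * R ^ (-(1 + q))))) hR0
        (by positivity) hS fun x hx _ j => ?_).trans (le_of_eq ?_)
      · refine trace_diff (riem_posDef hD.riem x) (fun a b => (hA' x (hR.trans hx) a b).trans ?_)
          (by linarith) (fun a b => (hB' x (hR.trans hx) a b).trans ?_) i j
        · exact mul_le_mul_of_nonneg_left (Real.rpow_le_rpow_of_nonpos hR0 hx (by linarith)) hA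
        · exact mul_le_mul_of_nonneg_left (Real.rpow_le_rpow_of_nonpos hR0 hx (by linarith)) hB
      · rw [show -(2 * q - (n - 2)) = -q + -(1 + q) + ((n : ℝ) - 1) by ring, Real.rpow_add hR0,
          Real.rpow_add hR0]
        ring
    have h3 := h1.add h2
    rw [add_zero] at h3
    refine h3.congr' ((eventually_gt_atTop 0).mono fun R hR => ?_)
    have hi : ∀ {V : VectorField n}, (∀ j, ContDiff ℝ ∞ fun x => V x j) →
        Integrable fun x => eta R x * divE V x := fun hV =>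
      ((contDiff_eta R).continuous.mul (contDiff_divE hV).continuous).integrable_of_hasCompactSupport
        (hasCompactSupport_eta hR).mul_right
    simp only
    rw [← integral_add (hi hW) (hi hS)]
    refine integral_congr_ae (.of_forall fun x => ?_)
    simp only
    rw [← mul_add, ← divE_add hW hS, LJ]
    congr 2
    funext y j
    simp [pV]

end Crest.Agent.N346.P0

end
end

-- ▼ part N346/P0/Pert

/-! Row 346, Part 0, task 207 (helper26): `pert : PertStmt` and `boost : BoostStmt`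
(matrix algebra only). -/

set_option autoImplicit false
open MeasureTheory Filter Topology Matrix
open scoped ContDiff
open Crest.GeometryTopology.CoordMetric
open Crest.MathPhysics.ExteriorData

noncomputable section

namespace Crest.Agent.N346.P0
open Bs

namespace Pe

variable {n : ℕ} {A A' : Matrix (Fin n) (Fin n) ℝ} {Λ β : ℝ}

theorem abs_qb_entry {D : Matrix (Fin n) (Fin n) ℝ} {a b : ℝ} {u w : Fin n → ℝ} (hβ : 0 ≤ β)
    (ha : 0 ≤ a) (hD : ∀ i j, |D i j| ≤ β) (hu : ∀ i, |u i| ≤ a) (hw : ∀ j, |w j| ≤ b) :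
    |qb D u w| ≤ (n : ℝ) ^ 2 * (β * a * b) := by
  have h : ∀ i j, |D i j * u i * w j| ≤ β * a * b := fun i j => by
    rw [abs_mul, abs_mul]
    exact mul_le_mul (mul_le_mul (hD i j) (hu i) (abs_nonneg _) hβ) (hw j) (abs_nonneg _)
      (mul_nonneg hβ ha)
  calc |qb D u w| ≤ ∑ i, ∑ j, |D i j * u i * w j| :=
        (Finset.abs_sum_le_sum_abs _ _).trans
          (Finset.sum_le_sum fun i _ => Finset.abs_sum_le_sum_abs _ _)
    _ ≤ ∑ _i : Fin n, ∑ _j : Fin n, β * a * b :=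
        Finset.sum_le_sum fun i _ => Finset.sum_le_sum fun j _ => h i j
    _ = (n : ℝ) ^ 2 * (β * a * b) := by simp; ring

theorem qb_sub (A B : Matrix (Fin n) (Fin n) ℝ) (u w : Fin n → ℝ) :
    qb (A - B) u w = qb A u w - qb B u w := by
  simp only [qb, Matrix.sub_apply, sub_mul, Finset.sum_sub_distrib]

theorem qb_smul_left (A : Matrix (Fin n) (Fin n) ℝ) (c : ℝ) (u w : Fin n → ℝ) :
    qb A (c • u) w = c * qb A u w := by
  simp only [qb, Pi.smul_apply, smul_eq_mul, Finset.mul_sum]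
  exact Finset.sum_congr rfl fun i _ => Finset.sum_congr rfl fun j _ => by ring

theorem qb_smul_smul (A : Matrix (Fin n) (Fin n) ℝ) (c : ℝ) (u : Fin n → ℝ) :
    qb A (c • u) (c • u) = c ^ 2 * qb A u u := by
  simp only [qb, Pi.smul_apply, smul_eq_mul, Finset.mul_sum]
  exact Finset.sum_congr rfl fun i _ => Finset.sum_congr rfl fun j _ => by ring

theorem sq_nn (u : Fin n → ℝ) : 0 ≤ ∑ i, u i * u i :=
  Finset.sum_nonneg fun i _ => mul_self_nonneg (u i)

theorem abs_le_rt (u : Fin n → ℝ) (i : Fin n) : |u i| ≤ √(∑ i, u i * u i) :=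
  Real.abs_le_sqrt (by
    rw [sq]
    exact Finset.single_le_sum (f := fun i => u i * u i) (fun i _ => mul_self_nonneg (u i))
      (Finset.mem_univ i))

theorem abs_qb_diag {D : Matrix (Fin n) (Fin n) ℝ} (hβ : 0 ≤ β) (hD : ∀ i j, |D i j| ≤ β)
    (u : Fin n → ℝ) : |qb D u u| ≤ (n : ℝ) ^ 2 * β * ∑ i, u i * u i := by
  have h := abs_qb_entry hβ (Real.sqrt_nonneg _) hD (abs_le_rt u) (abs_le_rt u)
  rwa [mul_assoc β, Real.mul_self_sqrt (sq_nn u), ← mul_assoc] at h

theorem one_add_pow_le {δ D : ℝ} (h0 : 0 ≤ δ) (hD : δ ≤ D) (m : ℕ) :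
    (1 + δ) ^ m ≤ 1 + δ * (m * (1 + D) ^ m) := by
  induction m with
  | zero => simp
  | succ m ih =>
    have h1 : (1 + δ) ^ m ≤ (1 + D) ^ (m + 1) :=
      (pow_le_pow_left₀ (by linarith) (by linarith) m).trans
        (pow_le_pow_right₀ (by linarith) (Nat.le_succ m))
    have h2 : (1 + D) ^ m ≤ (1 + D) ^ (m + 1) := pow_le_pow_right₀ (by linarith) (Nat.le_succ m)
    have h3 : (m : ℝ) * (1 + D) ^ m ≤ m * (1 + D) ^ (m + 1) :=
      mul_le_mul_of_nonneg_left h2 (Nat.cast_nonneg m)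
    have h4 : δ * (1 + δ) ^ m ≤ δ * (1 + D) ^ (m + 1) := mul_le_mul_of_nonneg_left h1 h0
    have h5 := mul_le_mul_of_nonneg_left h3 h0
    rw [pow_succ (1 + δ)]
    push_cast
    nlinarith

/-- numerator of the electric term -/
def nu (A : Matrix (Fin n) (Fin n) ℝ) (v e : Fin n → ℝ) : ℝ :=
  (1 - qb A v v) * qb A e e + qb A v e ^ 2

theorem eT_eq {g : MetricField n} {x : E n} (hg : (g x).PosDef) (EE : VectorField n) (v : E n) :
    eT g EE x v = nu (g x) v (EE x) / (g x).det := by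
  have h1 : eDot g EE x v ^ 2 = qb (g x) v (EE x) ^ 2 / (g x).det := by
    rw [eDot, div_pow, volDensity, Real.sq_sqrt hg.det_pos.le]; rfl
  rw [eT, h1, nu, add_div, mul_div_assoc]; rfl

theorem nu_nonneg (hA : A.PosDef) {v : Fin n → ℝ} (hv : qb A v v ≤ 1) (e : Fin n → ℝ) :
    0 ≤ nu A v e :=
  add_nonneg (mul_nonneg (sub_nonneg.2 hv) (qb_nonneg hA e)) (sq_nonneg _)

theorem nu_le (hA : A.PosDef) (v e : Fin n → ℝ) : nu A v e ≤ qb A e e := by
  have := qb_sq_le hA v e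
  rw [nu]; nlinarith

theorem inv_det_le (hΛ : 1 ≤ Λ) (hA : A.PosDef) (hlo : ∀ v, Λ⁻¹ * ∑ i, v i * v i ≤ qb A v v) :
    A.det⁻¹ ≤ Λ ^ n := by
  have h := det_lower hA (by positivity) hlo
  rw [inv_pow] at h
  exact inv_le_of_inv_le₀ (by positivity) h

theorem div_det_le (hΛ : 1 ≤ Λ) (hA : A.PosDef) (hlo : ∀ v, Λ⁻¹ * ∑ i, v i * v i ≤ qb A v v)
    {t : ℝ} (ht : 0 ≤ t) : t / A.det ≤ Λ ^ n * t := by
  rw [div_eq_mul_inv, mul_comm]
  exact mul_le_mul_of_nonneg_right (inv_det_le hΛ hA hlo) ht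

theorem em_le (hΛ : 1 ≤ Λ) (hA : A.PosDef) (hlo : ∀ v, Λ⁻¹ * ∑ i, v i * v i ≤ qb A v v)
    (hhi : ∀ i j, |A i j| ≤ Λ) {v : Fin n → ℝ} (hv : qb A v v ≤ 1) (e : Fin n → ℝ) :
    nu A v e / A.det ≤ Λ ^ n * ((n : ℝ) ^ 2 * Λ) * ∑ i, e i * e i := by
  refine (div_det_le hΛ hA hlo (nu_nonneg hA hv e)).trans ?_
  rw [mul_assoc]
  exact mul_le_mul_of_nonneg_left ((nu_le hA v e).trans
    ((le_abs_self _).trans (abs_qb_diag (by linarith) hhi e))) (by positivity)

theorem qb_cmp (hΛ : 1 ≤ Λ) (hβ : 0 ≤ β) (hlo : ∀ v, Λ⁻¹ * ∑ i, v i * v i ≤ qb A v v)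
    (hd : ∀ i j, |A' i j - A i j| ≤ β) (u : Fin n → ℝ) :
    qb A' u u ≤ (1 + (n : ℝ) ^ 2 * Λ * β) * qb A u u := by
  have h1 := abs_qb_diag (D := A' - A) hβ hd u
  rw [qb_sub] at h1
  have h2 : ∑ i, u i * u i ≤ Λ * qb A u u := (inv_mul_le_iff₀ (by linarith)).1 (hlo u)
  have h3 := mul_le_mul_of_nonneg_left h2 (by positivity : 0 ≤ (n : ℝ) ^ 2 * β)
  have := le_abs_self (qb A' u u - qb A u u)
  nlinarith

/-- the real-number inequality for the cross term -/
theorem cross {a b s δ p q : ℝ} (hs0 : 0 ≤ s) (hs1 : s ≤ 1) (hs : 1 - s ≤ δ) (hab : |a - b| ≤ p)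
    (ha : |a| ≤ q) (hb : |b| ≤ q) : a ^ 2 ≤ (s * b) ^ 2 + (p + δ * q) * (2 * q) := by
  have hq : 0 ≤ q := (abs_nonneg _).trans ha
  have h1 : |a - s * b| ≤ p + δ * q := by
    have e : a - s * b = (a - b) + (1 - s) * b := by ring
    rw [e]
    refine (abs_add_le _ _).trans (add_le_add hab ?_)
    rw [abs_mul, abs_of_nonneg (by linarith)]
    exact mul_le_mul hs hb (abs_nonneg _) (by linarith)
  have h2 : |a + s * b| ≤ 2 * q := by
    refine (abs_add_le _ _).trans ?_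
    rw [abs_mul, abs_of_nonneg hs0]
    nlinarith [abs_nonneg b]
  have h3 : (a - s * b) * (a + s * b) ≤ (p + δ * q) * (2 * q) := by
    refine (le_abs_self _).trans ?_
    rw [abs_mul]
    exact mul_le_mul h1 h2 (abs_nonneg _) ((abs_nonneg _).trans h1)
  nlinarith

theorem fin_div {a a' d d' k L m c S : ℝ} (hd : 0 < d) (hd' : 0 < d') (ha : 0 ≤ a) (hk : 0 ≤ k)
    (h1 : a' ≤ a + m) (h2 : d ≤ (1 + k) * d') (h3 : m / d' ≤ L * m) (h4 : a / d ≤ c * S) :
    a' / d' ≤ a / d + (L * m + k * (c * S)) := by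
  have h5 : a / d' ≤ (1 + k) * (a / d) := by
    rw [← mul_div_assoc, div_le_div_iff₀ hd' hd]
    nlinarith [mul_le_mul_of_nonneg_left h2 ha]
  have h7 := mul_le_mul_of_nonneg_left h4 hk
  have h8 : a' / d' ≤ (a + m) / d' := div_le_div_of_nonneg_right h1 hd'.le
  rw [add_div] at h8
  linarith

theorem main (n : ℕ) (hΛ : 1 ≤ Λ) : ∃ C : ℝ, 0 ≤ C ∧ ∀ (A A' : Matrix (Fin n) (Fin n) ℝ) (β : ℝ),
    A.PosDef → A'.PosDef → (∀ v, Λ⁻¹ * ∑ i, v i * v i ≤ qb A v v) →
    (∀ v, Λ⁻¹ * ∑ i, v i * v i ≤ qb A' v v) → (∀ i j, |A i j| ≤ Λ) → (∀ i j, |A' i j| ≤ Λ) →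
    0 ≤ β → β ≤ 1 → (∀ i j, |A' i j - A i j| ≤ β) → ∀ v e : Fin n → ℝ, qb A' v v ≤ 1 →
    ∃ s : ℝ, |s - 1| ≤ (n : ℝ) ^ 2 * Λ * β ∧ qb A (s • v) (s • v) ≤ 1 ∧
      nu A' v e / A'.det ≤ nu A (s • v) e / A.det + C * β * ∑ i, e i * e i := by
  set N : ℝ := (n : ℝ) ^ 2 with hN
  have hN0 : 0 ≤ N := by positivity
  have hΛ0 : 0 < Λ := by linarith
  set c1 : ℝ := N * Λ * (N * Λ) + (N + N * Λ * (N * Λ)) * (2 * (N * Λ)) * Λ with hc1
  set c2 : ℝ := N * Λ * (n * (1 + N * Λ) ^ n) with hc2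
  set c3 : ℝ := Λ ^ n * (N * Λ) with hc3
  refine ⟨Λ ^ n * c1 + c2 * c3, by positivity, ?_⟩
  intro A A' β hA hA' hlo hlo' hhi hhi' hβ hβ1 hd v e hv
  set δ : ℝ := N * Λ * β with hδ
  have hδ0 : 0 ≤ δ := by positivity
  have hd' : ∀ i j, |A i j - A' i j| ≤ β := fun i j => by rw [abs_sub_comm]; exact hd i j
  have c12 := qb_cmp hΛ hβ hlo hd
  have c21 := qb_cmp hΛ hβ hlo' hd'
  rw [← hN, ← hδ] at c12 c21
  set s : ℝ := (1 + δ)⁻¹ with hs
  have hs0 : 0 < s := by positivity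
  have hsδ : s * (1 + δ) = 1 := inv_mul_cancel₀ (by positivity)
  have hs1 : s ≤ 1 := by nlinarith
  have hs2 : 1 - s ≤ δ := by nlinarith
  have hk : ∀ u, s * qb A u u ≤ qb A' u u := fun u => by
    rw [hs, inv_mul_le_iff₀ (by positivity)]; exact c21 u
  have hv0 := qb_nonneg hA v
  have hsv : qb A (s • v) (s • v) ≤ qb A' v v := by
    rw [qb_smul_smul]
    have := hk v
    nlinarith [mul_nonneg hs0.le hv0]
  refine ⟨s, by rw [abs_sub_comm, abs_of_nonneg (by linarith)]; exact hs2, hsv.trans hv, ?_⟩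
  set S : ℝ := ∑ i, e i * e i with hS
  have hS0 : 0 ≤ S := sq_nn e
  -- sizes
  have hvv : ∑ i, v i * v i ≤ Λ := by
    have := (inv_mul_le_iff₀ hΛ0).1 ((hlo' v).trans hv)
    linarith
  have hvi : ∀ i, |v i| ≤ √Λ := fun i => (abs_le_rt v i).trans (Real.sqrt_le_sqrt hvv)
  have hei : ∀ i, |e i| ≤ √S := abs_le_rt e
  set t : ℝ := √Λ * √S with ht
  have ht2 : t * t = Λ * S := by
    rw [ht, mul_mul_mul_comm, Real.mul_self_sqrt hΛ0.le, Real.mul_self_sqrt hS0]
  have hab : |qb A' v e - qb A v e| ≤ N * β * t := by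
    have := abs_qb_entry (D := A' - A) hβ (Real.sqrt_nonneg _) hd hvi hei
    rw [qb_sub] at this
    exact this.trans_eq (by rw [ht]; ring)
  have ha : |qb A' v e| ≤ N * Λ * t :=
    (abs_qb_entry hΛ0.le (Real.sqrt_nonneg _) hhi' hvi hei).trans_eq (by rw [ht]; ring)
  have hb : |qb A v e| ≤ N * Λ * t :=
    (abs_qb_entry hΛ0.le (Real.sqrt_nonneg _) hhi hvi hei).trans_eq (by rw [ht]; ring)
  have hx := cross hs0.le hs1 hs2 hab ha hb
  have hx2 : (N * β * t + δ * (N * Λ * t)) * (2 * (N * Λ * t))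
      = (N + N * Λ * (N * Λ)) * (2 * (N * Λ)) * Λ * β * S := by
    rw [hδ]; linear_combination (N + N * Λ * (N * Λ)) * (2 * (N * Λ)) * β * ht2
  have hee : qb A e e ≤ N * Λ * S := (le_abs_self _).trans (abs_qb_diag hΛ0.le hhi e)
  have he0 := qb_nonneg hA e
  have hv0' := qb_nonneg hA' v
  have hnum : nu A' v e ≤ nu A (s • v) e + c1 * β * S := by
    have h1 : (1 - qb A' v v) * qb A' e e ≤ (1 - qb A' v v) * ((1 + δ) * qb A e e) :=
      mul_le_mul_of_nonneg_left (c12 e) (by linarith)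
    have h2 : (1 - qb A' v v) * qb A e e ≤ (1 - qb A (s • v) (s • v)) * qb A e e :=
      mul_le_mul_of_nonneg_right (by linarith) he0
    have h3 : (1 - qb A' v v) * (δ * qb A e e) ≤ 1 * (δ * (N * Λ * S)) :=
      mul_le_mul (by linarith) (mul_le_mul_of_nonneg_left hee hδ0) (by positivity) zero_le_one
    have h4 : δ * (N * Λ * S) = N * Λ * (N * Λ) * β * S := by rw [hδ]; ring
    have h5 : c1 * β * S = N * Λ * (N * Λ) * β * S
        + (N + N * Λ * (N * Λ)) * (2 * (N * Λ)) * Λ * β * S := by rw [hc1]; ring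
    have h6 : (1 - qb A' v v) * ((1 + δ) * qb A e e)
        = (1 - qb A' v v) * qb A e e + (1 - qb A' v v) * (δ * qb A e e) := by ring
    rw [nu, nu, qb_smul_left A s v e]
    linarith
  -- determinants
  have hdet : A.det ≤ (1 + c2 * β) * A'.det := by
    have h1 := (mono_of_le hA hA' hs0.le hk).1
    rw [hs, inv_pow, inv_mul_le_iff₀ (by positivity)] at h1
    refine h1.trans (mul_le_mul_of_nonneg_right ?_ hA'.det_pos.le)
    refine (one_add_pow_le hδ0 (D := N * Λ) ?_ n).trans_eq (by rw [hδ, hc2]; ring)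
    rw [hδ]
    exact mul_le_of_le_one_right (by positivity) hβ1
  have hn0 := nu_nonneg hA (hsv.trans hv) e
  have hm := em_le hΛ hA hlo hhi (hsv.trans hv) e
  rw [← hN, ← hc3, ← hS] at hm
  have h6 : c1 * β * S / A'.det ≤ Λ ^ n * (c1 * β * S) := div_det_le hΛ hA' hlo' (by positivity)
  exact (fin_div hA.det_pos hA'.det_pos hn0 (by positivity) hnum hdet h6 hm).trans_eq (by ring)

theorem lo_qb {g : MetricField n} {x : E n} (h : Lo Λ g x) (v : Fin n → ℝ) :
    Λ⁻¹ * ∑ i, v i * v i ≤ qb (g x) v v := by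
  have := h (WithLp.toLp 2 v)
  rwa [norm_sq_eq, quadForm_eq] at this

end Pe

open Pe in
theorem pert : PertStmt := by
  intro n Λ hΛ
  obtain ⟨C, hC, h⟩ := Pe.main n hΛ
  have hΛ0 : 0 < Λ := by linarith
  set c3 : ℝ := Λ ^ n * ((n : ℝ) ^ 2 * Λ) with hc3
  have hc30 : 0 ≤ c3 := by positivity
  set c4 : ℝ := (n : ℝ) ^ 2 * Λ * Λ with hc4
  have hc40 : 0 ≤ c4 := by positivity
  refine ⟨C + c3 + c4 + Λ, by positivity, ?_⟩
  intro g g' EE x β hg hg' hlo hlo' hhi hhi' hβ hd v' hv'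
  have hS : ∑ i, EE x i ^ 2 = ∑ i, EE x i * EE x i := by simp only [sq]
  have hS0 := sq_nn (EE x)
  have hup := em_le hΛ hg' (lo_qb hlo') hhi' hv' (EE x)
  have hv : ‖v'‖ ≤ Λ := by
    have h1 := (inv_mul_le_iff₀ hΛ0).1 ((hlo' v').trans hv')
    exact le_of_sq_le_sq (by nlinarith) hΛ0.le
  rw [hS, eT_eq hg']
  refine ⟨div_nonneg (nu_nonneg hg' hv' _) hg'.det_pos.le, hup.trans
    (mul_le_mul_of_nonneg_right (by linarith) hS0), ?_⟩
  rcases le_total β 1 with hβ1 | hβ1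
  · obtain ⟨s, hs, h1, h2⟩ := h (g x) (g' x) β hg hg' (lo_qb hlo) (lo_qb hlo') hhi hhi' hβ hβ1 hd
      v' (EE x) hv'
    refine ⟨s • v', h1, ?_, ?_⟩
    · have e : s • v' - v' = (s - 1) • v' := by rw [sub_smul, one_smul]
      rw [e, norm_smul, Real.norm_eq_abs]
      have := mul_le_mul hs hv (norm_nonneg _) (by positivity)
      nlinarith [mul_nonneg (add_nonneg (add_nonneg hC hc30) hΛ0.le) hβ]
    · rw [eT_eq hg]
      refine h2.trans (add_le_add le_rfl (mul_le_mul_of_nonneg_right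
        (mul_le_mul_of_nonneg_right (by linarith) hβ) hS0))
  · have h0 : quadForm g x 0 ≤ 1 := by simp [quadForm]
    refine ⟨0, h0, ?_, ?_⟩
    · rw [zero_sub, norm_neg]
      nlinarith [mul_nonneg (add_nonneg (add_nonneg hC hc30) hc40) hβ]
    · have h1 : 0 ≤ eT g EE x 0 := by
        rw [eT_eq hg]; exact div_nonneg (nu_nonneg hg h0 _) hg.det_pos.le
      have h2 : c3 ≤ (C + c3 + c4 + Λ) * β := by
        nlinarith [mul_nonneg (add_nonneg (add_nonneg hC hc40) hΛ0.le) hβ]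
      have h3 := mul_le_mul_of_nonneg_right h2 hS0
      linarith

theorem boost : BoostStmt := by
  intro n w hw
  have hw0 := norm_nonneg w
  have hp : 0 < 1 - ‖w‖ ^ 2 := by nlinarith
  set g0 : ℝ := (√(1 - ‖w‖ ^ 2))⁻¹ with hg0
  have hsq : g0 ^ 2 * (1 - ‖w‖ ^ 2) = 1 := by
    rw [hg0, inv_pow, Real.sq_sqrt hp.le, inv_mul_cancel₀ hp.ne']
  have hpos : 0 < g0 := inv_pos.2 (Real.sqrt_pos.2 hp)
  have hge : 1 ≤ g0 := le_of_sq_le_sq (by nlinarith [mul_nonneg (sq_nonneg g0) (sq_nonneg ‖w‖)])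
    hpos.le
  set c : ℝ := g0 ^ 2 / (g0 + 1) with hc
  have hc1 : c * (g0 + 1) = g0 ^ 2 := div_mul_cancel₀ _ (by linarith)
  set W : Matrix (Fin n) (Fin n) ℝ := vecMulVec w.ofLp w.ofLp with hW
  have hdot : w.ofLp ⬝ᵥ w.ofLp = ‖w‖ ^ 2 := (norm_sq_eq w).symm
  have hWW : W * W = ‖w‖ ^ 2 • W := by
    rw [hW, vecMulVec_mul_vecMulVec, hdot, vecMulVec_smul]
  have hcw : c * ‖w‖ ^ 2 = g0 - 1 := by
    have : (c * ‖w‖ ^ 2 - (g0 - 1)) * (g0 + 1) = 0 := by
      linear_combination ‖w‖ ^ 2 * hc1 - hsq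
    rcases mul_eq_zero.1 this with h | h
    · linarith
    · linarith
  have hT : (1 + c • W)ᵀ = 1 + c • W := by
    rw [transpose_add, transpose_one, transpose_smul, hW, transpose_vecMulVec]
  have hBB : (1 + c • W)ᵀ * (1 + c • W) = 1 + g0 ^ 2 • W := by
    rw [hT]
    simp only [add_mul, mul_add, one_mul, mul_one, smul_mul_assoc, mul_smul_comm, hWW, smul_smul,
      smul_add]
    rw [add_assoc, ← add_smul, ← add_smul]
    congr 2
    linear_combination c * hcw + hc1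
  have hξ : vecMulVec (g0 • w).ofLp (g0 • w).ofLp = g0 ^ 2 • W := by
    rw [WithLp.ofLp_smul, smul_vecMulVec, vecMulVec_smul, smul_smul, sq]
  have hn : ∀ x : E n, ‖lin (1 + c • W) x‖ ^ 2 = ‖x‖ ^ 2 + g0 ^ 2 * (w.ofLp ⬝ᵥ x.ofLp) ^ 2 := by
    intro x
    have e1 : ‖lin (1 + c • W) x‖ ^ 2 = ((1 + c • W) *ᵥ x.ofLp) ⬝ᵥ ((1 + c • W) *ᵥ x.ofLp) :=
      norm_sq_eq _
    have e2 : ‖x‖ ^ 2 = x.ofLp ⬝ᵥ x.ofLp := norm_sq_eq x
    have e3 : W *ᵥ x.ofLp = (w.ofLp ⬝ᵥ x.ofLp) • w.ofLp := by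
      rw [hW, vecMulVec_mulVec]; ext i; simp [mul_comm]
    rw [e1, e2, add_mulVec, one_mulVec, smul_mulVec, e3]
    simp only [add_dotProduct, dotProduct_add, smul_dotProduct, dotProduct_smul, smul_eq_mul, hdot,
      dotProduct_comm x.ofLp w.ofLp]
    linear_combination (w.ofLp ⬝ᵥ x.ofLp) ^ 2 * (c * hcw + hc1)
  refine ⟨g0 • w, g0, 1 + c • W, hw, hge, hsq, rfl, by rw [hBB, hξ], ?_, ?_, fun x => ?_,
    fun x => ?_⟩
  · rw [hBB]
    refine inv_eq_right_inv ?_
    rw [← hW]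
    simp only [add_mul, mul_sub, one_mul, mul_one, smul_mul_assoc, hWW, smul_smul]
    have : g0 ^ 2 • W = W + (g0 ^ 2 * ‖w‖ ^ 2) • W := by
      conv_rhs => rw [← one_smul ℝ W, smul_smul, mul_one, ← add_smul]
      congr 1
      linear_combination hsq
    conv_lhs => rw [this]
    abel
  · rw [hW, ← smul_vecMulVec, vecMulVec_eq Unit, det_one_add_replicateCol_mul_replicateRow,
      dotProduct_smul, hdot, smul_eq_mul, hcw]
    ring
  · refine le_of_sq_le_sq ?_ (norm_nonneg _)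
    rw [hn]
    nlinarith [mul_nonneg (sq_nonneg g0) (sq_nonneg (w.ofLp ⬝ᵥ x.ofLp))]
  · refine le_of_sq_le_sq ?_ (by positivity)
    have h1 : (w.ofLp ⬝ᵥ x.ofLp) ^ 2 ≤ ‖w‖ ^ 2 * ‖x‖ ^ 2 := by
      rw [norm_sq_eq, norm_sq_eq]
      have := Finset.sum_mul_sq_le_sq_mul_sq Finset.univ w.ofLp x.ofLp
      simp only [sq (w.ofLp _), sq (x.ofLp _)] at this
      exact this
    have h2 := mul_le_mul_of_nonneg_left h1 (sq_nonneg g0)
    rw [hn, mul_pow]
    nlinarith [sq_nonneg ‖x‖]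

end Crest.Agent.N346.P0

end
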