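import Crest.Agent.N346.P0.STI
import Crest.Agent.N346.P0.Lin
import Crest.Agent.N346.An.UB0

-- ▼ part N346/P0/SJ
section

/-! Row 346, Part 0 (helper95): `sj : JLStmt → STStmt → STIStmt → SJStmt`. -/

set_option autoImplicit false
open MeasureTheory Filter Topology Matrix Set Asymptotics
open scoped ContDiff
open Crest.GeometryTopology.CoordMetric
open Crest.MathPhysics.ExteriorData

noncomputable section

namespace Crest.Agent.N346.P0
open Bs

variable {n : ℕ}

namespace St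

theorem jb1_comp {u : E n → ℝ} {x : E n} {r a M θ' : ℝ} {θ : ℝ → ℝ} (h : Jb 1 u x r a) (hr : 0 < r)
    (hu : DifferentiableAt ℝ u x) (hθ : HasDerivAt θ θ' (u x)) (h0 : |θ (u x)| ≤ M)
    (h1 : |θ'| * a ≤ M) : Jb 1 (fun y => θ (u y)) x r M := fun k hk => by
  interval_cases k
  · simpa using h0
  · have e : fderiv ℝ (fun y => θ (u y)) x = θ' • fderiv ℝ u x :=
      (hθ.comp_hasFDerivAt x hu.hasFDerivAt).fderiv
    rw [norm_iteratedFDeriv_one, e, norm_smul, Real.norm_eq_abs, pow_one]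
    calc _ ≤ |θ'| * (a / r) := mul_le_mul_of_nonneg_left (Jb.norm_fderiv_le h) (abs_nonneg _)
      _ ≤ M / r := by rw [← mul_div_assoc]; gcongr

/-- the second fundamental form of the boosted static slice -/
theorem KS_apply {b : Matrix (Fin n) (Fin n) ℝ} (hb : b.PosDef) {c : E n → ℝ} (hc : ContDiff ℝ ∞ c)
    (ξ : E n) (hg : IsRiemannianOn (gS b c (dotF ξ)) univ) (x : E n) (i j : Fin n) :
    KS b c (dotF ξ) x i j = Id.gm (gS b c (dotF ξ)) (ph c) (dotF ξ) x *
      (Real.exp (-((n : ℝ) - 2) * c x) * (-((n : ℝ) - 1) * ξ j * pderiv i c x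
          + -((n : ℝ) - 1) * ξ i * pderiv j c x
          + b i j * ∑ k, ∑ l, b⁻¹ k l * ξ k * pderiv l c x)
        + Real.exp (-(3 * (n : ℝ) - 4) * c x) *
          (((n : ℝ) - 2) * ξ i * ξ j * ∑ k, ∑ l, b⁻¹ k l * ξ k * pderiv l c x)) := by
  have hx := mem_univ x
  have hf := contDiff_dotF ξ
  have hd := jd_gS hc hf hg
  have hcf : Id.Conf (fun _ => b) (Id.gb (gS b c (dotF ξ)) (ph c) (dotF ξ)) c univ :=
    ⟨Id.riem_const hb, hc.contDiffOn, fun y _ => by simp [Id.gb, gS]⟩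
  have hφ : ∀ k, pderiv k (ph c) x = -((n : ℝ) - 2) * ph c x * pderiv k c x := fun k => by
    rw [show (ph c : E n → ℝ) = fun y => Real.exp (-((n : ℝ) - 2) * c y) from rfl,
      pd_comp (θ := fun t => Real.exp (-((n : ℝ) - 2) * t))
      (θ' := Real.exp (-((n : ℝ) - 2) * c x) * -((n : ℝ) - 2))
      (by simpa using ((hasDerivAt_id (c x)).const_mul (-((n : ℝ) - 2))).exp) (smooth_diff hc x)]
    ring
  have hpd : ∀ k, pderiv k (dotF ξ) = fun _ => ξ k := fun k => funext fun y => pd_dotF ξ y k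
  have e1 : ∀ (u : E n → ℝ) (k : Fin n), fderiv ℝ u x (EuclideanSpace.single k 1) = pderiv k u x :=
    fun _ _ => rfl
  have e2 : Real.exp (-(3 * (n : ℝ) - 4) * c x) = Real.exp (-(2 * c x)) * ph c x ^ 3 := by
    rw [ph, ← Real.exp_nat_mul, ← Real.exp_add]; congr 1; push_cast; ring
  have e3 : R247.Bo84.gam (fun _ => b) (dotF ξ) (ph c) x =
      -((n : ℝ) - 2) * ph c x * ∑ k, ∑ l, b⁻¹ k l * ξ k * pderiv l c x := by
    simp only [R247.Bo84.gam, hφ, hpd, inverseField, Finset.mul_sum]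
    exact Finset.sum_congr rfl fun k _ => Finset.sum_congr rfl fun l _ => by ring
  have e4 : R247.Bo84.gam (fun _ => b) (dotF ξ) c x = ∑ k, ∑ l, b⁻¹ k l * ξ k * pderiv l c x := by
    simp only [R247.Bo84.gam, hpd, inverseField]
  rw [← Id.bil_ee (KS b c (dotF ξ) x) i j, KS, hd.hh_eq_gb hx, hcf.hess_eq hx, hcf.gam_eq hx,
    Id.hess_const, Id.fderiv_fderiv_ee (hf.contDiffAt.of_le (by norm_cast)), Id.bil_ee, Id.bil_ee,
    e2, e3, e4]
  simp only [e1, hφ, hpd, pd_const, Id.XX, Matrix.of_apply]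
  rw [← ph]
  ring

/-- configurations of `SJStmt` -/
structure Cf (n : ℕ) (β0 : ℝ) where
  c : E n → ℝ
  x : E n
  r : ℝ
  β : ℝ
  hc : ContDiff ℝ ∞ c
  hb : ∀ x, |c x| ≤ β0
  hr : 0 < r
  h0 : 0 ≤ β
  h1 : β ≤ β0
  hj : Jb 2 c x r β

variable {β0 : ℝ}

/-- uniform first order jet bounds -/
def QJ (s : Cf n β0 → ℝ) (u : Cf n β0 → E n → ℝ) : Prop :=
  ∃ C : ℝ, 0 ≤ C ∧ ∀ k, ContDiff ℝ ∞ (u k) ∧ Jb 1 (u k) k.x k.r (C * s k)

variable {s : Cf n β0 → ℝ} {u v : Cf n β0 → E n → ℝ}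

theorem QJ.add (h : QJ s u) (h' : QJ s v) : QJ s fun k y => u k y + v k y := by
  obtain ⟨C, hC, h⟩ := h
  obtain ⟨D, hD, h'⟩ := h'
  exact ⟨C + D, by positivity, fun k => ⟨(h k).1.add (h' k).1,
    add_mul C D _ ▸ Jb.add (h k).1 (h' k).1 (h k).2 (h' k).2⟩⟩

theorem QJ.cmul (a : ℝ) (h : QJ s u) : QJ s fun k y => a * u k y := by
  obtain ⟨C, hC, h⟩ := h
  exact ⟨|a| * C, by positivity, fun k => ⟨contDiff_const.mul (h k).1,
    mul_assoc |a| C _ ▸ Jb.const_mul (h k).1 a (h k).2⟩⟩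

theorem QJ.mul (h : QJ (fun _ => 1) u) (h' : QJ s v) : QJ s fun k y => u k y * v k y := by
  obtain ⟨C, hC, h⟩ := h
  obtain ⟨D, hD, h'⟩ := h'
  exact ⟨2 * (C * D), by positivity, fun k => ⟨(h k).1.mul (h' k).1,
    (Jb.mul (h k).1 (h' k).1 k.hr (h k).2 (h' k).2).mono k.hr (le_of_eq (by ring))⟩⟩

theorem QJ.sum {F : Fin n → Cf n β0 → E n → ℝ} (h : ∀ i, QJ s (F i)) :
    QJ s fun k y => ∑ i, F i k y := by
  choose C hC h using h
  exact ⟨∑ i, C i, Finset.sum_nonneg fun i _ => hC i, fun k => ⟨ContDiff.sum fun i _ => (h i k).1,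
    Finset.sum_mul Finset.univ C _ ▸ Jb.sum k.hr (fun i _ => (h i k).1) fun i _ => (h i k).2⟩⟩

theorem qj_pd (i : Fin n) : QJ (fun k : Cf n β0 => k.β / k.r) fun k => pderiv i k.c :=
  ⟨1, zero_le_one, fun k => ⟨contDiff_pd k.hc i, by simpa using k.hj.pd k.hc i⟩⟩

theorem exp_le (hβ : β0 ≤ 1) (a : ℝ) (k : Cf n β0) : Real.exp (a * k.c k.x) ≤ Real.exp |a| :=
  Real.exp_le_exp.2 ((le_abs_self _).trans (by
    rw [abs_mul]; exact mul_le_of_le_one_right (abs_nonneg a) ((k.hb k.x).trans hβ)))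

theorem qj_exp (hβ : β0 ≤ 1) (a : ℝ) :
    QJ (fun _ : Cf n β0 => 1) fun k y => Real.exp (a * k.c y) := by
  refine ⟨(1 + |a|) * Real.exp |a|, by positivity, fun k => ⟨(contDiff_const.mul k.hc).exp, ?_⟩⟩
  have h1 := exp_le hβ a k
  have h2 := abs_nonneg a
  have h3 := Real.exp_pos (a * k.c k.x)
  refine jb1_comp (θ := fun t => Real.exp (a * t)) (θ' := Real.exp (a * k.c k.x) * a)
    (k.hj.of_le one_le_two) k.hr (smooth_diff k.hc _)
    (by simpa using ((hasDerivAt_id (k.c k.x)).const_mul a).exp) ?_ ?_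
  · rw [abs_of_pos h3]; nlinarith
  · rw [abs_mul, abs_of_pos h3]
    have := mul_le_mul (mul_le_mul_of_nonneg_right h1 h2) (k.h1.trans hβ) k.h0 (by positivity)
    nlinarith

theorem bigO_of_le {ι : Type} {f g : ι → ℝ} (C : ℝ) (h : ∀ k, |f k| ≤ C * g k)
    (hg : ∀ k, 0 ≤ g k) : f =O[⊤] g :=
  isBigO_top.2 ⟨C, fun k => by rw [Real.norm_of_nonneg (hg k)]; exact h k⟩

theorem le_of_bigO {ι : Type} {f g : ι → ℝ} (h : f =O[⊤] g) (hg : ∀ k, 0 ≤ g k) :
    ∃ C, 0 ≤ C ∧ ∀ k, |f k| ≤ C * g k := by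
  obtain ⟨C, hC⟩ := isBigO_top.1 h
  refine ⟨|C|, abs_nonneg C, fun k => (hC k).trans ?_⟩
  rw [Real.norm_of_nonneg (hg k)]
  exact mul_le_mul_of_nonneg_right (le_abs_self C) (hg k)

theorem bigO_exp (hβ : β0 ≤ 1) (a : ℝ) :
    (fun k : Cf n β0 => Real.exp (a * k.c k.x)) =O[⊤] fun _ => (1 : ℝ) :=
  bigO_of_le (Real.exp |a|) (fun k => by
    rw [abs_of_pos (Real.exp_pos _), mul_one]; exact exp_le hβ a k) fun _ => zero_le_one

theorem bigO_exp_sub (hβ : β0 ≤ 1) (a : ℝ) :
    (fun k : Cf n β0 => Real.exp (a * k.c k.x) - 1) =O[⊤] fun k => k.β := by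
  obtain ⟨C, -, h⟩ := exists_jb_comp n (θ := fun t => Real.exp (a * t) - 1) (by fun_prop)
    (by simp) 1
  exact bigO_of_le C (fun k => (h k.c k.x k.r k.β k.hc k.hr (k.h1.trans hβ) k.hj).abs_le)
    fun k => k.h0

theorem bigO_pd (i : Fin n) : (fun k : Cf n β0 => pderiv i k.c k.x) =O[⊤] fun k => k.β / k.r :=
  bigO_of_le 1 (fun k => by simpa using k.hj.abs_pd_le i) fun k => div_nonneg k.h0 k.hr.le

theorem bigO_bl (H : Matrix (Fin n) (Fin n) ℝ) :
    (fun k : Cf n β0 => bl H k.c k.x) =O[⊤] fun k => k.β / k.r ^ 2 :=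
  IsBigO.fun_sum fun i _ => IsBigO.fun_sum fun j _ => IsBigO.const_mul_left
    (bigO_of_le 1 (fun k : Cf n β0 => by simpa using k.hj.abs_pd_pd_le k.hc i j)
      fun k => div_nonneg k.h0 (sq_nonneg _)) _

end St

open St in
theorem sj (hJL : JLStmt) (hst : STStmt) (hsti : STIStmt) : SJStmt := by
  intro n hn w ξ g0 B hB
  have hb := hB.posDef
  set b := Bᵀ * B with hbd
  obtain ⟨C0, β1, hC0, hβ1, hs⟩ := hsti n hn b hb ‖w‖ (norm_nonneg w) hB.w_lt
  set W := ‖w‖ ^ 2 with hW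
  have hW1 : W < 1 := by rw [hW]; nlinarith [hB.w_lt, norm_nonneg w]
  have hlim : Tendsto (fun t : ℝ => Real.exp (2 * ((n : ℝ) - 1) * t) * W) (𝓝 0) (𝓝 W) :=
    Continuous.tendsto' (by fun_prop) _ _ (by simp)
  obtain ⟨β0, ⟨⟨hβ2, hβ3⟩, hβ4⟩, hβ0⟩ := (((((hlim.eventually (gt_mem_nhds
    (show W < (1 + W) / 2 by linarith))).and (gt_mem_nhds one_pos)).and
    (gt_mem_nhds hβ1)).filter_mono nhdsWithin_le_nhds).and
    (self_mem_nhdsWithin (s := Ioi (0 : ℝ)))).exists
  have hβ0 : 0 < β0 := hβ0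
  have hβ : β0 ≤ 1 := hβ3.le
  have hn' : (3 : ℝ) ≤ n := by exact_mod_cast hn
  have hf := contDiff_dotF ξ
  have hpd : ∀ x, (fun i => pderiv i (dotF ξ) x) = ξ.ofLp := fun x => funext (pd_dotF ξ x)
  have hS := fun k : Cf n β0 => hs k.c (dotF ξ) k.hc hf (fun x => (k.hb x).trans hβ4.le)
    fun x => by rw [hpd, hB.qb_inv_ξ]
  have hT := fun (k : Cf n β0) (x : E n) =>
    hst n hn b k.c (dotF ξ) hb k.hc hf (hS k).1 x _ _ _ _ _ rfl rfl rfl rfl rfl
  set γ := fun k : Cf n β0 => Id.gm (gS b k.c (dotF ξ)) (ph k.c) (dotF ξ) with hγ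
  have hγ1 : ∀ k x, 1 ≤ γ k x := fun k x => (jd_gS k.hc hf (hS k).1).one_le_gm (mem_univ x)
  set a := -(2 * ((n : ℝ) - 1)) with ha
  have hγ2 : ∀ k x, γ k x ^ 2 * (1 + -W * Real.exp (a * k.c x)) = 1 := fun k x => by
    have h := (hT k x).1
    rw [qb_X, hpd, hB.qb_inv_ξ, ph_sq] at h
    rw [mul_assoc, mul_div_cancel_left₀ _ (Real.exp_pos _).ne'] at h
    rw [ha, neg_mul (2 * _)]
    linear_combination h
  set G := 2 / (1 - W) with hG
  have hu : ∀ (k : Cf n β0) x, (1 - W) / 2 ≤ 1 + -W * Real.exp (a * k.c x) := fun k x => by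
    have h1 : Real.exp (a * k.c x) ≤ Real.exp (2 * ((n : ℝ) - 1) * β0) :=
      Real.exp_le_exp.2 (by rw [ha]; nlinarith [(abs_le.1 (k.hb x)).1])
    nlinarith [mul_le_mul_of_nonneg_right h1 (sq_nonneg ‖w‖)]
  have hγ3 : ∀ k x, γ k x ^ 2 ≤ G := fun k x => by
    rw [hG, le_div_iff₀ (by linarith)]
    nlinarith [hγ2 k x, mul_le_mul_of_nonneg_left (hu k x) (sq_nonneg (γ k x))]
  have hγ4 : ∀ k x, γ k x ≤ G := fun k x => by nlinarith [hγ3 k x, hγ1 k x]
  have hγ5 : ∀ k x, γ k x = (√(1 + -W * Real.exp (a * k.c x)))⁻¹ := fun k x => by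
    have h1 : 1 + -W * Real.exp (a * k.c x) = ((γ k x)⁻¹) ^ 2 := by
      rw [inv_pow]; exact eq_inv_of_mul_eq_one_right (hγ2 k x)
    rw [h1, Real.sqrt_sq (inv_pos.2 (one_pos.trans_le (hγ1 k x))).le, inv_inv]
  have qγ : QJ (fun _ => 1) γ := by
    obtain ⟨D, hD, h⟩ := (qj_exp (n := n) hβ a).cmul (-W)
    have hG0 : 0 < G := div_pos two_pos (by linarith)
    refine ⟨G + G * G * (1 + D), by positivity, fun k => ⟨contDiff_iff_contDiffAt.2 fun x =>
      (jd_gS k.hc hf (hS k).1).c_gm (mem_univ x), ?_⟩⟩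
    have h1 := Jb.add contDiff_const (h k).1 (Jb.const 1 1 k.x k.hr) (h k).2
    have h2 : 0 < 1 + -W * Real.exp (a * k.c k.x) := lt_of_lt_of_le (by linarith) (hu k k.x)
    have h3 := Real.sqrt_pos.2 h2
    have h4 := hγ1 k k.x
    rw [funext (hγ5 k)]
    refine jb1_comp (θ := fun t => (√t)⁻¹) (θ' := -(γ k k.x ^ 2 * γ k k.x / 2)) h1 k.hr
      (smooth_diff (contDiff_const.add (h k).1) _)
      (((Real.hasDerivAt_sqrt h2.ne').inv h3.ne').congr_deriv (by rw [hγ5]; field_simp)) ?_ ?_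
    · rw [← hγ5, abs_of_pos (by linarith)]
      have : 0 ≤ G * G * (1 + D) := by positivity
      linarith [hγ4 k k.x]
    · rw [abs_neg, abs_of_pos (by positivity), abs_one, mul_one, mul_one]
      have h5 := mul_le_mul (hγ3 k k.x) (hγ4 k k.x) (by linarith) hG0.le
      have h6 : γ k k.x ^ 2 * γ k k.x / 2 ≤ G * G := by nlinarith [mul_pos hG0 hG0]
      nlinarith [mul_le_mul_of_nonneg_right h6 (by linarith : 0 ≤ 1 + D)]
  have qP : QJ (fun k : Cf n β0 => k.β / k.r)
      fun k y => ∑ i, ∑ l, b⁻¹ i l * ξ i * pderiv l k.c y :=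
    QJ.sum fun i => QJ.sum fun l => (qj_pd l).cmul _
  have qK : ∀ i j, QJ (fun k : Cf n β0 => k.β / k.r) fun k y => KS b k.c (dotF ξ) y i j := by
    intro i j
    rw [show (fun (k : Cf n β0) y => KS b k.c (dotF ξ) y i j) = _ from
      funext fun k => funext fun y => KS_apply hb k.hc ξ (hS k).1 y i j]
    exact qγ.mul (((qj_exp hβ _).mul ((((qj_pd i).cmul _).add ((qj_pd j).cmul _)).add
      (qP.cmul _))).add ((qj_exp hβ _).mul (qP.cmul _)))
  choose CK hCK hK using qK
  have qg : ∀ i j, ∃ C : ℝ, 0 ≤ C ∧ ∀ k : Cf n β0,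
      Jb 2 (fun y => (gS b k.c (dotF ξ) y - 1) i j) k.x k.r (C * k.β) := fun i j => by
    obtain ⟨C, hC, h⟩ := exists_jb_comp n (θ := fun t => (Real.exp (2 * t) - 1) * b i j -
      (Real.exp (-((n : ℝ) - 2) * t) ^ 2 - 1) * (ξ i * ξ j)) (by fun_prop) (by simp) 1
    refine ⟨C, hC, fun k => ?_⟩
    convert h k.c k.x k.r k.β k.hc k.hr (k.h1.trans hβ) k.hj using 2 with y
    have : b i j = (1 : Matrix (Fin n) (Fin n) ℝ) i j + ξ i * ξ j := by rw [hbd, hB.BtB]; rfl
    rw [Matrix.sub_apply, gS_apply, pd_dotF, pd_dotF, ph]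
    linear_combination this
  choose Cg hCg hg using qg
  set C1 := ∑ i, ∑ j, (Cg i j + CK i j) with hC1
  have hle : ∀ i j, Cg i j + CK i j ≤ C1 := fun i j =>
    (Finset.single_le_sum (f := fun j => Cg i j + CK i j)
      (fun j _ => add_nonneg (hCg i j) (hCK i j)) (Finset.mem_univ j)).trans
      (Finset.single_le_sum (f := fun i => ∑ j, (Cg i j + CK i j)) (fun i _ =>
        Finset.sum_nonneg fun j _ => add_nonneg (hCg i j) (hCK i j)) (Finset.mem_univ i))
  have hC10 : 0 ≤ C1 :=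
    Finset.sum_nonneg fun i _ => Finset.sum_nonneg fun j _ => add_nonneg (hCg i j) (hCK i j)
  have hJB : ∀ k : Cf n β0, JB (fun y => gS b k.c (dotF ξ) y - 1) (KS b k.c (dotF ξ)) k.x k.r
      (C1 * k.β) := fun k =>
    ⟨fun i j => (hg i j k).mono k.hr (mul_le_mul_of_nonneg_right (by linarith [hle i j, hCK i j]) k.h0),
      fun i j => (hK i j k).2.mono k.hr (by
        rw [mul_div_assoc]
        exact mul_le_mul_of_nonneg_right (by linarith [hle i j, hCg i j]) (div_nonneg k.h0 k.hr.le))⟩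
  obtain ⟨CJ, -, hJ⟩ := JL0 hJL n (Λ := C0 + C1) (by linarith)
  have hJ' := fun k : Cf n β0 => hJ _ _ (hS k).1 (hS k).2.2.2.1 k.x k.r (C1 * k.β) k.hr
    (mul_nonneg hC10 k.h0) (by nlinarith [k.h1.trans hβ])
    (((hS k).2.1 k.x).mono (by linarith) (by linarith)) (hJB k)
  set s2 := fun k : Cf n β0 => k.β ^ 2 / k.r ^ 2 with hs2
  have hs20 : ∀ k, 0 ≤ s2 k := fun k => by simp only [hs2]; positivity
  have o1 : (fun k : Cf n β0 => energyDensity (gS b k.c (dotF ξ)) (KS b k.c (dotF ξ)) k.x -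
      Lmu (fun y => gS b k.c (dotF ξ) y - 1) k.x) =O[⊤] s2 :=
    bigO_of_le (CJ * C1 ^ 2) (fun k => (hJ' k).1.trans (le_of_eq (by simp only [hs2]; ring))) hs20
  have o2 : ∀ i, (fun k : Cf n β0 => momentumDensity (gS b k.c (dotF ξ)) (KS b k.c (dotF ξ)) k.x i -
      LJ (KS b k.c (dotF ξ)) k.x i) =O[⊤] s2 := fun i =>
    bigO_of_le (CJ * C1 ^ 2) (fun k => ((hJ' k).2.1 i).trans (le_of_eq (by simp only [hs2]; ring)))
      hs20
  have oγ : (fun k => γ k k.x) =O[⊤] fun _ => (1 : ℝ) :=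
    bigO_of_le G (fun k => by rw [abs_of_pos (one_pos.trans_le (hγ1 k k.x)), mul_one]; exact hγ4 k k.x)
      fun _ => zero_le_one
  have oγ2 : (fun k => γ k k.x ^ 2) =O[⊤] fun _ => (1 : ℝ) := by simpa using oγ.pow 2
  have o3 : (fun k => γ k k.x ^ 2 - g0 ^ 2) =O[⊤] fun k : Cf n β0 => k.β :=
    ((oγ2.mul (bigO_exp_sub hβ a)).const_mul_left (g0 ^ 2 * W)).congr
      (fun k => by linear_combination g0 ^ 2 * hγ2 k k.x * (-1) + γ k k.x ^ 2 * hB.g0_sq)
      fun k => one_mul _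
  have o4 : (fun k => γ k k.x - g0) =O[⊤] fun k : Cf n β0 => k.β := by
    refine IsBigO.trans (isBigO_top.2 ⟨1, fun k => ?_⟩) o3
    rw [one_mul, sq_sub_sq, norm_mul]
    refine le_mul_of_one_le_left (norm_nonneg _) ?_
    rw [Real.norm_of_nonneg (by linarith [hγ1 k k.x, hB.g0_ge])]
    linarith [hγ1 k k.x, hB.g0_ge]
  have ol : (fun k : Cf n β0 => (Real.exp (2 * k.c k.x))⁻¹) =O[⊤] fun _ => (1 : ℝ) :=
    (bigO_exp hβ (-2)).congr_left fun k => by rw [neg_mul, Real.exp_neg]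
  have ol' : (fun k : Cf n β0 => (Real.exp (2 * k.c k.x))⁻¹ - 1) =O[⊤] fun k => k.β :=
    (bigO_exp_sub hβ (-2)).congr_left fun k => by rw [neg_mul, Real.exp_neg]
  have oφ : (fun k : Cf n β0 => ph k.c k.x) =O[⊤] fun _ => (1 : ℝ) := bigO_exp hβ _
  have oφ' : (fun k : Cf n β0 => ph k.c k.x - 1) =O[⊤] fun k => k.β := bigO_exp_sub hβ _
  have odd : (fun k : Cf n β0 => qb b⁻¹ (fun i => pderiv i k.c k.x) fun i => pderiv i k.c k.x)
      =O[⊤] s2 := IsBigO.fun_sum fun i _ => IsBigO.fun_sum fun j _ =>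
    (((bigO_pd i).const_mul_left _).mul (bigO_pd j)).congr_right fun k => by simp only [hs2]; ring
  have oP : (fun k : Cf n β0 => qb b⁻¹ (fun i => pderiv i k.c k.x)
      fun i => ph k.c k.x * pderiv i (dotF ξ) k.x) =O[⊤] fun k => k.β / k.r :=
    IsBigO.fun_sum fun i _ => IsBigO.fun_sum fun j _ =>
      ((((bigO_pd i).const_mul_left (b⁻¹ i j * ξ j)).mul oφ).congr
        (fun k => by beta_reduce; rw [pd_dotF]; ring) fun k => mul_one _)
  have oρ := bigO_bl (β0 := β0) b⁻¹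
  have o5 : (fun k => γ k k.x ^ 2 * (Real.exp (2 * k.c k.x))⁻¹ - g0 ^ 2) =O[⊤]
      fun k : Cf n β0 => k.β :=
    (((oγ2.mul ol').congr_right fun k => one_mul _).add o3).congr_left fun k => by ring
  have o6 : (fun k => γ k k.x * (Real.exp (2 * k.c k.x))⁻¹ * ph k.c k.x - g0) =O[⊤]
      fun k : Cf n β0 => k.β :=
    (((((oγ.mul ol).mul oφ').congr_right fun k => by simp).add
      ((oγ.mul ol').congr_right fun k => one_mul _)).add o4).congr_left fun k => by ring
  have o7 : (fun k : Cf n β0 => Lmu (fun y => gS b k.c (dotF ξ) y - 1) k.x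
      + ((n : ℝ) - 1) * g0 ^ 2 * bl b⁻¹ k.c k.x) =O[⊤] s2 := by
    refine (((((o5.mul oρ).congr_right fun k => by simp only [hs2]; ring).add
      ((((ol.mul odd).congr_right fun k => one_mul _).const_mul_left (((n : ℝ) - 2) / 2)).add
      (((((ol.mul ol).mul oγ2).mul (oP.pow 2)).congr_right fun k => by
        simp only [hs2]; ring).const_mul_left ((n : ℝ) - 2)))).const_mul_left
      (-((n : ℝ) - 1))).sub o1).congr_left fun k => ?_
    rw [(hT k k.x).2.1]
    simp only [hγ]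
    ring
  have o8 : ∀ i, (fun k : Cf n β0 => LJ (KS b k.c (dotF ξ)) k.x i
      + w i * (((n : ℝ) - 1) * g0 ^ 2 * bl b⁻¹ k.c k.x)) =O[⊤] s2 := fun i => by
    refine ((((((o6.mul oρ).congr_right fun k => by simp only [hs2]; ring).const_mul_left (ξ i)).add
      (((((oγ.mul ol).mul oP).mul (bigO_pd i)).congr_right fun k => by
        simp only [hs2]; ring).const_mul_left ((n : ℝ) - 2))).const_mul_left
      (-((n : ℝ) - 1))).sub (o2 i)).congr_left fun k => ?_
    have hξ : ξ i = g0 * w i := by rw [hB.ξ_eq]; rfl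
    rw [(hT k k.x).2.2 i]
    simp only [hγ, pd_dotF ξ k.x i, hξ]
    ring
  obtain ⟨C2, hC2, h7⟩ := le_of_bigO o7 hs20
  choose C3 hC3 h8 using fun i => le_of_bigO (o8 i) hs20
  have hC4 : 0 ≤ ∑ i, C3 i := Finset.sum_nonneg fun i _ => hC3 i
  refine ⟨1 + C1 + C2 + ∑ i, C3 i, β0, by linarith, hβ0, fun c hc hcb x r β hr h0 h1 hj => ?_⟩
  let k : Cf n β0 := ⟨c, x, r, β, hc, hcb, hr, h0, h1, hj⟩
  refine ⟨(hJB k).mono hr (mul_le_mul_of_nonneg_right (by linarith) h0),
    (h7 k).trans (mul_le_mul_of_nonneg_right (by linarith) (hs20 k)),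
    fun i => (h8 i k).trans (mul_le_mul_of_nonneg_right ?_ (hs20 k))⟩
  linarith [Finset.single_le_sum (f := C3) (fun i _ => hC3 i) (Finset.mem_univ i)]

end Crest.Agent.N346.P0

end
end

-- ▼ part N346/P0/Bend
section

/-! Row 346, Part 0 (helper20): step 0.4, bending the slice to `t = 0`
(`bend : STIStmt → PertStmt → BendStmt`). -/

set_option autoImplicit false
open MeasureTheory Filter Topology Matrix
open scoped ContDiff
open Crest.GeometryTopology.CoordMetric
open Crest.MathPhysics.ExteriorData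

noncomputable section

namespace Crest.Agent.N346.P0
open Bs

namespace BendAux

variable {n : ℕ}

theorem exists_deriv_bound : ∃ M : ℝ, 0 < M ∧ ∀ t, |deriv Real.smoothTransition t| ≤ M := by
  have hc : Continuous (deriv Real.smoothTransition) :=
    (Real.smoothTransition.contDiff (n := 1)).continuous_deriv le_rfl
  obtain ⟨M, hM⟩ := isCompact_Icc.exists_bound_of_continuousOn (s := Set.Icc (0 : ℝ) 1)
    hc.continuousOn
  refine ⟨|M| + 1, by positivity, fun t => ?_⟩
  have h0 := abs_nonneg M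
  rcases le_total t 0 with h | h
  · rw [IsLocalMin.deriv_eq_zero (.of_forall fun y =>
      (Real.smoothTransition.zero_of_nonpos h).le.trans (Real.smoothTransition.nonneg y))]
    simp only [abs_zero]; linarith
  rcases le_total 1 t with h' | h'
  · rw [IsLocalMax.deriv_eq_zero (.of_forall fun y =>
      (Real.smoothTransition.le_one y).trans (Real.smoothTransition.one_of_one_le h').ge)]
    simp only [abs_zero]; linarith
  · exact (hM t ⟨h, h'⟩).trans (by linarith [le_abs_self M])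

/-- the logarithmic cut-off of the linear function `ξ · x` -/
theorem exists_cut (ξ : E n) {δ : ℝ} (hδ : 0 < δ) (ρ : ℝ) :
    ∃ (f : E n → ℝ) (R : ℝ), ContDiff ℝ ∞ f ∧ (∀ x, ‖x‖ ≤ ρ → f x = dotF ξ x) ∧
      (∀ x, R ≤ ‖x‖ → f x = 0) ∧ ∀ x, ∃ (t : ℝ) (d : E n), 0 ≤ t ∧ t ≤ 1 ∧ ‖d‖ ≤ δ ∧
        ∀ i, pderiv i f x = t * ξ i + d i := by
  obtain ⟨M, hM0, hM⟩ := exists_deriv_bound
  obtain ⟨ι, hι, hιδ⟩ : ∃ ι : ℝ, 0 < ι ∧ 2 * M * ι * ‖ξ‖ ≤ δ := by
    refine ⟨δ / (2 * M * (‖ξ‖ + 1)), by positivity, ?_⟩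
    have : 2 * M * (δ / (2 * M * (‖ξ‖ + 1))) * ‖ξ‖ = δ * (‖ξ‖ / (‖ξ‖ + 1)) := by field_simp
    rw [this]
    exact mul_le_of_le_one_right hδ.le (div_le_one_of_le₀ (by linarith) (by positivity))
  set L := Real.log (1 + ρ ^ 2) with hL
  have hpos : ∀ y : E n, 0 < 1 + ‖y‖ ^ 2 := fun y => by positivity
  have hq : ContDiff ℝ ∞ fun y : E n => 1 + ‖y‖ ^ 2 := contDiff_const.add (contDiff_norm_sq ℝ)
  have hl : ContDiff ℝ ∞ fun y : E n => Real.log (1 + ‖y‖ ^ 2) := hq.log fun y => (hpos y).ne'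
  have hu : ContDiff ℝ ∞ fun y : E n => 1 - ι * (Real.log (1 + ‖y‖ ^ 2) - L) :=
    contDiff_const.sub (contDiff_const.mul (hl.sub contDiff_const))
  have hχ : ContDiff ℝ ∞ fun y : E n =>
      Real.smoothTransition (1 - ι * (Real.log (1 + ‖y‖ ^ 2) - L)) :=
    Real.smoothTransition.contDiff.comp hu
  refine ⟨fun y => Real.smoothTransition (1 - ι * (Real.log (1 + ‖y‖ ^ 2) - L)) * dotF ξ y,
    Real.exp (L + 1 / ι) + 1, hχ.mul (contDiff_dotF ξ), fun x hx => ?_, fun x hx => ?_,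
    fun x => ?_⟩
  · have : Real.log (1 + ‖x‖ ^ 2) ≤ L := Real.log_le_log (hpos x) (by gcongr)
    beta_reduce
    rw [Real.smoothTransition.one_of_one_le (by nlinarith), one_mul]
  · have h1 := Real.exp_pos (L + 1 / ι)
    have h2 : L + 1 / ι ≤ Real.log (1 + ‖x‖ ^ 2) := by
      rw [Real.le_log_iff_exp_le (hpos x)]; nlinarith
    have h3 : ι * (1 / ι) = 1 := by field_simp
    beta_reduce
    rw [Real.smoothTransition.zero_of_nonpos (by nlinarith), zero_mul]
  · set s := deriv Real.smoothTransition (1 - ι * (Real.log (1 + ‖x‖ ^ 2) - L)) with hs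
    refine ⟨Real.smoothTransition (1 - ι * (Real.log (1 + ‖x‖ ^ 2) - L)),
      (-(s * ι * 2 * dotF ξ x / (1 + ‖x‖ ^ 2))) • x, Real.smoothTransition.nonneg _,
      Real.smoothTransition.le_one _, ?_, fun i => ?_⟩
    · rw [norm_smul, Real.norm_eq_abs, abs_neg, abs_div, abs_of_pos (hpos x), abs_mul, abs_mul,
        abs_mul, abs_of_pos hι, abs_two, div_mul_eq_mul_div, div_le_iff₀ (hpos x)]
      calc |s| * ι * 2 * |dotF ξ x| * ‖x‖ ≤ M * ι * 2 * (‖ξ‖ * ‖x‖) * ‖x‖ := by
            gcongr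
            · exact hM _
            · exact abs_dotF_le ξ x
        _ = 2 * M * ι * ‖ξ‖ * ‖x‖ ^ 2 := by ring
        _ ≤ δ * (1 + ‖x‖ ^ 2) := by gcongr; linarith
    · have h1 := pd_comp (u := fun y : E n => 1 - ι * (Real.log (1 + ‖y‖ ^ 2) - L)) (x := x)
        ((Real.smoothTransition.contDiff (n := 1)).differentiable one_ne_zero _).hasDerivAt
        (smooth_diff hu x) i
      have h2 := pd_comp (u := fun y : E n => 1 + ‖y‖ ^ 2) (x := x)
        (Real.hasDerivAt_log (hpos x).ne') (smooth_diff hq x) i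
      rw [pd_const_add, pd_normSq] at h2
      rw [pd_const_sub, pd_const_mul, pd_sub_const, h2, ← hs] at h1
      rw [pd_mul (smooth_diff hχ x) (smooth_diff (contDiff_dotF ξ) x), h1, pd_dotF]
      simp only [PiLp.smul_apply, smul_eq_mul]
      ring

variable {b : Matrix (Fin n) (Fin n) ℝ} {c f f' : E n → ℝ} {x : E n}

theorem gS_congr (h : f =ᶠ[𝓝 x] f') : gS b c f x = gS b c f' x := by
  simp only [gS, Id.XX, pd_congr h]

theorem gS_congr' (h : f =ᶠ[𝓝 x] f') : gS b c f =ᶠ[𝓝 x] gS b c f' :=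
  h.eventually_nhds.mono fun _ hy => gS_congr hy

theorem KS_congr (h : f =ᶠ[𝓝 x] f') : KS b c f x = KS b c f' x := by
  have h1 : R202.Tens.Gam (gS b c f) x = R202.Tens.Gam (gS b c f') x := by
    simp only [R202.Tens.Gam, R202.Tens.christoffel_congr (gS_congr' h)]
  simp only [KS, Id.hh, Id.hessM, R247.Bo84.hess, Id.gm, Id.sq, R247.Bo84.gam, inverseField,
    pd_congr h, gS_congr h, h1, h.fderiv.fderiv_eq, h.fderiv_eq]

theorem KS_congr' (h : f =ᶠ[𝓝 x] f') : KS b c f =ᶠ[𝓝 x] KS b c f' :=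
  h.eventually_nhds.mono fun _ hy => KS_congr hy

theorem quadForm_gS (b : Matrix (Fin n) (Fin n) ℝ) (c f : E n → ℝ) (x v : E n) :
    quadForm (gS b c f) x v
      = Real.exp (2 * c x) * qb b v v - ph c x ^ 2 * (∑ i, pderiv i f x * v i) ^ 2 := by
  rw [sq (∑ i, _), Finset.sum_mul_sum]
  simp only [quadForm, gS, Id.XX, qb, Matrix.sub_apply, Matrix.smul_apply, Matrix.of_apply,
    smul_eq_mul, sub_mul, Finset.sum_sub_distrib, Finset.mul_sum]
  congr 1 <;> exact Finset.sum_congr rfl fun i _ => Finset.sum_congr rfl fun j _ => by ring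

theorem qb_add_le {A : Matrix (Fin n) (Fin n) ℝ} (hA : A.PosDef) {u v : Fin n → ℝ} {p q t : ℝ}
    (hp : 0 ≤ p) (hq : 0 ≤ q) (ht0 : 0 ≤ t) (ht1 : t ≤ 1) (hu : qb A u u ≤ p ^ 2)
    (hv : qb A v v ≤ q ^ 2) :
    qb A (fun i => t * u i + v i) (fun i => t * u i + v i) ≤ (p + q) ^ 2 := by
  have e : qb A (fun i => t * u i + v i) (fun i => t * u i + v i)
      = t ^ 2 * qb A u u + t * qb A u v + t * qb A v u + qb A v v := by
    simp only [qb, Finset.mul_sum, ← Finset.sum_add_distrib]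
    exact Finset.sum_congr rfl fun i _ => Finset.sum_congr rfl fun j _ => by ring
  have h0 := qb_nonneg hA u
  have h1 : qb A u v ≤ p * q := by
    refine (abs_le_of_sq_le_sq' ((qb_sq_le hA u v).trans ?_) (by positivity)).2
    rw [mul_pow]
    exact mul_le_mul hu hv (qb_nonneg hA v) (by positivity)
  have h2 : t * qb A u v ≤ p * q :=
    (mul_le_mul_of_nonneg_left h1 ht0).trans (mul_le_of_le_one_left (by positivity) ht1)
  have h3 : t ^ 2 * qb A u u ≤ p ^ 2 :=
    (mul_le_of_le_one_left h0 (pow_le_one₀ ht0 ht1)).trans hu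
  rw [e, qb_comm (posDef_symm hA) v u]
  nlinarith

theorem sq_dot_le {ξ d v : E n} {t δ : ℝ} (ht0 : 0 ≤ t) (ht1 : t ≤ 1) (hd : ‖d‖ ≤ δ)
    (hδ : δ ≤ 1) : (∑ i, (t * ξ i + d i) * v i) ^ 2
      ≤ (∑ i, ξ i * v i) ^ 2 + (2 * ‖ξ‖ + 1) * δ * ‖v‖ ^ 2 := by
  have e : ∑ i, (t * ξ i + d i) * v i = t * dotF ξ v + dotF d v := by
    simp only [dotF, Finset.mul_sum, ← Finset.sum_add_distrib]
    exact Finset.sum_congr rfl fun i _ => by ring
  have hδ0 : 0 ≤ δ := (norm_nonneg _).trans hd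
  have h1 := abs_dotF_le ξ v
  have h2 : |dotF d v| ≤ δ * ‖v‖ := (abs_dotF_le d v).trans (by gcongr)
  have h3 : t * dotF ξ v * dotF d v ≤ ‖ξ‖ * δ * ‖v‖ ^ 2 := by
    refine (le_abs_self _).trans ?_
    rw [abs_mul, abs_mul, abs_of_nonneg ht0]
    calc t * |dotF ξ v| * |dotF d v| ≤ 1 * (‖ξ‖ * ‖v‖) * (δ * ‖v‖) := by gcongr
      _ = _ := by ring
  have h4 : dotF d v ^ 2 ≤ δ * ‖v‖ ^ 2 := by
    calc dotF d v ^ 2 = |dotF d v| ^ 2 := (sq_abs _).symm
      _ ≤ (δ * ‖v‖) ^ 2 := by gcongr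
      _ = δ * (δ * ‖v‖ ^ 2) := by ring
      _ ≤ _ := mul_le_of_le_one_left (by positivity) hδ
  have h5 : (t * dotF ξ v) ^ 2 ≤ dotF ξ v ^ 2 := by
    rw [mul_pow]; exact mul_le_of_le_one_left (sq_nonneg _) (pow_le_one₀ ht0 ht1)
  rw [e]
  change _ ≤ dotF ξ v ^ 2 + _
  nlinarith

theorem one_sub_le_sqrt (n : ℕ) {κ ε : ℝ} (h0 : 0 ≤ κ) (h1 : κ ≤ 1) (h2 : n * κ ≤ ε) :
    1 - ε ≤ √((1 - κ) ^ (n - 1)) := by
  have h3 := one_add_mul_le_pow (a := -κ) (by linarith) (n - 1)
  have h4 : ((n - 1 : ℕ) : ℝ) ≤ n := by exact_mod_cast Nat.sub_le n 1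
  have h5 : (1 - κ) ^ (n - 1) ≤ 1 := pow_le_one₀ (by linarith) (by linarith)
  have h6 : 0 ≤ (1 - κ) ^ (n - 1) := pow_nonneg (by linarith) _
  rw [← sub_eq_add_neg] at h3
  refine le_trans (by nlinarith) (Real.le_sqrt_of_sq_le (x := (1 - κ) ^ (n - 1)) (by nlinarith))

end BendAux

open BendAux

set_option maxHeartbeats 800000 in
theorem bend : STIStmt → PertStmt → BendStmt := by
  intro hSTI hP n hn w ξ g0 B hB
  have hw1 := hB.w_lt
  have hw0 := norm_nonneg w
  have hg0 := hB.g0_pos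
  obtain ⟨C1, β0, hC1, hβ0, hS⟩ := hSTI n hn _ hB.posDef ((1 + ‖w‖) / 2) (by positivity)
    (by linarith)
  obtain ⟨C2, hC2, hP⟩ := hP n C1 hC1
  refine ⟨β0, hβ0, fun e0 m A Q g K EE ψ R1 C c0 θ0 r1 he0 he1 hA hM ε hε => ?_⟩
  set b := Bᵀ * B with hb
  set c : E n → ℝ := fun y => ψ (lin B y) with hc
  have hcs : ContDiff ℝ ∞ c := contDiff_comp_lin B hM.far.smooth
  have hcb : ∀ x, |c x| ≤ β0 := fun x => hM.ψ_small _
  have hn3 : (3 : ℝ) ≤ n := by exact_mod_cast hn
  have hc0 := hM.c0_pos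
  have hR1 := hM.R1_ge
  have hC : 0 ≤ C := by
    have := (norm_nonneg _).trans (hM.far.decay 0 (by norm_num) 0)
    simpa using this
  -- the unbent static data
  obtain ⟨hr0, hl0, -, hK0, hY0, -⟩ := hS c (dotF ξ) hcs (contDiff_dotF ξ) hcb fun x => by
    simp only [pd_dotF]
    exact hB.qb_inv_ξ.le.trans (by nlinarith)
  -- constants
  set Φ := Real.exp (((n : ℝ) - 2) * β0) ^ 2 with hΦ
  have hΦ0 : 0 < Φ := by positivity
  have hph : ∀ x, ph c x ^ 2 ≤ Φ := fun x => by
    refine pow_le_pow_left₀ (Real.exp_pos _).le (Real.exp_le_exp.2 ?_) 2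
    have := (abs_le.1 (hcb x)).1
    nlinarith
  obtain ⟨δ, hδ0, hδ1, hδ2, hδ3, hδ4⟩ : ∃ δ : ℝ, 0 < δ ∧ δ ≤ 1 ∧ δ ≤ (1 - ‖w‖) / 2 ∧
      C1 * (Φ * ((2 * ‖ξ‖ + 1) * δ)) ≤ 1 / 2 ∧ n * (C1 * (Φ * ((2 * ‖ξ‖ + 1) * δ))) ≤ ε := by
    have t0 : Tendsto (fun δ : ℝ => δ) (𝓝[>] 0) (𝓝 0) := tendsto_nhdsWithin_of_tendsto_nhds tendsto_id
    have t1 : Tendsto (fun δ : ℝ => C1 * (Φ * ((2 * ‖ξ‖ + 1) * δ))) (𝓝[>] 0) (𝓝 0) := by
      simpa using ((t0.const_mul (2 * ‖ξ‖ + 1)).const_mul Φ).const_mul C1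
    have t2 : Tendsto (fun δ : ℝ => n * (C1 * (Φ * ((2 * ‖ξ‖ + 1) * δ)))) (𝓝[>] 0) (𝓝 0) := by
      simpa using t1.const_mul (n : ℝ)
    exact ((eventually_mem_nhdsWithin (a := (0 : ℝ)) (s := Set.Ioi 0)).and
      ((t0.eventually (ge_mem_nhds one_pos)).and
      ((t0.eventually (ge_mem_nhds (by linarith))).and
      ((t1.eventually (ge_mem_nhds (by norm_num))).and (t2.eventually (ge_mem_nhds hε)))))).exists
  set κ := C1 * (Φ * ((2 * ‖ξ‖ + 1) * δ)) with hκ
  have hκ0 : 0 ≤ κ := by positivity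
  set a := C1⁻¹ * (c0 * g0 ^ (-(n : ℝ) - e0)) with ha
  have ha0 : 0 < a := by positivity
  set D := C2 * (n * C ^ 2) + C1 * (C * g0) ^ 2 with hD
  obtain ⟨ρ, hρ1, hρ2⟩ : ∃ ρ : ℝ, R1 < ρ ∧ ∀ r, ρ ≤ r → D * r ^ (-((n : ℝ) - 2 - e0)) ≤ a / 2 := by
    have t1 : Tendsto (fun r : ℝ => D * r ^ (-((n : ℝ) - 2 - e0))) atTop (𝓝 0) := by
      simpa using (tendsto_rpow_neg_atTop (y := (n : ℝ) - 2 - e0) (by linarith)).const_mul D
    exact ((eventually_gt_atTop R1).and
      (eventually_forall_ge_atTop.2 (t1.eventually (ge_mem_nhds (half_pos ha0))))).exists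
  obtain ⟨f, R, hfs, hf1, hf0, hfd⟩ := exists_cut ξ hδ0 ρ
  obtain ⟨hr1, hl1, hb1, hK1, hY1, hE1⟩ := hS c f hcs hfs hcb fun x => by
    obtain ⟨t, d, ht0, ht1, hd, hdf⟩ := hfd x
    simp only [hdf]
    refine (qb_add_le hB.posDef.inv hw0 (by linarith : 0 ≤ (1 - ‖w‖) / 2) ht0 ht1
      hB.qb_inv_ξ.le ?_).trans (le_of_eq (by ring))
    rw [hB.qb_inv, ← norm_sq_eq]
    have : ‖d‖ ^ 2 ≤ ((1 - ‖w‖) / 2) ^ 2 := by gcongr; linarith
    nlinarith [sq_nonneg (∑ i, w i * d i)]
  set g' : MetricField n := fun x => g x + (gS b c f x - gS b c (dotF ξ) x) with hg'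
  set K' : MetricField n := fun x => K x + (KS b c f x - KS b c (dotF ξ) x) with hK'
  have hfin : ∀ x : E n, ‖x‖ < ρ → f =ᶠ[𝓝 x] dotF ξ := fun x hx =>
    ((isOpen_lt continuous_norm continuous_const).eventually_mem hx).mono fun y hy => hf1 y hy.le
  have hgin : ∀ x : E n, ‖x‖ < ρ → g' =ᶠ[𝓝 x] g := fun x hx =>
    (gS_congr' (b := b) (c := c) (hfin x hx)).mono fun y hy => by simp only [hg', hy, sub_self, add_zero]
  have hKin : ∀ x : E n, ‖x‖ < ρ → K' =ᶠ[𝓝 x] K := fun x hx =>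
    (KS_congr' (b := b) (c := c) (hfin x hx)).mono fun y hy => by simp only [hK', hy, sub_self, add_zero]
  have hgout : ∀ x : E n, R1 ≤ ‖x‖ → g' x = gS b c f x := fun x hx => by
    simp only [hg', hM.g_far x hx]; abel
  have hKout : ∀ x : E n, R1 ≤ ‖x‖ → K' x = KS b c f x := fun x hx => by
    simp only [hK', hM.K_far x hx]; abel
  have hcomp : ∀ x v, (1 - κ) * quadForm g x v ≤ quadForm g' x v := by
    intro x v
    rcases lt_or_ge ‖x‖ ρ with hx | hx
    · rw [quadForm_eq g', (hgin x hx).self_of_nhds, quadForm_eq]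
      have := qb_nonneg (riem_posDef hM.riem x) v
      nlinarith
    · have hx' : R1 ≤ ‖x‖ := by linarith
      obtain ⟨t, d, ht0, ht1, hd, hdf⟩ := hfd x
      rw [quadForm_eq g', quadForm_eq, hgout x hx', hM.g_far x hx', ← quadForm_eq, ← quadForm_eq]
      have h1 := (hl0 x).norm_sq_le (by linarith) v
      have h2 := sq_dot_le (ξ := ξ) (v := v) ht0 ht1 hd hδ1
      have h3 := mul_le_mul_of_nonneg_left h2 (sq_nonneg (ph c x))
      have h4 : ph c x ^ 2 * ((2 * ‖ξ‖ + 1) * δ * ‖v‖ ^ 2)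
          ≤ Φ * ((2 * ‖ξ‖ + 1) * δ * (C1 * quadForm (gS b c (dotF ξ)) x v)) := by
        gcongr; exact hph x
      have h5 := quadForm_gS b c f x v
      have h6 := quadForm_gS b c (dotF ξ) x v
      simp only [hdf] at h5
      simp only [pd_dotF] at h6
      rw [h5, hκ]
      nlinarith
  have hr' : IsRiemannianOn g' Set.univ := by
    have hs : Sm g' := (sm_riem hM.riem).add ((sm_riem hr1).sub (sm_riem hr0))
    have hy : Sy g' := (sy_riem hM.riem).add ((sy_riem hr1).sub (sy_riem hr0))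
    refine ⟨isOpen_univ, fun i j => (hs i j).contDiffOn, fun x _ => posDef_of_qb (hy x) fun v hv => ?_⟩
    have h1 := hcomp x (WithLp.toLp 2 v)
    have h2 := qb_pos (riem_posDef hM.riem x) hv
    exact lt_of_lt_of_le (mul_pos (by linarith) h2) h1
  have hfout : ∀ x : E n, R < ‖x‖ → f =ᶠ[𝓝 x] fun _ => 0 := fun x hx =>
    ((isOpen_lt continuous_const continuous_norm).eventually_mem hx).mono fun y hy => hf0 y hy.le
  refine ⟨g', K', max R R1 + 1, min c0 (a / 2),
    { R1_ge := by linarith [le_max_right R R1]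
      c0_pos := lt_min hc0 (half_pos ha0)
      θ0_pos := hM.θ0_pos
      r1_gt := hM.r1_gt
      r1_lt := hM.r1_lt
      riem := hr'
      K_smooth := hM.K_smooth.add (hK1.sub hK0)
      K_symm := hM.K_symm.add (hY1.sub hY0)
      far := hM.far.mono (by linarith [le_max_right R R1]) le_rfl (min_le_left _ _) le_rfl
      ψ_small := hM.ψ_small
      g_far := fun x hx => (hgout x (by linarith [le_max_right R R1])).trans
        (gS_congr (hfout x (by linarith [le_max_left R R1])))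
      K_far := fun x hx => (hKout x (by linarith [le_max_right R R1])).trans
        (KS_congr (hfout x (by linarith [le_max_left R R1])))
      EE_smooth := hM.EE_smooth
      EE_decay := hM.EE_decay
      EE_div := hM.EE_div
      charge := hM.charge
      dec := fun x hx => ?_
      trap := fun x h1 h2 => ?_
      area := (hM.area.mono_metric hM.riem hr' (by linarith) fun x _ => hcomp x).mono_area
        (mul_le_mul_of_nonneg_right (one_sub_le_sqrt n hκ0 (by linarith) hδ4) hA) }⟩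
  · have hx0 : 0 < ‖x‖ := by linarith
    rcases lt_or_ge ‖x‖ ρ with hxρ | hxρ
    · exact DECE_congr (hgin x hxρ) (hKin x hxρ)
        (DECE_mono (hM.dec x hx) (by gcongr; exact min_le_left _ _))
    have hU : ∀ᶠ y in 𝓝 x, R1 < ‖y‖ :=
      (isOpen_lt continuous_const continuous_norm).eventually_mem (show R1 < ‖x‖ by linarith)
    refine DECE_congr (hU.mono fun y hy => hgout y hy.le) (hU.mono fun y hy => hKout y hy.le) ?_
    rw [DECE_iff]
    intro v hv
    have hBx := hB.lo x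
    have hlap : c0 * g0 ^ (-(n : ℝ) - e0) * ‖x‖ ^ (-(n : ℝ) - e0) ≤ -bl b⁻¹ c x := by
      rw [hb, hc, bl_comp_lin hB.det_ne hM.far.smooth, mul_assoc, ← Real.mul_rpow hg0.le hx0.le]
      refine le_trans ?_ (hM.far.lap_pos _ (by linarith))
      exact mul_le_mul_of_nonneg_left
        (Real.rpow_le_rpow_of_nonpos (by linarith) (hB.hi x) (by linarith)) hc0.le
    have h1 := hE1 x (le_trans (by positivity) hlap) v hv
    have hp := riem_posDef hr1 x
    have h2 := (hP _ _ EE x 0 hp hp (hl1 x) (hl1 x) (hb1 x) (hb1 x) le_rfl (by simp) v hv).2.1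
    have hr : ∀ y : ℝ, ‖x‖ ≤ y → (1 + y) ^ (1 - (n : ℝ)) ≤ ‖x‖ ^ (1 - (n : ℝ)) := fun y hy =>
      Real.rpow_le_rpow_of_nonpos hx0 (by linarith) (by linarith)
    have h3 : ∑ i, EE x i ^ 2 ≤ n * (C * ‖x‖ ^ (1 - (n : ℝ))) ^ 2 := by
      have : ∀ i, EE x i ^ 2 ≤ (C * ‖x‖ ^ (1 - (n : ℝ))) ^ 2 := fun i => by
        rw [← sq_abs]
        gcongr
        exact (hM.EE_decay x i).trans (mul_le_mul_of_nonneg_left (hr _ le_rfl) hC)
      simpa using Finset.sum_le_sum (s := Finset.univ) fun i _ => this i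
    have h4 : ‖fderiv ℝ c x‖ ≤ C * ‖x‖ ^ (1 - (n : ℝ)) * g0 := by
      have e := ((smooth_diff hM.far.smooth (lin B x)).hasFDerivAt.comp x (lin B).hasFDerivAt).fderiv
      rw [show c = ψ ∘ lin B from rfl, e]
      refine (ContinuousLinearMap.opNorm_comp_le _ _).trans ?_
      have h5 := hM.far.decay 1 (by norm_num) (lin B x)
      rw [norm_iteratedFDeriv_one, Nat.cast_one, show 2 - (n : ℝ) - 1 = 1 - n by ring] at h5
      exact mul_le_mul (h5.trans (mul_le_mul_of_nonneg_left (hr _ hBx) hC)) hB.norm_lin_le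
        (norm_nonneg _) (by positivity)
    have h5 : (‖x‖ ^ (1 - (n : ℝ))) ^ 2 = ‖x‖ ^ (-((n : ℝ) - 2 - e0)) * ‖x‖ ^ (-(n : ℝ) - e0) := by
      rw [sq, ← Real.rpow_add hx0, ← Real.rpow_add hx0]; congr 1; ring
    have hs : 0 < ‖x‖ ^ (-(n : ℝ) - e0) := by positivity
    have h6 : D * (‖x‖ ^ (1 - (n : ℝ))) ^ 2 ≤ a / 2 * ‖x‖ ^ (-(n : ℝ) - e0) := by
      rw [h5, ← mul_assoc]
      exact mul_le_mul_of_nonneg_right (hρ2 _ hxρ) hs.le
    have h7 : C1 * ‖fderiv ℝ c x‖ ^ 2 ≤ C1 * (C * ‖x‖ ^ (1 - (n : ℝ)) * g0) ^ 2 := by gcongr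
    have h8 := mul_le_mul_of_nonneg_left h3 hC2
    have h9 := mul_le_mul_of_nonneg_left hlap (inv_pos.2 (by linarith : 0 < C1)).le
    have h10 : min c0 (a / 2) * ‖x‖ ^ (-(n : ℝ) - e0) ≤ a / 2 * ‖x‖ ^ (-(n : ℝ) - e0) := by
      gcongr; exact min_le_right _ _
    have h11 : C1⁻¹ * (c0 * g0 ^ (-(n : ℝ) - e0) * ‖x‖ ^ (-(n : ℝ) - e0))
        = a * ‖x‖ ^ (-(n : ℝ) - e0) := by rw [ha]; ring
    have h12 : D * (‖x‖ ^ (1 - (n : ℝ))) ^ 2 = C2 * (n * (C * ‖x‖ ^ (1 - (n : ℝ))) ^ 2)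
        + C1 * (C * ‖x‖ ^ (1 - (n : ℝ)) * g0) ^ 2 := by rw [hD]; ring
    linarith
  · have hx : ‖x‖ < ρ := by
      have := hM.r1_lt
      nlinarith [norm_nonneg x]
    rw [levelExp_congr (hgin x hx) (hKin x hx).self_of_nhds]
    exact hM.trap x h1 h2

end Crest.Agent.N346.P0

end
end

-- ▼ part N346/P0/PullA
section

/-! Row 346, Part 0, step 0.5: covariance of the data under a linear change of coordinates. -/

set_option autoImplicit false
open MeasureTheory Filter Topology Matrix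
open scoped ContDiff
open Crest.GeometryTopology.CoordMetric
open Crest.MathPhysics.ExteriorData

noncomputable section

namespace Crest.Agent.N346.P0.Pl
open Bs

variable {n : ℕ} {B D : Matrix (Fin n) (Fin n) ℝ} {g K : MetricField n} {y : E n}

/-- pull-back of a two-tensor under `lin D` -/
def pb (D : Matrix (Fin n) (Fin n) ℝ) (T : MetricField n) : MetricField n :=
  fun y => Dᵀ * T (lin D y) * D

/-- push-forward of a vector field -/
def pf (c : ℝ) (B D : Matrix (Fin n) (Fin n) ℝ) (V : VectorField n) : VectorField n :=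
  fun y => c • B *ᵥ V (lin D y)

/-- full contraction of two matrices -/
def ip (H M : Matrix (Fin n) (Fin n) ℝ) : ℝ := ∑ i, ∑ j, H i j * M i j

theorem ip_eq (H M : Matrix (Fin n) (Fin n) ℝ) : ip H M = trace (Hᵀ * M) := by
  simp only [ip, trace, diag, mul_apply, transpose_apply]
  exact Finset.sum_comm

theorem conj_apply (D M : Matrix (Fin n) (Fin n) ℝ) (i j : Fin n) :
    (Dᵀ * M * D) i j = ∑ a, ∑ b, M a b * D a i * D b j := by
  simp only [mul_apply, transpose_apply, Finset.sum_mul]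
  rw [Finset.sum_comm]
  exact Finset.sum_congr rfl fun a _ => Finset.sum_congr rfl fun b _ => by ring

theorem ip_conj (h : D * B = 1) (H M : Matrix (Fin n) (Fin n) ℝ) :
    ip (B * H * Bᵀ) (Dᵀ * M * D) = ip H M := by
  have h' : Bᵀ * Dᵀ = 1 := by rw [← transpose_mul, h, transpose_one]
  rw [ip_eq, ip_eq, transpose_mul, transpose_mul, transpose_transpose]
  calc trace (B * (Hᵀ * Bᵀ) * (Dᵀ * M * D)) = trace (B * (Hᵀ * (Bᵀ * Dᵀ) * M * D)) := by
        simp only [Matrix.mul_assoc]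
    _ = trace (Hᵀ * M * (D * B)) := by
        rw [h', trace_mul_comm]; simp only [Matrix.mul_assoc, Matrix.mul_one]
    _ = _ := by rw [h, Matrix.mul_one]

theorem qb_conj' (D M : Matrix (Fin n) (Fin n) ℝ) (v w : Fin n → ℝ) :
    qb (Dᵀ * M * D) v w = qb M (D *ᵥ v) (D *ᵥ w) := by
  rw [qb_eq_dot, qb_eq_dot, ← mulVec_mulVec, ← mulVec_mulVec, dotProduct_mulVec, vecMul_transpose]

theorem lin_ofLp (D : Matrix (Fin n) (Fin n) ℝ) (w : E n) : (lin D w).ofLp = D *ᵥ w.ofLp := rfl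

theorem sm_pb (hK : Sm K) : Sm (pb D K) := fun i j => by
  simp only [pb, conj_apply]
  exact ContDiff.sum fun a _ => ContDiff.sum fun b _ =>
    ((contDiff_comp_lin D (hK a b)).mul contDiff_const).mul contDiff_const

theorem sy_pb (hK : Sy K) : Sy (pb D K) := fun y i j => by
  simp only [pb, conj_apply]
  rw [Finset.sum_comm]
  exact Finset.sum_congr rfl fun a _ => Finset.sum_congr rfl fun b _ => by rw [hK]; ring

theorem quadForm_pb (g : MetricField n) (y w : E n) :
    quadForm (pb D g) y w = quadForm g (lin D y) (lin D w) := qb_conj' _ _ _ _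

theorem pd_pb (hK : Sm K) (k i j : Fin n) : pderiv k (fun z => pb D K z i j) y =
    (Dᵀ * (∑ c, D c k • Matrix.of fun a b => pderiv c (fun z => K z a b) (lin D y)) * D) i j := by
  simp only [pb, conj_apply]
  have hd : ∀ a b, DifferentiableAt ℝ (fun z => K (lin D z) a b) y := fun a b =>
    smooth_diff (contDiff_comp_lin D (hK a b)) y
  rw [pd_sum fun a _ => DifferentiableAt.fun_sum fun b _ => ((hd a b).mul_const _).mul_const _]
  refine Finset.sum_congr rfl fun a _ => ?_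
  rw [pd_sum fun b _ => ((hd a b).mul_const _).mul_const _]
  refine Finset.sum_congr rfl fun b _ => ?_
  rw [pd_mul_const, pd_mul_const, pd_comp_lin D (u := fun z => K z a b) (smooth_diff (hK a b) _)]
  simp only [Matrix.sum_apply, Matrix.smul_apply, of_apply, smul_eq_mul, mul_comm (D _ k)]

theorem divE_pf (h : D * B = 1) (c : ℝ) {V : VectorField n}
    (hV : ∀ j, DifferentiableAt ℝ (fun x => V x j) (lin D y)) :
    divE (pf c B D V) y = c * divE V (lin D y) := by
  have hd : ∀ j, DifferentiableAt ℝ (fun z => V (lin D z) j) y := fun j =>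
    (hV j).comp y (lin D).differentiableAt
  have e : ∀ i, pderiv i (fun z => pf c B D V z i) y =
      c * ∑ j, ∑ a, pderiv a (fun x => V x j) (lin D y) * (D a i * B i j) := fun i => by
    simp only [pf, Pi.smul_apply, smul_eq_mul, mulVec, dotProduct]
    rw [pd_const_mul, pd_sum fun j _ => (hd j).const_mul _]
    congr 1
    refine Finset.sum_congr rfl fun j _ => ?_
    rw [pd_const_mul, pd_comp_lin D (u := fun x => V x j) (hV j), Finset.mul_sum]
    exact Finset.sum_congr rfl fun a _ => by ring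
  simp only [divE, e, ← Finset.mul_sum]
  congr 1
  rw [Finset.sum_comm]
  refine Finset.sum_congr rfl fun j _ => ?_
  rw [Finset.sum_comm]
  simp only [← Finset.mul_sum, ← mul_apply, h, one_apply]
  simp

section
variable (h : D * B = 1)
include h

theorem det_ne : D.det ≠ 0 := (isUnit_det_of_right_inverse h).ne_zero

theorem pull_str (hg : IsRiemannianOn g Set.univ) :
    R202.Tens.Pull (pb D g) g (lin D) Set.univ Set.univ := by
  refine ⟨isOpen_univ, hg, fun _ _ => trivial, (lin D).contDiff.contDiffOn, fun y _ i j => ?_,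
    fun y _ => ?_⟩
  · simp [pb, conj_apply, lin_apply]
  · rw [ContinuousLinearMap.fderiv]
    exact Function.LeftInverse.injective (lin_inv_lin (det_ne h))

theorem riem_pb (hg : IsRiemannianOn g Set.univ) : IsRiemannianOn (pb D g) Set.univ :=
  (pull_str h hg).riem'

theorem inv_pb (g : MetricField n) (y : E n) :
    inverseField (pb D g) y = B * inverseField g (lin D y) * Bᵀ := by
  have hB : D⁻¹ = B := inv_eq_right_inv h
  simp only [inverseField, pb, Matrix.mul_inv_rev, ← transpose_nonsing_inv, hB, Matrix.mul_assoc]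

omit h in
theorem vol_pb (g : MetricField n) (y : E n) :
    volDensity (pb D g) y = |D.det| * volDensity g (lin D y) := by
  rw [volDensity, volDensity, pb, det_mul, det_mul, det_transpose, ← Real.sqrt_sq_eq_abs,
    ← Real.sqrt_mul (sq_nonneg _)]
  congr 1; ring

theorem scalarCurv_pb (hg : IsRiemannianOn g Set.univ) (y : E n) :
    scalarCurv (pb D g) y = scalarCurv g (lin D y) := by
  have e : (Matrix.of fun i j => ricci (pb D g) y i j) =
      Dᵀ * (Matrix.of fun i j => ricci g (lin D y) i j) * D := by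
    ext i j
    have := (pull_str h hg).ricci_pull (Set.mem_univ y) (EuclideanSpace.single i 1)
      (EuclideanSpace.single j 1)
    simpa [conj_apply, lin_apply, Pi.single_apply] using this
  have := ip_conj h (inverseField g (lin D y)) (Matrix.of fun i j => ricci g (lin D y) i j)
  rw [← e, ← inv_pb h] at this
  exact this

theorem traceK_pb (g K : MetricField n) (y : E n) :
    traceK (pb D g) (pb D K) y = traceK g K (lin D y) := by
  have := ip_conj h (inverseField g (lin D y)) (K (lin D y))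
  rw [← inv_pb h] at this
  exact this

omit h in
theorem normSqK_eq (g K : MetricField n) (x : E n) :
    normSqK g K x = ip ((inverseField g x)ᵀ * K x * inverseField g x) (K x) := by
  simp only [normSqK, ip, conj_apply, Finset.sum_mul]
  calc _ = ∑ i, ∑ a, ∑ j, ∑ b, inverseField g x i a * inverseField g x j b * K x i j * K x a b :=
        Finset.sum_congr rfl fun i _ => Finset.sum_comm
    _ = ∑ a, ∑ i, ∑ b, ∑ j, inverseField g x i a * inverseField g x j b * K x i j * K x a b := by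
        rw [Finset.sum_comm]
        exact Finset.sum_congr rfl fun a _ => Finset.sum_congr rfl fun i _ => Finset.sum_comm
    _ = _ := by
        refine Finset.sum_congr rfl fun a _ => ?_
        rw [Finset.sum_comm]
        exact Finset.sum_congr rfl fun b _ => Finset.sum_congr rfl fun i _ =>
          Finset.sum_congr rfl fun j _ => by ring

theorem normSqK_pb (g K : MetricField n) (y : E n) :
    normSqK (pb D g) (pb D K) y = normSqK g K (lin D y) := by
  have h' : Bᵀ * Dᵀ = 1 := by rw [← transpose_mul, h, transpose_one]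
  rw [normSqK_eq, normSqK_eq, inv_pb h, ← ip_conj h _ (K (lin D y))]
  congr 1
  rw [pb, transpose_mul, transpose_mul, transpose_transpose]
  calc _ = B * ((inverseField g (lin D y))ᵀ * (Bᵀ * Dᵀ) * K (lin D y) * (D * B) *
        inverseField g (lin D y)) * Bᵀ := by simp only [Matrix.mul_assoc]
    _ = _ := by rw [h, h', Matrix.mul_one, Matrix.mul_one]

theorem energyDensity_pb (hg : IsRiemannianOn g Set.univ) (K : MetricField n) (y : E n) :
    energyDensity (pb D g) (pb D K) y = energyDensity g K (lin D y) := by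
  rw [energyDensity, energyDensity, scalarCurv_pb h hg, traceK_pb h, normSqK_pb h]

omit h in
theorem cov_eq (g K : MetricField n) (x : E n) (k : Fin n) :
    (Matrix.of fun i j => covDerivK g K x k i j) =
      (Matrix.of fun a b => pderiv k (fun z => K z a b) x)
        - (Matrix.of fun l i => christoffel g x l k i)ᵀ * K x
        - K x * Matrix.of fun l i => christoffel g x l k i := by
  ext i j
  simp only [covDerivK, of_apply, Matrix.sub_apply, mul_apply, transpose_apply,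
    mul_comm (K x i _)]

theorem cov_pb (hg : IsRiemannianOn g Set.univ) (hK : Sm K) (y : E n) (k : Fin n) :
    (Matrix.of fun i j => covDerivK (pb D g) (pb D K) y k i j) =
      Dᵀ * (∑ c, D c k • Matrix.of fun i j => covDerivK g K (lin D y) c i j) * D := by
  have e : D * (Matrix.of fun l i => christoffel (pb D g) y l k i) =
      (∑ c, D c k • Matrix.of fun l i => christoffel g (lin D y) l c i) * D := by
    ext m i
    have := congrArg (fun v : E n => v m) ((pull_str h hg).gam_eq (Set.mem_univ y)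
      (EuclideanSpace.single k 1) (EuclideanSpace.single i 1))
    have h2 : fderiv ℝ (fderiv ℝ (lin D : E n → E n)) y = 0 := by
      rw [show fderiv ℝ (lin D : E n → E n) = fun _ => lin D from
        funext fun _ => ContinuousLinearMap.fderiv _]
      simp
    rw [h2] at this
    simp only [ContinuousLinearMap.fderiv, lin_apply, R202.Tens.Gam_apply, PiLp.single_apply,
      _root_.zero_apply, add_zero, mul_ite, mul_one, mul_zero, Finset.sum_ite_eq',
      Finset.mem_univ, if_true] at this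
    simp only [mul_apply, of_apply, Matrix.sum_apply, Matrix.smul_apply, smul_eq_mul,
      Finset.sum_mul]
    rw [this, Finset.sum_comm]
    exact Finset.sum_congr rfl fun a _ => Finset.sum_congr rfl fun b _ => by ring
  have e2 : (Matrix.of fun a b => pderiv k (fun z => pb D K z a b) y) =
      Dᵀ * (∑ c, D c k • Matrix.of fun a b => pderiv c (fun z => K z a b) (lin D y)) * D := by
    ext i j; exact pd_pb hK k i j
  simp only [cov_eq, smul_sub, Finset.sum_sub_distrib, Matrix.mul_sub, Matrix.sub_mul]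
  rw [e2]
  congr 1
  · congr 1
    rw [pb, ← Matrix.mul_assoc, ← Matrix.mul_assoc, ← transpose_mul, e, transpose_mul]
    simp only [transpose_sum, transpose_smul, Matrix.sum_mul, Matrix.smul_mul, Matrix.mul_assoc]
  · rw [pb, Matrix.mul_assoc, e]
    simp only [Matrix.mul_sum, Matrix.mul_smul, Matrix.sum_mul, Matrix.smul_mul, Matrix.mul_assoc]

theorem momentum_pb (hg : IsRiemannianOn g Set.univ) (hK : Sm K) (y : E n) (i : Fin n) :
    momentumDensity (pb D g) (pb D K) y i = ∑ a, momentumDensity g K (lin D y) a * D a i := by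
  have ht : ContDiff ℝ ∞ (traceK g K) :=
    ContDiff.sum fun i _ => ContDiff.sum fun j _ => (contDiff_inv hg i j).mul (hK i j)
  have e1 : ∑ j, ∑ k, inverseField (pb D g) y j k * covDerivK (pb D g) (pb D K) y k i j =
      ∑ a, (∑ j, ∑ k, inverseField g (lin D y) j k * covDerivK g K (lin D y) k a j) * D a i := by
    have e : (Matrix.of fun j k => covDerivK (pb D g) (pb D K) y k i j) =
        Dᵀ * (Matrix.of fun b c => ∑ a, covDerivK g K (lin D y) c a b * D a i) * D := by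
      ext j k
      have := congrFun (congrFun (cov_pb h hg hK y k) i) j
      rw [of_apply, conj_apply] at this
      rw [of_apply, this, conj_apply, Finset.sum_comm]
      refine Finset.sum_congr rfl fun b _ => ?_
      simp only [Matrix.sum_apply, Matrix.smul_apply, of_apply, smul_eq_mul, Finset.sum_mul]
      rw [Finset.sum_comm]
      exact Finset.sum_congr rfl fun c _ => Finset.sum_congr rfl fun a _ => by ring
    have := ip_conj h (inverseField g (lin D y))
      (Matrix.of fun b c => ∑ a, covDerivK g K (lin D y) c a b * D a i)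
    rw [← e, ← inv_pb h] at this
    refine this.trans ?_
    simp only [ip, of_apply, Finset.mul_sum, Finset.sum_mul]
    calc _ = ∑ b, ∑ a, ∑ c, inverseField g (lin D y) b c * (covDerivK g K (lin D y) c a b * D a i) :=
          Finset.sum_congr rfl fun b _ => Finset.sum_comm
      _ = _ := by
          rw [Finset.sum_comm]
          simp only [mul_assoc]
  rw [momentumDensity, e1, funext (traceK_pb h g K), pd_comp_lin D (smooth_diff ht _),
    ← Finset.sum_sub_distrib]
  simp only [momentumDensity, sub_mul]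

theorem momentum_dot (hg : IsRiemannianOn g Set.univ) (hK : Sm K) (y w : E n) :
    ∑ i, momentumDensity (pb D g) (pb D K) y i * w i =
      ∑ a, momentumDensity g K (lin D y) a * lin D w a := by
  simp only [momentum_pb h hg hK, lin_apply, Finset.sum_mul, Finset.mul_sum, mul_assoc]
  exact Finset.sum_comm

theorem mulVec_pf (c : ℝ) (V : VectorField n) (y : E n) :
    D *ᵥ pf c B D V y = c • V (lin D y) := by
  rw [pf, mulVec_smul, mulVec_mulVec, h, one_mulVec]

theorem eSq_pb (g : MetricField n) (EE : VectorField n) (y : E n) :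
    eSq (pb D g) (pf |D.det| B D EE) y = eSq g EE (lin D y) := by
  have h0 := det_ne h
  have e : vecNormSq (pb D g) (pf |D.det| B D EE) y = D.det ^ 2 * vecNormSq g EE (lin D y) := by
    change qb (Dᵀ * _ * D) _ _ = _ * qb _ _ _
    rw [qb_conj', mulVec_pf h, qb_eq_dot, qb_eq_dot, mulVec_smul, dotProduct_smul, smul_dotProduct,
      smul_eq_mul, smul_eq_mul, ← mul_assoc, abs_mul_abs_self, sq]
  rw [eSq, eSq, e, pb, det_mul, det_mul, det_transpose,
    show D.det * (g (lin D y)).det * D.det = D.det ^ 2 * (g (lin D y)).det by ring,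
    mul_div_mul_left _ _ (pow_ne_zero 2 h0)]

theorem eDot_pb (g : MetricField n) (EE : VectorField n) (y w : E n) :
    eDot (pb D g) (pf |D.det| B D EE) y w = eDot g EE (lin D y) (lin D w) := by
  have h0 := abs_ne_zero.2 (det_ne h)
  change qb (Dᵀ * _ * D) _ _ / _ = qb _ _ _ / _
  rw [qb_conj', mulVec_pf h, vol_pb, qb_eq_dot, qb_eq_dot, mulVec_smul, dotProduct_smul,
    smul_eq_mul, mul_div_mul_left _ _ h0, lin_ofLp]

theorem dece_pb (hg : IsRiemannianOn g Set.univ) (hK : Sm K) {EE : VectorField n} {m0 : ℝ}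
    (hd : DECE g K EE m0 (lin D y)) : DECE (pb D g) (pb D K) (pf |D.det| B D EE) m0 y := by
  intro w hw
  rw [quadForm_pb] at hw
  rw [quadForm_pb, eSq_pb h, eDot_pb h, energyDensity_pb h hg, momentum_dot h hg hK]
  exact hd _ hw

omit h in
theorem pd_lin_vec {s : E n → ℝ} (hs : DifferentiableAt ℝ s (lin D y)) :
    (fun i => pderiv i (fun z => s (lin D z)) y) = Dᵀ *ᵥ fun a => pderiv a s (lin D y) := by
  funext i
  rw [pd_comp_lin D hs]
  simp only [mulVec, dotProduct, transpose_apply, mul_comm]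

theorem gradSq_pb (g : MetricField n) {s : E n → ℝ} (hs : DifferentiableAt ℝ s (lin D y)) :
    gradSq (pb D g) (fun z => s (lin D z)) y = gradSq g s (lin D y) := by
  have h' : Bᵀ * Dᵀ = 1 := by rw [← transpose_mul, h, transpose_one]
  change qb (inverseField (pb D g) y) _ _ = qb (inverseField g (lin D y)) _ _
  have := qb_conj' Bᵀ (inverseField g (lin D y))
  rw [transpose_transpose] at this
  rw [inv_pb h, pd_lin_vec hs, this, mulVec_mulVec, h', one_mulVec]

theorem levelNormal_pb (g : MetricField n) {s : E n → ℝ} (hs : Differentiable ℝ s) :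
    levelNormal (pb D g) (fun z => s (lin D z)) = pf 1 B D (levelNormal g s) := by
  have h' : Bᵀ * Dᵀ = 1 := by rw [← transpose_mul, h, transpose_one]
  funext y
  have e : ∀ (g : MetricField n) (s : E n → ℝ) (x : E n), levelNormal g s x =
      (√(gradSq g s x))⁻¹ • inverseField g x *ᵥ fun j => pderiv j s x := fun g s x => by
    funext i
    simp only [levelNormal, Pi.smul_apply, smul_eq_mul, mulVec, dotProduct, div_eq_inv_mul]
  rw [pf, e, e, gradSq_pb h g (hs _), inv_pb h, pd_lin_vec (hs _), one_smul, mulVec_smul,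
    mulVec_mulVec, mulVec_mulVec, Matrix.mul_assoc _ Bᵀ, h', Matrix.mul_one]

theorem levelExp_pb (hg : IsRiemannianOn g Set.univ) (K : MetricField n) {s : E n → ℝ}
    (hs : ContDiff ℝ ∞ s) (h0 : fderiv ℝ s (lin D y) ≠ 0) :
    levelExp (pb D g) (pb D K) (fun z => s (lin D z)) y = levelExp g K s (lin D y) := by
  have hd := abs_ne_zero.2 (det_ne h)
  have hν : ∀ j, DifferentiableAt ℝ (fun x => volDensity g x * levelNormal g s x j) (lin D y) :=
    fun j => ((contDiff_volDensity hg).contDiffAt.mul ((contDiff_grad hg hs j).contDiffAt.div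
      ((contDiff_gradSq hg hs).contDiffAt.sqrt (gradSq_pos hg h0).ne')
      (Real.sqrt_pos.2 (gradSq_pos hg h0)).ne')).differentiableAt (by simp)
  rw [levelExp, levelExp, levelNormal_pb h g (hs.differentiable (by simp))]
  congr 1
  · have e : (fun z i => volDensity (pb D g) z * pf 1 B D (levelNormal g s) z i) =
        pf |D.det| B D fun x j => volDensity g x * levelNormal g s x j := by
      funext z i
      simp only [pf, vol_pb, Pi.smul_apply, smul_eq_mul, mulVec, dotProduct,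
        Finset.mul_sum]
      exact Finset.sum_congr rfl fun j _ => by ring
    rw [gDiv_eq, gDiv_eq, e, divE_pf h _ hν, vol_pb, mul_div_mul_left _ _ hd]
  · have := ip_conj h (inverseField g (lin D y) - vecMulVec (levelNormal g s (lin D y))
      (levelNormal g s (lin D y))) (K (lin D y))
    rw [Matrix.mul_sub, Matrix.sub_mul, ← inv_pb h, mul_vecMulVec, vecMulVec_mul,
      vecMul_transpose] at this
    simp only [ip, Matrix.sub_apply, vecMulVec_apply] at this
    simp only [pf, one_smul]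
    exact this

theorem bv_pb {A : ℝ} {Z : Set (E n)} (hA : BV g Z A) : BV (pb D g) (lin D ⁻¹' Z) A := by
  intro F hF h0 ⟨R, hR⟩
  have hD := det_ne h
  have hB : D⁻¹ = B := inv_eq_right_inv h
  have e1 : ∀ x, lin D (lin B x) = x := fun x => hB ▸ lin_lin_inv hD x
  have e2 : ∀ x, lin B (lin D x) = x := fun x => hB ▸ lin_inv_lin hD x
  have hF' := contDiff_comp_lin B hF
  refine (hA _ hF' (fun x hx => h0 _ (by rwa [Set.mem_preimage, e1]))
    ⟨‖lin D‖ * |R| + 1, fun x hx => hR _ ?_⟩).trans (le_of_eq ?_)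
  · by_contra hc
    have h1 := (lin D).le_opNorm (lin B x)
    rw [e1] at h1
    have := mul_le_mul_of_nonneg_left ((not_le.1 hc).le.trans (le_abs_self R)) (norm_nonneg (lin D))
    linarith
  · have e3 : ∀ y, √(gradSq (pb D g) F y) * volDensity (pb D g) y = |D.det| *
        (√(gradSq g (fun x => F (lin B x)) (lin D y)) * volDensity g (lin D y)) := fun y => by
      rw [← gradSq_pb h g (smooth_diff hF' _), vol_pb]
      simp only [e2]
      ring
    simp only [e3]
    rw [integral_const_mul, integral_comp_lin hD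
      fun x => √(gradSq g (fun x => F (lin B x)) x) * volDensity g x,
      mul_inv_cancel_left₀ (abs_ne_zero.2 hD)]

end

end Crest.Agent.N346.P0.Pl

end
end

-- ▼ part N346/P0/Pull

/-! Row 346, Part 0, step 0.5: the linear change of coordinates `y = B x`. -/

set_option autoImplicit false
open MeasureTheory Filter Topology Matrix
open scoped ContDiff
open Crest.GeometryTopology.CoordMetric
open Crest.MathPhysics.ExteriorData

noncomputable section

namespace Crest.Agent.N346.P0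
open Bs Pl

variable {n : ℕ}

theorem Pl.gS_zero (b : Matrix (Fin n) (Fin n) ℝ) (c : E n → ℝ) (x : E n) :
    gS b c (fun _ => 0) x = Real.exp (2 * c x) • b := by
  ext i j; simp [gS, Id.XX]

theorem Pl.KS_zero (b : Matrix (Fin n) (Fin n) ℝ) (c : E n → ℝ) (x : E n) :
    KS b c (fun _ => 0) x = 0 := by
  ext i j; simp [KS, Id.hh, Id.hessM, R247.Bo84.hess_apply]

/-- uniform ellipticity on a compact set -/
theorem Pl.exists_lo {g : MetricField n} (hg : IsRiemannianOn g Set.univ) {S : Set (E n)}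
    (hS : IsCompact S) : ∃ Λ : ℝ, 1 ≤ Λ ∧ ∀ x ∈ S, Lo Λ g x := by
  have : ∀ i j, ∃ M : ℝ, ∀ x ∈ S, ‖inverseField g x i j‖ ≤ M := fun i j =>
    hS.exists_bound_of_continuousOn (contDiff_inv hg i j).continuous.continuousOn
  choose M hM using this
  set a := ∑ i, ∑ j, |M i j| with ha
  have ha0 : 0 ≤ a := by positivity
  have hle : ∀ i j, M i j ≤ a := fun i j => (le_abs_self _).trans
    ((Finset.single_le_sum (f := fun j => |M i j|) (fun _ _ => abs_nonneg _)
      (Finset.mem_univ j)).trans (Finset.single_le_sum (f := fun i => ∑ j, |M i j|)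
        (fun _ _ => by positivity) (Finset.mem_univ i)))
  refine ⟨n * a + 1, by have : 0 ≤ (n : ℝ) * a := by positivity
                        linarith, fun x hx v => ?_⟩
  have hp := riem_posDef hg x
  have h1 := inv_lower hp.inv (C := n * a + 1) (by positivity) (fun w => by
    have h2 := abs_quadForm_le (k := inverseField g) (x := x) (a := a)
      (fun i j => (hM i j x hx).trans (hle i j)) (WithLp.toLp 2 w)
    rw [norm_sq_eq] at h2
    have h3 : 0 ≤ ∑ i, w i * w i := Finset.sum_nonneg fun _ _ => mul_self_nonneg _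
    exact ((le_abs_self _).trans h2).trans (by nlinarith)) v.ofLp
  rwa [nonsing_inv_nonsing_inv _ hp.det_pos.ne'.isUnit, ← norm_sq_eq] at h1

theorem pull : PullStmt := by
  intro n hn B hB e0 m A Q g K EE ψ R1 C c0 θ0 r1 β he0 he1 h
  set D := B⁻¹ with hD
  have hDB : D * B = 1 := nonsing_inv_mul _ hB.isUnit
  have hBD : B * D = 1 := mul_nonsing_inv _ hB.isUnit
  have e1 : ∀ y, lin B (lin D y) = y := lin_lin_inv hB
  have h3 : (3 : ℝ) ≤ n := by exact_mod_cast hn
  set L := ‖lin B‖ + 1 with hL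
  set L' := ‖lin D‖ + 1 with hL'
  have hL1 : 1 ≤ L := le_add_of_nonneg_left (norm_nonneg _)
  have hL1' : 1 ≤ L' := le_add_of_nonneg_left (norm_nonneg _)
  have hy : ∀ y, ‖y‖ ≤ L * ‖lin D y‖ := fun y => by
    have := (lin B).le_opNorm (lin D y)
    rw [e1] at this
    nlinarith [norm_nonneg (lin D y)]
  have hy' : ∀ y, ‖lin D y‖ ≤ L' * (1 + ‖y‖) := fun y => by
    have := (lin D).le_opNorm y
    nlinarith [norm_nonneg (lin D), norm_nonneg y]
  have hR1 := h.R1_ge
  have hfar : ∀ y : E n, L * R1 ≤ ‖y‖ → R1 ≤ ‖lin D y‖ := fun y h1 =>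
    le_of_mul_le_mul_left (h1.trans (hy y)) (by linarith)
  have hg' := riem_pb hDB h.riem
  have gfar : ∀ y : E n, L * R1 ≤ ‖y‖ →
      pb D g y = Real.exp (2 * ψ y) • (1 : Matrix (Fin n) (Fin n) ℝ) := fun y h1 => by
    rw [pb, h.g_far _ (hfar y h1), gS_zero, e1, Matrix.mul_smul, Matrix.smul_mul,
      ← Matrix.mul_assoc, ← transpose_mul, hBD, transpose_one, Matrix.one_mul, hBD]
  have hUC : ∀ i j, An.UC fun (_ : Unit) y => pb D g y i j := fun i j => by
    have u1 : An.UC fun (_ : Unit) y => Real.exp (2 * ψ y) * (1 : Matrix (Fin n) (Fin n) ℝ) i j :=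
      ((An.UC.single h.far.smooth h.far.bdd).const_mul 2).exp.mul (An.UB.const' _)
    have u2 : An.UC fun (_ : Unit) y => pb D g y i j -
        Real.exp (2 * ψ y) * (1 : Matrix (Fin n) (Fin n) ℝ) i j :=
      An.UC.of_compact ((contDiff_g hg' i j).sub (u1.1 ())) (hasCompactSupport_of_far
        (R := L * R1) fun y h1 => by rw [gfar y h1.le]; simp)
    exact (u1.add u2).congr fun _ y => by ring
  have gbdd : ∀ k : ℕ, ∃ M : ℝ, ∀ i j x, ‖iteratedFDeriv ℝ k (fun y => pb D g y i j) x‖ ≤ M := by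
    intro k
    choose M hM using fun i j => (hUC i j).2 k 0
    refine ⟨∑ i, ∑ j, |M i j|, fun i j x => (hM i j () x le_rfl).trans ((le_abs_self _).trans
      ((Finset.single_le_sum (f := fun j => |M i j|) (fun _ _ => abs_nonneg _)
        (Finset.mem_univ j)).trans (Finset.single_le_sum (f := fun i => ∑ j, |M i j|)
          (fun _ _ => by positivity) (Finset.mem_univ i))))⟩
  obtain ⟨M0, hM0⟩ := gbdd 0
  simp only [norm_iteratedFDeriv_zero, Real.norm_eq_abs] at hM0
  obtain ⟨Λ, hΛ1, hΛ⟩ := exists_lo hg' (isCompact_closedBall (0 : E n) (L * R1))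
  have hC0 : 0 ≤ C := by
    have := (abs_nonneg _).trans (h.far.lap_le 0)
    simpa using this
  set b := ∑ i, ∑ j, |B i j| with hb
  have hb0 : 0 ≤ b := by positivity
  set CE := |D.det| * (b * (C * L ^ ((n : ℝ) - 1))) with hCE
  have hCE0 : 0 ≤ CE := by positivity
  have hM00 : 0 ≤ (n : ℝ) * |M0| := by positivity
  have hex := Real.exp_pos (2 * β)
  set C' := C + CE + Λ + n * |M0| + Real.exp (2 * β) with hC'
  have hs : ContDiff ℝ ∞ fun x : E n => ‖x‖ ^ 2 := contDiff_norm_sq ℝ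
  have hone : ∀ y, 1 ≤ ‖lin D y‖ ^ 2 → 1 ≤ ‖lin D y‖ := fun y h1 => by
    nlinarith [norm_nonneg (lin D y)]
  have hreg : ∀ x : E n, 0 < ‖x‖ ^ 2 → fderiv ℝ (fun x : E n => ‖x‖ ^ 2) x ≠ 0 := fun x h1 h2 => by
    have := congrArg (fun T : E n →L[ℝ] ℝ => T x) h2
    simp only [fderiv_norm_sq_apply, _root_.smul_apply, innerSL_apply_apply, real_inner_self_eq_norm_sq,
      nsmul_eq_mul, _root_.zero_apply] at this
    norm_num at this
    simp [this] at h1
  refine ⟨pb D g, pb D K, pf |D.det| B D EE, fun y => ‖lin D y‖ ^ 2, L * R1, C',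
    c0 * L' ^ (-(n : ℝ) - e0), by nlinarith, by linarith,
    mul_pos h.c0_pos (Real.rpow_pos_of_pos (by linarith) _), he0, he1, h.θ0_pos, h.r1_gt, h.r1_lt,
    hg', fun y v => ?_, fun y v => ?_, gbdd, sm_pb h.K_smooth, sy_pb h.K_symm, fun y h1 => ?_,
    h.far.smooth, gfar, fun k hk y => (h.far.decay k hk y).trans ?_,
    fun y => (h.far.lap_le y).trans ?_, h.far.mass, contDiff_comp_lin D hs,
    fun _ => sq_nonneg _, fun y h1 => by nlinarith [hfar y h1], fun y h1 h2 => ?_,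
    fun i => ?_, fun y i => ?_, fun y h1 => ?_, ?_, fun y h1 => ?_, fun y h1 h2 => ?_, ?_⟩
  · rcases le_total ‖y‖ (L * R1) with h1 | h1
    · exact (hΛ y (mem_closedBall_zero_iff.2 h1)).mono (by linarith) (by linarith) v
    · rw [quadForm_eq, gfar y h1, qb_smul, qb_one, ← norm_sq_eq]
      refine mul_le_mul_of_nonneg_right ?_ (sq_nonneg _)
      calc C'⁻¹ ≤ (Real.exp (2 * β))⁻¹ := inv_anti₀ hex (by linarith)
        _ ≤ _ := by
          rw [← Real.exp_neg]
          exact Real.exp_le_exp.2 (by linarith [(abs_le.1 (h.ψ_small y)).1])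
  · refine ((le_abs_self _).trans (abs_quadForm_le
      (fun i j => (hM0 i j y).trans (le_abs_self _)) v)).trans ?_
    exact mul_le_mul_of_nonneg_right (by linarith) (sq_nonneg _)
  · rw [pb, h.K_far _ (hfar y h1), KS_zero, Matrix.mul_zero, Matrix.zero_mul]
  · exact mul_le_mul_of_nonneg_right (by linarith) (by positivity)
  · exact mul_le_mul_of_nonneg_right (by linarith) (by positivity)
  · have h4 := gradSq_pb hDB g (y := y) (smooth_diff hs _)
    have h5 := gradSq_pos h.riem (hreg _ h1)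
    rw [← h4, gradSq, gradDot_of_zero fun i => by simp only [pderiv, h2, _root_.zero_apply]] at h5
    exact lt_irrefl _ h5
  · simp only [pf, Pi.smul_apply, smul_eq_mul, mulVec, dotProduct]
    exact contDiff_const.mul (ContDiff.sum fun j _ => contDiff_const.mul
      (contDiff_comp_lin D (h.EE_smooth j)))
  · have h1 : (1 + ‖lin D y‖) ^ (1 - (n : ℝ)) ≤ L ^ ((n : ℝ) - 1) * (1 + ‖y‖) ^ (1 - (n : ℝ)) := by
      have h2 : (1 + ‖y‖) / L ≤ 1 + ‖lin D y‖ := by
        rw [div_le_iff₀ (by linarith)]; nlinarith [hy y]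
      refine (Real.rpow_le_rpow_of_nonpos (by positivity) h2 (by linarith)).trans (le_of_eq ?_)
      rw [Real.div_rpow (by positivity) (by linarith), div_eq_mul_inv, ← Real.rpow_neg (by linarith),
        neg_sub, mul_comm]
    have h2 : ∀ j, |EE (lin D y) j| ≤ C * L ^ ((n : ℝ) - 1) * (1 + ‖y‖) ^ (1 - (n : ℝ)) := fun j =>
      (h.EE_decay _ j).trans (by rw [mul_assoc]; exact mul_le_mul_of_nonneg_left h1 hC0)
    have h4 : ∑ j, |B i j| ≤ b := Finset.single_le_sum (f := fun i => ∑ j, |B i j|)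
      (fun _ _ => by positivity) (Finset.mem_univ i)
    simp only [pf, Pi.smul_apply, smul_eq_mul, mulVec, dotProduct, abs_mul, abs_abs]
    calc _ ≤ |D.det| * ∑ j, |B i j| * (C * L ^ ((n : ℝ) - 1) * (1 + ‖y‖) ^ (1 - (n : ℝ))) := by
          refine mul_le_mul_of_nonneg_left ((Finset.abs_sum_le_sum_abs _ _).trans
            (Finset.sum_le_sum fun j _ => ?_)) (abs_nonneg _)
          rw [abs_mul]; exact mul_le_mul_of_nonneg_left (h2 j) (abs_nonneg _)
      _ ≤ |D.det| * (b * (C * L ^ ((n : ℝ) - 1) * (1 + ‖y‖) ^ (1 - (n : ℝ)))) := by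
          rw [← Finset.sum_mul]; gcongr
      _ = CE * (1 + ‖y‖) ^ (1 - (n : ℝ)) := by rw [hCE]; ring
      _ ≤ _ := mul_le_mul_of_nonneg_right (by linarith) (by positivity)
  · rw [divE_pf hDB _ fun j => smooth_diff (h.EE_smooth j) _, h.EE_div _ (hone y h1), mul_zero]
  · simp only [divE_pf hDB _ fun j => smooth_diff (h.EE_smooth j) _]
    rw [integral_const_mul, integral_comp_lin (det_ne hDB),
      mul_inv_cancel_left₀ (abs_ne_zero.2 (det_ne hDB)), h.charge]
  · refine DECE_mono (dece_pb hDB h.riem h.K_smooth (h.dec _ (hone y h1))) ?_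
    rw [mul_assoc, ← Real.mul_rpow (by linarith) (by positivity)]
    exact mul_le_mul_of_nonneg_left (Real.rpow_le_rpow_of_nonpos (by linarith [hone y h1]) (hy' y)
      (by linarith)) h.c0_pos.le
  · rw [levelExp_pb hDB h.riem K hs (hreg _ (by linarith))]
    exact h.trap _ h1 h2
  · refine (bv_pb hDB h.area).mono_set fun y hy => ?_
    rw [Set.mem_preimage, mem_closedBall_zero_iff] at hy
    exact pow_le_one₀ (norm_nonneg _) hy

end Crest.Agent.N346.P0

end
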