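import Mathlib
import Crest.Agent.R241.AF2
import Crest.Agent.N346.Defs
import Crest.Agent.N346.T.Sphere

-- ▼ part N346/P0/Coarea
section

/-! Row 346 (helper41): the COAREA FORMULA for `C¹` functions on a Euclidean space, on a measurable
set where the gradient does not vanish:
`∫⁻ t, ∫⁻ x in S ∩ u ⁻¹' {t}, h x ∂μHE[dim - 1] = ∫⁻ x in S, h x * ‖fderiv ℝ u x‖ₑ`
(`Crest.Agent.N346.Coarea.coarea`). -/

set_option autoImplicit false
set_option linter.unusedSectionVars false
open MeasureTheory MeasureTheory.Measure Metric Filter Set Module TopologicalSpace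
open scoped NNReal ENNReal Topology RealInnerProductSpace Function

noncomputable section

namespace Crest.Agent.N346.Coarea

open Crest.Agent.R241.AF

variable {V : Type*} [NormedAddCommGroup V] [InnerProductSpace ℝ V] [FiniteDimensional ℝ V]

/-- determinant of a rank one perturbation of the identity. -/
theorem det_id_add (l : V →L[ℝ] ℝ) (v : V) :
    (ContinuousLinearMap.id ℝ V + l.smulRight v).det = 1 + l v := by
  classical
  let b := Module.finBasis ℝ V
  rw [ContinuousLinearMap.det, ← LinearMap.det_toMatrix b]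
  have h1 : ((ContinuousLinearMap.id ℝ V + l.smulRight v : V →L[ℝ] V) : V →ₗ[ℝ] V)
      = LinearMap.id + (l : V →ₗ[ℝ] ℝ).smulRight v := by
    ext x; simp
  rw [h1, map_add, LinearMap.toMatrix_id, LinearMap.toMatrix_smulRight,
    Matrix.vecMulVec_eq Unit, Matrix.det_one_add_replicateCol_mul_replicateRow]
  congr 1
  conv_rhs => rw [← b.sum_repr v]
  simp only [_root_.map_sum, map_smul, smul_eq_mul, dotProduct, Function.comp_apply,
    ContinuousLinearMap.coe_coe, mul_comm]

/-- the graph map over the hyperplane orthogonal to `e`. -/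
def gr (e : V) (l : V →L[ℝ] ℝ) : (ℝ ∙ e)ᗮ →L[ℝ] V :=
  (ℝ ∙ e)ᗮ.subtypeL - ((l e)⁻¹ • (l.comp (ℝ ∙ e)ᗮ.subtypeL)).smulRight e

theorem gr_apply (e : V) (l : V →L[ℝ] ℝ) (y : (ℝ ∙ e)ᗮ) :
    gr e l y = (y : V) - ((l e)⁻¹ * l y) • e := by
  simp [gr]

theorem jac_gr {e : V} (he : ‖e‖ = 1) {l : V →L[ℝ] ℝ} (hl : l e ≠ 0) :
    jac (gr e l) = ‖l‖ / |l e| := by
  classical
  set H := (ℝ ∙ e)ᗮ with hH
  set w : V := (InnerProductSpace.toDual ℝ V).symm l with hw
  have hlw : ∀ x, l x = ⟪w, x⟫ := fun x => by simp [hw]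
  have hnw : ‖l‖ = ‖w‖ := by simp [hw]
  have hee : ⟪e, e⟫ = 1 := by rw [real_inner_self_eq_norm_sq, he]; norm_num
  have hperp : ∀ y : H, ⟪e, (y : V)⟫ = 0 := fun y =>
    Submodule.mem_orthogonal_singleton_iff_inner_right.1 y.2
  -- the component of `w` in `H`
  have hmem : w - (l e) • e ∈ H := by
    rw [hH, Submodule.mem_orthogonal_singleton_iff_inner_right, inner_sub_right, inner_smul_right,
      hee, hlw e, real_inner_comm]
    ring
  set p : H := ⟨w - (l e) • e, hmem⟩ with hp
  have hpy : ∀ y : H, ⟪p, y⟫ = l y := fun y => by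
    rw [Submodule.coe_inner, hp]
    simp only [inner_sub_left, inner_smul_left, hperp y, hlw]
    simp
  have hpp : ‖p‖ ^ 2 = ‖w‖ ^ 2 - (l e) ^ 2 := by
    rw [← real_inner_self_eq_norm_sq, hpy p, hp]
    simp only [map_sub, map_smul, smul_eq_mul]
    rw [hlw w, real_inner_self_eq_norm_sq]; ring
  have hadj : (gr e l).adjoint ∘L gr e l
      = ContinuousLinearMap.id ℝ H + (((l e)⁻¹ ^ 2) • (innerSL ℝ p)).smulRight p := by
    ext1 y
    refine ext_inner_left ℝ fun z => ?_
    rw [ContinuousLinearMap.comp_apply, ContinuousLinearMap.adjoint_inner_right, gr_apply, gr_apply]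
    have h1 : ⟪(z : V), e⟫ = 0 := by rw [real_inner_comm]; exact hperp z
    simp only [inner_sub_left, inner_sub_right, inner_smul_left, inner_smul_right, hee, hperp, h1,
      _root_.add_apply,
      ContinuousLinearMap.smulRight_apply, _root_.smul_apply, innerSL_apply_apply,
      inner_add_right, smul_eq_mul, hpy, real_inner_comm p z, Submodule.coe_inner]
    simp only [conj_trivial]
    change _ = ⟪(z : V), (y : V)⟫ + _
    ring
  have hsq : jac (gr e l) ^ 2 = (‖l‖ / |l e|) ^ 2 := by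
    rw [jac_sq, hadj, det_id_add]
    simp only [_root_.smul_apply, innerSL_apply_apply, smul_eq_mul]
    rw [real_inner_self_eq_norm_sq, hpp, div_pow, sq_abs, hnw]
    field_simp
    ring
  exact (pow_left_inj₀ (jac_nonneg _) (by positivity) two_ne_zero).1 hsq

variable [MeasurableSpace V] [BorelSpace V]

/-- the orthogonal splitting `ℝ × e^⊥ → V` preserves the volume. -/
theorem lintegral_split {e : V} (he : ‖e‖ = 1) {G : V → ℝ≥0∞} (hG : Measurable G) :
    ∫⁻ x, G x = ∫⁻ t : ℝ, ∫⁻ y : (ℝ ∙ e)ᗮ, G (t • e + (y : V)) := by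
  have h1 := ((ℝ ∙ e).measurePreserving_measurableEquivProd (0 : V)).symm
  rw [InnerProductSpace.euclideanHausdorffMeasure_eq_volume] at h1
  have h2 := (LinearIsometryEquiv.toSpanUnitSingleton (𝕜 := ℝ) e he).measurePreserving
  have h3 := h2.prod (MeasurePreserving.id (volume : Measure (ℝ ∙ e)ᗮ))
  have h4 := h1.comp h3
  rw [← h4.lintegral_comp hG]
  refine (lintegral_prod _ (hG.comp h4.measurable).aemeasurable).trans ?_
  simp

/-- the chart `x ↦ x + (u x - ⟪e, x⟫) e`. -/
def chart (e : V) (u : V → ℝ) (x : V) : V := x + (u x - ⟪e, x⟫) • e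

/-- its derivative. -/
def dchart (e : V) (l : V →L[ℝ] ℝ) : V →L[ℝ] V :=
  ContinuousLinearMap.id ℝ V + (l - innerSL ℝ e).smulRight e

theorem det_dchart {e : V} (he : ‖e‖ = 1) (l : V →L[ℝ] ℝ) : (dchart e l).det = l e := by
  rw [dchart, det_id_add]
  simp [he]

theorem hasStrictFDerivAt_chart (e : V) {u : V → ℝ} {l : V →L[ℝ] ℝ} {x : V}
    (h : HasStrictFDerivAt u l x) : HasStrictFDerivAt (chart e u) (dchart e l) x :=
  (hasStrictFDerivAt_id x).add ((h.sub (innerSL ℝ e).hasStrictFDerivAt).smul_const e)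

theorem dchart_gr {e : V} (he : ‖e‖ = 1) {l : V →L[ℝ] ℝ} (hl : l e ≠ 0) (y : (ℝ ∙ e)ᗮ) :
    dchart e l (gr e l y) = y := by
  have hee : ⟪e, e⟫ = 1 := by rw [real_inner_self_eq_norm_sq, he]; norm_num
  have hperp : ⟪e, (y : V)⟫ = 0 := Submodule.mem_orthogonal_singleton_iff_inner_right.1 y.2
  rw [gr_apply]
  simp only [dchart, _root_.add_apply, ContinuousLinearMap.id_apply,
    ContinuousLinearMap.smulRight_apply, _root_.sub_apply, innerSL_apply_apply, map_sub, map_smul,
    hee, hperp]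
  have : (l e)⁻¹ * l y * l e = l y := by field_simp
  rw [show e + (l e - 1) • e = (l e) • e by module, smul_smul, this]
  module

/-- the coarea formula inside one chart. -/
theorem coarea_chart {e : V} (he : ‖e‖ = 1) {u : V → ℝ} (hu : ContDiff ℝ 1 u)
    (Φ : OpenPartialHomeomorph V V) (hΦ : (Φ : V → V) = chart e u) {S : Set V}
    (hS : MeasurableSet S) (hSΦ : S ⊆ Φ.source) (hne : ∀ x ∈ S, fderiv ℝ u x e ≠ 0)
    {h : V → ℝ≥0∞} (hh : Measurable h) :
    Measurable (fun t : ℝ => ∫⁻ x in S ∩ u ⁻¹' {t}, h x ∂μHE[finrank ℝ V - 1]) ∧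
    ∫⁻ t : ℝ, ∫⁻ x in S ∩ u ⁻¹' {t}, h x ∂μHE[finrank ℝ V - 1]
      = ∫⁻ x in S, h x * ‖fderiv ℝ u x‖ₑ := by
  classical
  have he0 : e ≠ 0 := by rintro rfl; simp at he
  have hee : ⟪e, e⟫ = 1 := by rw [real_inner_self_eq_norm_sq, he]; norm_num
  have hrk : finrank ℝ (ℝ ∙ e)ᗮ = finrank ℝ V - 1 := by
    have := (ℝ ∙ e).finrank_add_finrank_orthogonal
    rw [finrank_span_singleton he0] at this
    omega
  have hus : ∀ x, HasStrictFDerivAt u (fderiv ℝ u x) x := fun x =>
    hu.contDiffAt.hasStrictFDerivAt one_ne_zero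
  have hΦd : ∀ x, HasFDerivAt Φ (dchart e (fderiv ℝ u x)) x := fun x => by
    rw [hΦ]; exact (hasStrictFDerivAt_chart e (hus x)).hasFDerivAt
  have hinj : InjOn Φ S := Φ.injOn.mono hSΦ
  have hT : MeasurableSet (Φ '' S) :=
    hS.image_of_continuousOn_injOn (Φ.continuousOn.mono hSΦ) hinj
  -- a measurable version of the inverse
  let Ψ : V → V := Φ.target.piecewise Φ.symm (fun _ => 0)
  have hΨ : Measurable Ψ := ContinuousOn.measurable_piecewise Φ.continuousOn_symm
    continuousOn_const Φ.open_target.measurableSet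
  have hΨΦ : ∀ x ∈ S, Ψ (Φ x) = x := fun x hx => by
    simp only [Ψ, piecewise, if_pos (Φ.map_source (hSΦ hx))]
    exact Φ.left_inv (hSΦ hx)
  have hdc : Continuous (fderiv ℝ u) := hu.continuous_fderiv one_ne_zero
  let J : V → ℝ≥0∞ := fun x => ENNReal.ofReal (‖fderiv ℝ u x‖ / |fderiv ℝ u x e|)
  have hJ : Measurable J := by
    refine ENNReal.measurable_ofReal.comp (Measurable.div hdc.norm.measurable ?_)
    exact (hdc.clm_apply continuous_const).abs.measurable
  let G : V → ℝ≥0∞ := (Φ '' S).indicator fun q => J (Ψ q) * h (Ψ q)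
  have hG : Measurable G := ((hJ.comp hΨ).mul (hh.comp hΨ)).indicator hT
  -- the slices
  have hslice : ∀ t : ℝ, ∫⁻ x in S ∩ u ⁻¹' {t}, h x ∂μHE[finrank ℝ V - 1]
      = ∫⁻ y : (ℝ ∙ e)ᗮ, G (t • e + (y : V)) := by
    intro t
    let ι : (ℝ ∙ e)ᗮ → V := fun y => t • e + (y : V)
    have hι : Continuous ι := by fun_prop
    let St : Set (ℝ ∙ e)ᗮ := ι ⁻¹' (Φ '' S)
    have hSt : MeasurableSet St := hι.measurable hT
    have himg : (fun y => Φ.symm (ι y)) '' St = S ∩ u ⁻¹' {t} := by
      ext x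
      constructor
      · rintro ⟨y, ⟨x', hx', hxy⟩, rfl⟩
        simp only
        rw [← hxy, Φ.left_inv (hSΦ hx')]
        refine ⟨hx', ?_⟩
        have h1 : ⟪e, Φ x'⟫ = ⟪e, ι y⟫ := by rw [hxy]
        have hperp : ⟪e, (y : V)⟫ = 0 := Submodule.mem_orthogonal_singleton_iff_inner_right.1 y.2
        rw [hΦ] at h1
        simp only [chart, ι, inner_add_right, inner_smul_right, hee, hperp] at h1
        simp only [mem_preimage, mem_singleton_iff]
        linarith
      · rintro ⟨hx, hxt⟩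
        have hxt' : u x = t := hxt
        have hmem : x - ⟪e, x⟫ • e ∈ (ℝ ∙ e)ᗮ := by
          rw [Submodule.mem_orthogonal_singleton_iff_inner_right, inner_sub_right,
            inner_smul_right, hee]
          ring
        have h1 : ι ⟨_, hmem⟩ = Φ x := by
          rw [hΦ]
          simp only [ι, chart, hxt', sub_smul]
          abel
        refine ⟨⟨_, hmem⟩, ⟨x, hx, h1.symm⟩, ?_⟩
        simp only
        rw [h1, Φ.left_inv (hSΦ hx)]
    have hder : ∀ y ∈ St, HasFDerivWithinAt (fun y => Φ.symm (ι y))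
        (gr e (fderiv ℝ u (Ψ (ι y)))) St y := by
      rintro y ⟨x, hx, hxy⟩
      have hdet : (dchart e (fderiv ℝ u x)).det ≠ 0 := by
        rw [det_dchart he]; exact hne x hx
      let L := (dchart e (fderiv ℝ u x)).toContinuousLinearEquivOfDetNeZero hdet
      have h1 : HasFDerivAt Φ.symm (L.symm : V →L[ℝ] V) (ι y) := by
        refine Φ.hasFDerivAt_symm (hxy ▸ Φ.map_source (hSΦ hx)) ?_
        rw [← hxy, Φ.left_inv (hSΦ hx)]
        simpa [L] using hΦd x
      have h2 : HasFDerivAt ι (ℝ ∙ e)ᗮ.subtypeL y := (ℝ ∙ e)ᗮ.subtypeL.hasFDerivAt.const_add _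
      have h3 := (h1.comp y h2).hasFDerivWithinAt (s := St)
      rw [← hxy, hΨΦ x hx]
      refine h3.congr_fderiv ?_
      ext1 z
      simp only [ContinuousLinearMap.comp_apply, ContinuousLinearEquiv.coe_coe,
        Submodule.subtypeL_apply]
      rw [ContinuousLinearEquiv.symm_apply_eq]
      simpa [L] using (dchart_gr he (hne x hx) z).symm
    have hinj' : InjOn (fun y => Φ.symm (ι y)) St := by
      rintro y ⟨x, hx, hxy⟩ y' ⟨x', hx', hxy'⟩ hyy
      simp only at hyy
      rw [← hxy, ← hxy', Φ.left_inv (hSΦ hx), Φ.left_inv (hSΦ hx')] at hyy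
      have : ι y = ι y' := by rw [← hxy, ← hxy', hyy]
      exact Subtype.ext (add_left_cancel this)
    have key := lintegral_image_eq hSt hder hinj' h
    rw [himg, hrk] at key
    rw [key, ← lintegral_indicator hSt]
    refine lintegral_congr fun y => ?_
    by_cases hy : y ∈ St
    · obtain ⟨x, hx, hxy⟩ := hy
      have hy' : y ∈ St := ⟨x, hx, hxy⟩
      change _ = G (ι y)
      rw [indicator_of_mem hy']
      simp only [G]
      rw [indicator_of_mem (show ι y ∈ Φ '' S from hy'), ← hxy, hΨΦ x hx, Φ.left_inv (hSΦ hx),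
        jac_gr he (hne x hx)]
    · change _ = G (ι y)
      rw [indicator_of_notMem hy]
      simp only [G]
      rw [indicator_of_notMem (show ι y ∉ Φ '' S from hy)]
  simp_rw [hslice]
  refine ⟨?_, ?_⟩
  · refine Measurable.lintegral_prod_right' (f := fun p : ℝ × (ℝ ∙ e)ᗮ => G (p.1 • e + (p.2 : V)))
      (hG.comp ?_)
    fun_prop
  · rw [← lintegral_split he hG]
    simp only [G]
    rw [lintegral_indicator hT, lintegral_image_eq_lintegral_abs_det_fderiv_mul volume hS
      (fun x _ => (hΦd x).hasFDerivWithinAt) hinj]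
    refine setLIntegral_congr_fun hS fun x hx => ?_
    simp only [J]
    rw [hΨΦ x hx, det_dchart he, ← mul_assoc, ← ENNReal.ofReal_mul (abs_nonneg _),
      mul_div_cancel₀ _ (abs_ne_zero.2 (hne x hx)), mul_comm, ofReal_norm]

/-- **COAREA FORMULA** on a measurable set of regular points of a `C¹` function. -/
theorem coarea {u : V → ℝ} (hu : ContDiff ℝ 1 u) {S : Set V} (hS : MeasurableSet S)
    (hne : ∀ x ∈ S, fderiv ℝ u x ≠ 0) {h : V → ℝ≥0∞} (hh : Measurable h) :
    Measurable (fun t : ℝ => ∫⁻ x in S ∩ u ⁻¹' {t}, h x ∂μHE[finrank ℝ V - 1]) ∧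
    ∫⁻ t : ℝ, ∫⁻ x in S ∩ u ⁻¹' {t}, h x ∂μHE[finrank ℝ V - 1]
      = ∫⁻ x in S, h x * ‖fderiv ℝ u x‖ₑ := by
  classical
  have hdc : Continuous (fderiv ℝ u) := hu.continuous_fderiv one_ne_zero
  have loc : ∀ x ∈ S, ∃ O : Set V, IsOpen O ∧ x ∈ O ∧ ∀ T : Set V, MeasurableSet T → T ⊆ O →
      Measurable (fun t : ℝ => ∫⁻ x in T ∩ u ⁻¹' {t}, h x ∂μHE[finrank ℝ V - 1]) ∧
      ∫⁻ t : ℝ, ∫⁻ x in T ∩ u ⁻¹' {t}, h x ∂μHE[finrank ℝ V - 1]
        = ∫⁻ x in T, h x * ‖fderiv ℝ u x‖ₑ := by
    intro x hx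
    obtain ⟨v, hv⟩ : ∃ v, fderiv ℝ u x v ≠ 0 := by
      by_contra hc
      push Not at hc
      exact hne x hx (ContinuousLinearMap.ext hc)
    have hv0 : v ≠ 0 := by rintro rfl; simp at hv
    set e : V := ‖v‖⁻¹ • v with he'
    have he : ‖e‖ = 1 := norm_smul_inv_norm hv0
    have hle : fderiv ℝ u x e ≠ 0 := by
      rw [he', map_smul]
      exact smul_ne_zero (inv_ne_zero (norm_ne_zero_iff.2 hv0)) hv
    have hdet : (dchart e (fderiv ℝ u x)).det ≠ 0 := by rw [det_dchart he]; exact hle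
    let L := (dchart e (fderiv ℝ u x)).toContinuousLinearEquivOfDetNeZero hdet
    have hst : HasStrictFDerivAt (chart e u) (L : V →L[ℝ] V) x := by
      simpa [L] using hasStrictFDerivAt_chart e (hu.contDiffAt.hasStrictFDerivAt one_ne_zero)
    let Φ := hst.toOpenPartialHomeomorph (chart e u)
    refine ⟨Φ.source ∩ {y | fderiv ℝ u y e ≠ 0}, Φ.open_source.inter
      (isOpen_ne_fun (hdc.clm_apply continuous_const) continuous_const),
      ⟨hst.mem_toOpenPartialHomeomorph_source, hle⟩, fun T hT hTO => ?_⟩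
    exact coarea_chart he hu Φ rfl hT (fun y hy => (hTO hy).1) (fun y hy => (hTO hy).2) hh
  choose! O hO hxO hcO using loc
  rcases S.eq_empty_or_nonempty with rfl | hSne
  · simp
  obtain ⟨T, hTS, hTc, hcov⟩ := TopologicalSpace.countable_cover_nhdsWithin
    (f := O) (s := S) (fun x hx => mem_nhdsWithin_of_mem_nhds ((hO x hx).mem_nhds (hxO x hx)))
  have hTne : T.Nonempty := by
    obtain ⟨x, hx⟩ := hSne
    obtain ⟨y, hy⟩ := mem_iUnion.1 (hcov hx)
    obtain ⟨hy, -⟩ := mem_iUnion.1 hy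
    exact ⟨y, hy⟩
  obtain ⟨c, hc⟩ := hTc.exists_eq_range hTne
  have hcS : ∀ k, c k ∈ S := fun k => hTS (hc ▸ mem_range_self k)
  let B : ℕ → Set V := fun k => O (c k)
  let D : ℕ → Set V := fun k => S ∩ disjointed B k
  have hD : ∀ k, MeasurableSet (D k) := fun k =>
    hS.inter (MeasurableSet.disjointed (fun i => (hO _ (hcS i)).measurableSet) k)
  have hDO : ∀ k, D k ⊆ O (c k) := fun k => inter_subset_right.trans (disjointed_subset B k)
  have hDd : Pairwise (Disjoint on D) :=
    pairwise_disjoint_mono (disjoint_disjointed B) fun k => inter_subset_right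
  have hSD : S = ⋃ k, D k := by
    rw [← inter_iUnion, iUnion_disjointed, eq_comm, inter_eq_left]
    intro x hx
    obtain ⟨y, hy⟩ := mem_iUnion.1 (hcov hx)
    obtain ⟨hy, hxy⟩ := mem_iUnion.1 hy
    rw [hc] at hy
    obtain ⟨k, rfl⟩ := hy
    exact mem_iUnion.2 ⟨k, hxy⟩
  have hlev : ∀ t : ℝ, MeasurableSet (u ⁻¹' {t}) := fun t =>
    hu.continuous.measurable (measurableSet_singleton t)
  have hsum : ∀ t : ℝ, ∫⁻ x in S ∩ u ⁻¹' {t}, h x ∂μHE[finrank ℝ V - 1]
      = ∑' k, ∫⁻ x in D k ∩ u ⁻¹' {t}, h x ∂μHE[finrank ℝ V - 1] := by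
    intro t
    conv_lhs => rw [hSD, iUnion_inter]
    exact lintegral_iUnion (fun k => (hD k).inter (hlev t))
      (pairwise_disjoint_mono hDd fun k => inter_subset_left) _
  simp_rw [hsum]
  have hk := fun k => hcO (c k) (hcS k) (D k) (hD k) (hDO k)
  refine ⟨Measurable.tsum fun k => (hk k).1, ?_⟩
  rw [lintegral_tsum fun k => (hk k).1.aemeasurable]
  conv_rhs => rw [hSD]
  rw [lintegral_iUnion hD hDd]
  exact tsum_congr fun k => (hk k).2

end Crest.Agent.N346.Coarea
end
end

-- ▼ part N346/P0/BV0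
section

/-! Row 346 (helper41): `bv0 : BV0Stmt` (generic tilt + coarea formula). -/

set_option autoImplicit false
open MeasureTheory Filter Topology Set Metric Module
open scoped ContDiff ENNReal RealInnerProductSpace
open Crest.GeometryTopology.CoordMetric
open Crest.MathPhysics.ExteriorData

noncomputable section

namespace Crest.Agent.N346.BV0

variable {n : ℕ}

theorem fderiv_eq_inner (u : E n → ℝ) (x v : E n) : fderiv ℝ u x v = ⟪euclidGrad u x, v⟫ := by
  conv_lhs => rw [← (EuclideanSpace.basisFun (Fin n) ℝ).sum_repr v]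
  simp only [map_sum, map_smul, smul_eq_mul, PiLp.inner_apply, euclidGrad, pderiv,
    EuclideanSpace.basisFun_apply, EuclideanSpace.basisFun_repr]
  simp

theorem fderiv_eq_innerSL (u : E n → ℝ) (x : E n) : fderiv ℝ u x = innerSL ℝ (euclidGrad u x) := by
  ext v; simp [fderiv_eq_inner]

theorem norm_fderiv (u : E n → ℝ) (x : E n) : ‖fderiv ℝ u x‖ = ‖euclidGrad u x‖ := by
  rw [fderiv_eq_innerSL, innerSL_apply_norm]

theorem contDiff_euclidGrad {u : E n → ℝ} (hu : ContDiff ℝ ∞ u) : ContDiff ℝ ∞ (euclidGrad u) := by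
  rw [contDiff_euclidean]
  intro i
  exact (hu.fderiv_right (m := ∞) (by simp)).clm_apply contDiff_const

theorem euclidGrad_of_hasFDerivAt {u : E n → ℝ} {x w : E n} (h : HasFDerivAt u (innerSL ℝ w) x) :
    euclidGrad u x = w := by
  ext i
  simp [euclidGrad, pderiv, h.fderiv, EuclideanSpace.inner_single_right]

/-- generic tilts: for almost every `a`, the critical values of `F + ⟪a, ·⟫` form a null set. -/
theorem ae_tilt {F : E n → ℝ} (hF : ContDiff ℝ ∞ F) :
    ∀ᵐ a : E n, ∀ᵐ t : ℝ, ∀ x, euclidGrad F x + a = 0 → F x + ⟪a, x⟫ ≠ t := by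
  let f : E n × ℝ → E n × ℝ := fun p => (-euclidGrad F p.1, F p.1 - ⟪euclidGrad F p.1, p.1⟫)
  have hG := contDiff_euclidGrad hF
  have hf : ContDiff ℝ ∞ f := by
    refine ContDiff.prodMk (hG.comp contDiff_fst).neg ((hF.comp contDiff_fst).sub ?_)
    exact (hG.comp contDiff_fst).inner ℝ contDiff_fst
  have hd : Differentiable ℝ f := hf.differentiable (by simp)
  have h0 : ((volume : Measure (E n)).prod (volume : Measure ℝ)) (f '' univ) = 0 := by
    refine addHaar_image_eq_zero_of_det_fderivWithin_eq_zero _ (f' := fderiv ℝ f)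
      (fun p _ => (hd p).hasFDerivAt.hasFDerivWithinAt) fun p _ => ?_
    have h1 : fderiv ℝ f p (0, 1) = 0 := by
      have h2 : HasDerivAt (fun s : ℝ => p + s • ((0, 1) : E n × ℝ)) (0, 1) 0 := by
        simpa using ((hasDerivAt_id (0 : ℝ)).smul_const ((0, 1) : E n × ℝ)).const_add p
      have h3 := (hd (p + (0 : ℝ) • ((0, 1) : E n × ℝ))).hasFDerivAt.comp_hasDerivAt 0 h2
      have h4 : (f ∘ fun s : ℝ => p + s • ((0, 1) : E n × ℝ)) = fun _ => f p := by
        ext1 s; simp [f]
      rw [h4] at h3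
      simpa using h3.unique (hasDerivAt_const 0 (f p))
    by_contra hdet
    have h5 := (LinearMap.equivOfDetNeZero _ hdet).injective
    have h6 : (LinearMap.equivOfDetNeZero _ hdet) (0, 1) = (LinearMap.equivOfDetNeZero _ hdet) 0 := by
      rw [map_zero]; exact h1
    simpa using h5 h6
  filter_upwards [Measure.measure_ae_null_of_prod_null h0] with a ha
  have ha' : volume (Prod.mk a ⁻¹' (f '' univ)) = 0 := ha
  filter_upwards [measure_eq_zero_iff_ae_notMem.1 ha'] with t ht x hx hxt
  refine ht ⟨(x, 0), mem_univ _, ?_⟩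
  have : euclidGrad F x = -a := eq_neg_of_add_eq_zero_left hx
  simp only [f, this, neg_neg, inner_neg_left, sub_neg_eq_add, hxt]

/-- the area density `√det g · |ξ|_{g⁻¹}`. -/
def dens (g : MetricField n) (x ξ : E n) : ℝ :=
  volDensity g x * Real.sqrt (∑ i, ∑ j, inverseField g x i j * ξ i * ξ j)

theorem dens_nonneg (g : MetricField n) (x ξ : E n) : 0 ≤ dens g x ξ :=
  mul_nonneg (Real.sqrt_nonneg _) (Real.sqrt_nonneg _)

theorem continuous_dens {g : MetricField n} (hg : IsRiemannianOn g univ) :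
    Continuous fun p : E n × E n => dens g p.1 p.2 := by
  have hc : Continuous g := continuous_matrix fun i j =>
    (contDiffOn_univ.1 (hg.contDiffOn i j)).continuous
  have hdet : Continuous fun x => (g x).det := hc.matrix_det
  have hinv : ∀ i j, Continuous fun x => inverseField g x i j := fun i j => by
    simp only [inverseField, Matrix.inv_def, Ring.inverse_eq_inv', Matrix.smul_apply, smul_eq_mul]
    exact (hdet.inv₀ fun x => (hg.posDef x (mem_univ x)).det_pos.ne').mul
      (hc.matrix_adjugate.matrix_elem i j)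
  unfold dens volDensity
  refine ((hdet.comp continuous_fst).sqrt).mul (Continuous.sqrt ?_)
  refine continuous_finsetSum _ fun i _ => continuous_finsetSum _ fun j _ => ?_
  refine (((hinv i j).comp continuous_fst).mul ?_).mul ?_ <;> fun_prop

/-- the estimate for one good tilt. -/
theorem tilt_bound (hn : 3 ≤ n) {g : MetricField n} (hg : IsRiemannianOn g univ) {A : ℝ}
    (hA : ENNReal.ofReal A ≤ minEnclosingArea g) {F : E n → ℝ} (hF : ContDiff ℝ ∞ F)
    (h0 : ∀ x ∈ closedBall (0 : E n) 1, F x = 0) {R : ℝ} (hR : 1 ≤ R)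
    (h1 : ∀ x, R ≤ ‖x‖ → F x = 1) {δ : ℝ} (hδ : 0 < δ) (hδ' : δ < 1 / 2) {a : E n}
    (ha : ‖a‖ * (2 * R) < δ)
    (hgood : ∀ᵐ t : ℝ, ∀ x, euclidGrad F x + a = 0 → F x + ⟪a, x⟫ ≠ t) :
    A * (1 - 2 * δ) ≤ ∫ x in closedBall (0 : E n) R, dens g x (euclidGrad F x + a) := by
  let χ : ContDiffBump (0 : E n) := ⟨R, 2 * R, by linarith, by linarith⟩
  let u : E n → ℝ := fun x => F x + χ x * ⟪a, x⟫
  have hu : ContDiff ℝ ∞ u := hF.add (χ.contDiff.mul (contDiff_const.inner ℝ contDiff_id))
  have hsmall : ∀ x, |χ x * ⟪a, x⟫| < δ := by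
    intro x
    by_cases hx : 2 * R ≤ ‖x‖
    · rw [χ.zero_of_le_dist (by simpa using hx)]; simpa using hδ
    · push Not at hx
      rw [abs_mul, abs_of_nonneg χ.nonneg]
      calc χ x * |⟪a, x⟫| ≤ 1 * (‖a‖ * ‖x‖) :=
            mul_le_mul χ.le_one (abs_real_inner_le_norm a x) (abs_nonneg _) zero_le_one
        _ ≤ ‖a‖ * (2 * R) := by rw [one_mul]; gcongr
        _ < δ := ha
  have hin : ∀ x, u x < 1 - δ → ‖x‖ < R := by
    intro x hx
    by_contra hc
    have := h1 x (not_lt.1 hc)
    have h2 := (abs_lt.1 (hsmall x)).1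
    simp only [u, this] at hx
    linarith
  have hgrad : ∀ x, ‖x‖ < R → euclidGrad u x = euclidGrad F x + a ∧ u x = F x + ⟪a, x⟫ := by
    intro x hx
    have hev : u =ᶠ[𝓝 x] fun y => F y + ⟪a, y⟫ := by
      filter_upwards [isOpen_ball.mem_nhds (mem_ball_zero_iff.2 hx)] with y hy
      simp only [u]
      rw [χ.one_of_mem_closedBall (ball_subset_closedBall hy), one_mul]
    refine ⟨euclidGrad_of_hasFDerivAt (HasFDerivAt.congr_of_eventuallyEq ?_ hev), hev.self_of_nhds⟩
    have h2 := ((hF.differentiable (by simp)) x).hasFDerivAt.add (innerSL ℝ a).hasFDerivAt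
    rw [fderiv_eq_innerSL] at h2
    rw [map_add]
    exact h2
  have hGc : Continuous (euclidGrad u) := (contDiff_euclidGrad hu).continuous
  let S : Set (E n) := {x | u x < 1 - δ} ∩ {x | euclidGrad u x ≠ 0}
  have hS : MeasurableSet S := ((isOpen_lt hu.continuous continuous_const).inter
    (isOpen_ne_fun hGc continuous_const)).measurableSet
  let h : E n → ℝ≥0∞ := fun x => ENNReal.ofReal (dens g x (euclidGrad u x) / ‖euclidGrad u x‖)
  have hdc : Continuous fun x => dens g x (euclidGrad u x) :=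
    (continuous_dens hg).comp (continuous_id.prodMk hGc)
  have hh : Measurable h := ENNReal.measurable_ofReal.comp (hdc.measurable.div hGc.norm.measurable)
  have hco := (Coarea.coarea (hu.of_le (by simp)) hS (fun x hx hc => hx.2 (by
    rw [← norm_eq_zero, ← norm_fderiv, hc, norm_zero])) hh).2
  rw [finrank_euclideanSpace_fin] at hco
  have hlow : ∀ᵐ t : ℝ, (Ioo δ (1 - δ)).indicator (fun _ => ENNReal.ofReal A) t
      ≤ ∫⁻ x in S ∩ u ⁻¹' {t}, h x ∂μHE[n - 1] := by
    filter_upwards [hgood] with t ht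
    by_cases htI : t ∈ Ioo δ (1 - δ)
    swap
    · rw [indicator_of_notMem htI]; exact zero_le
    rw [indicator_of_mem htI]
    have hg' : ∀ x, euclidGrad (fun y => u y - t) x = euclidGrad u x := fun x => by
      ext i; simp [euclidGrad, pderiv, fderiv_sub_const]
    have hreg : ∀ x, u x = t → euclidGrad u x ≠ 0 := by
      intro x hx hc
      obtain ⟨e1, e2⟩ := hgrad x (hin x (hx ▸ htI.2))
      exact ht x (e1 ▸ hc) (e2 ▸ hx)
    have hcut : IsEnclosingCut fun y => u y - t := by
      refine ⟨hu.sub contDiff_const, fun x hx => ?_, fun x hx => ?_, R, fun x hx => ?_⟩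
      · rw [hg']; exact hreg x (sub_eq_zero.1 hx)
      · have h2 := (abs_lt.1 (hsmall x)).2
        simp only [u, h0 x (mem_closedBall_zero_iff.2 hx.le)]
        linarith [htI.1]
      · have h2 := (abs_lt.1 (hsmall x)).1
        simp only [u, h1 x hx]
        linarith [htI.2]
    refine hA.trans ((iInf_le _ ⟨_, hcut⟩).trans (le_of_eq ?_))
    have hset : {x | u x - t = 0} = S ∩ u ⁻¹' {t} := by
      ext x
      simp only [mem_ofPred_eq, sub_eq_zero, S, mem_inter_iff, mem_preimage, mem_singleton_iff]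
      exact ⟨fun hx => ⟨⟨hx ▸ htI.2, hreg x hx⟩, hx⟩, fun hx => hx.2⟩
    simp only [levelSetArea, hg', hset]
    rfl
  have hle := lintegral_mono_ae hlow
  rw [lintegral_indicator measurableSet_Ioo, setLIntegral_const, Real.volume_Ioo, hco] at hle
  have hdc' : Continuous fun x => dens g x (euclidGrad F x + a) :=
    (continuous_dens hg).comp (continuous_id.prodMk
      ((contDiff_euclidGrad hF).continuous.add continuous_const))
  have hup : ∫⁻ x in S, h x * ‖fderiv ℝ u x‖ₑ
      ≤ ∫⁻ x in closedBall (0 : E n) R, ENNReal.ofReal (dens g x (euclidGrad F x + a)) := by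
    have hSR : S ⊆ closedBall 0 R := fun x hx => mem_closedBall_zero_iff.2 (hin x hx.1).le
    refine le_trans (le_of_eq (setLIntegral_congr_fun hS fun x hx => ?_)) (lintegral_mono_set hSR)
    simp only [h]
    rw [← ofReal_norm, norm_fderiv, ← ENNReal.ofReal_mul (div_nonneg (dens_nonneg _ _ _)
      (norm_nonneg _)), div_mul_cancel₀ _ (norm_ne_zero_iff.2 hx.2), (hgrad x (hin x hx.1)).1]
  rw [← ofReal_integral_eq_lintegral_ofReal (hdc'.continuousOn.integrableOn_compact
    (isCompact_closedBall _ _)) (ae_of_all _ fun x => dens_nonneg _ _ _)] at hup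
  have hfin := hle.trans hup
  have hnn : 0 ≤ ∫ x in closedBall (0 : E n) R, dens g x (euclidGrad F x + a) :=
    integral_nonneg fun x => dens_nonneg _ _ _
  rcases le_or_gt A 0 with hA0 | hA0
  · exact le_trans (mul_nonpos_of_nonpos_of_nonneg hA0 (by linarith)) hnn
  rw [← ENNReal.ofReal_mul hA0.le, ENNReal.ofReal_le_ofReal_iff hnn] at hfin
  convert hfin using 2
  ring

end Crest.Agent.N346.BV0

namespace Crest.Agent.N346

open BV0

theorem bv0 : BV0Stmt := by
  intro n hn g hg A hA F hF h0 ⟨R0, h1⟩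
  set R := max R0 1 with hR
  have hR1 : 1 ≤ R := le_max_right _ _
  have h1' : ∀ x : E n, R ≤ ‖x‖ → F x = 1 := fun x hx => h1 x ((le_max_left _ _).trans hx)
  let I : E n → ℝ := fun a => ∫ x in closedBall (0 : E n) R, dens g x (euclidGrad F x + a)
  have hI : Continuous I := by
    refine continuous_parametric_integral_of_continuous ?_ (isCompact_closedBall _ _)
    exact (continuous_dens hg).comp (continuous_snd.prodMk
      (((contDiff_euclidGrad hF).continuous.comp continuous_snd).add continuous_fst))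
  have hI0 : I 0 = ∫ x, Real.sqrt (gradSq g F x) * volDensity g x := by
    have e1 : ∀ x, dens g x (euclidGrad F x + 0) = Real.sqrt (gradSq g F x) * volDensity g x :=
      fun x => by rw [add_zero, mul_comm]; rfl
    simp only [I, e1]
    refine setIntegral_eq_integral_of_forall_compl_eq_zero fun x hx => ?_
    have hx' : R < ‖x‖ := by simpa using hx
    have hev : F =ᶠ[𝓝 x] fun _ => 1 := by
      filter_upwards [(isOpen_lt continuous_const continuous_norm).mem_nhds hx'] with y hy
      exact h1' y (le_of_lt hy)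
    simp [gradSq, gradDot, pderiv, hev.fderiv_eq]
  rw [← hI0]
  have key : ∀ δ : ℝ, 0 < δ → δ < 1 / 2 → A * (1 - 2 * δ) ≤ I 0 := by
    intro δ hδ hδ'
    by_contra hc
    push Not at hc
    have hopen : IsOpen ({a : E n | I a < A * (1 - 2 * δ)} ∩ {a | ‖a‖ * (2 * R) < δ}) :=
      (isOpen_lt hI continuous_const).inter (isOpen_lt (by fun_prop) continuous_const)
    have hpos := hopen.measure_pos (volume : Measure (E n)) ⟨0, hc, by simpa using hδ⟩
    obtain ⟨a, ha, hgood⟩ := Measure.exists_mem_of_measure_ne_zero_of_ae hpos.ne'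
      (ae_restrict_of_ae (ae_tilt hF))
    exact absurd (tilt_bound hn hg hA hF h0 hR1 h1' hδ hδ' ha.2 hgood) (not_le.2 ha.1)
  have hT : Tendsto (fun δ : ℝ => A * (1 - 2 * δ)) (𝓝[>] 0) (𝓝 (A * (1 - 2 * 0))) :=
    Tendsto.mono_left (Continuous.tendsto (by fun_prop) 0) nhdsWithin_le_nhds
  rw [mul_zero, sub_zero, mul_one] at hT
  refine le_of_tendsto hT ?_
  filter_upwards [Ioo_mem_nhdsGT (show (0 : ℝ) < 1 / 2 by norm_num)] with δ hδ
  exact key δ hδ.1 hδ.2

end Crest.Agent.N346
end
end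

-- ▼ part N346/P0/Norm

/-! Row 346, Part 0.1 (helper66): normalisation of the data, `normU : NormUStmt`,
`normC : NormCStmt`. -/

set_option autoImplicit false
open MeasureTheory Metric Filter Set
open scoped Topology ContDiff
open Crest.GeometryTopology.CoordMetric
open Crest.MathPhysics.ExteriorData

noncomputable section

namespace Crest.Agent.N346

namespace Nrm

variable {n : ℕ}

/-! ### the sign of `K` -/

theorem pderiv_neg (i : Fin n) (f : E n → ℝ) (x : E n) :
    pderiv i (fun y => -f y) x = -pderiv i f x := by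
  simp [pderiv, fderiv_fun_neg]

theorem traceK_neg (g K : MetricField n) (x : E n) : traceK g (fun y => -K y) x = -traceK g K x := by
  simp [traceK]

theorem energyDensity_neg (g K : MetricField n) (x : E n) :
    energyDensity g (fun y => -K y) x = energyDensity g K x := by
  simp [energyDensity, traceK_neg, normSqK]

theorem momentumDensity_neg (g K : MetricField n) (x : E n) (i : Fin n) :
    momentumDensity g (fun y => -K y) x i = -momentumDensity g K x i := by
  have h1 : ∀ k j, covDerivK g (fun y => -K y) x k i j = -covDerivK g K x k i j := fun k j => by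
    simp only [covDerivK, Matrix.neg_apply, pderiv_neg, mul_neg, Finset.sum_neg_distrib]
    ring
  have h2 : traceK g (fun y => -K y) = fun y => -traceK g K y := funext (traceK_neg g K)
  simp only [momentumDensity, h1, h2, pderiv_neg, mul_neg, Finset.sum_neg_distrib]
  ring

theorem pastExpansion_neg (g K : MetricField n) (x : E n) :
    pastExpansion g (fun y => -K y) x = futureExpansion g K x := by
  simp [pastExpansion, futureExpansion, sphereTraceK]

theorem momentumFlux_neg (g K : MetricField n) (R : ℝ) (i : Fin n) :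
    momentumFlux g (fun y => -K y) R i = -momentumFlux g K R i := by
  unfold momentumFlux
  rw [← mul_neg, ← integral_neg]
  congr 2
  funext x
  rw [← Finset.sum_neg_distrib]
  refine Finset.sum_congr rfl fun j _ => ?_
  simp only [traceK_neg, Matrix.neg_apply]
  ring

theorem decaysAt_neg {j : ℕ} {a : ℝ} {f : E n → ℝ} (h : DecaysAt j a f) :
    DecaysAt j a fun x => -f x := by
  intro k hk
  obtain ⟨C, hC⟩ := h k hk
  refine ⟨C, fun x hx => ?_⟩
  have : iteratedFDeriv ℝ k (fun x => -f x) x = -iteratedFDeriv ℝ k f x :=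
    iteratedFDeriv_neg_apply
  rw [this, norm_neg]
  exact hC x hx

theorem decaysAt_bound {j : ℕ} {a : ℝ} {f : E n → ℝ} (h : DecaysAt j a f) :
    ∃ C : ℝ, 0 ≤ C ∧ ∀ x : E n, 1 ≤ ‖x‖ → |f x| ≤ C * ‖x‖ ^ (-a) := by
  obtain ⟨C, hC⟩ := h 0 (Nat.zero_le _)
  refine ⟨max C 0, le_max_right _ _, fun x hx => ?_⟩
  have := hC x hx
  rw [norm_iteratedFDeriv_zero, Real.norm_eq_abs, Nat.cast_zero, sub_zero] at this
  exact this.trans (mul_le_mul_of_nonneg_right (le_max_left _ _) (by positivity))

/-! ### Cauchy–Schwarz for a positive definite matrix -/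

/-- the bilinear form of a matrix -/
def bq (G : Matrix (Fin n) (Fin n) ℝ) (v w : Fin n → ℝ) : ℝ := ∑ i, ∑ j, G i j * v i * w j

theorem bq_eq (G : Matrix (Fin n) (Fin n) ℝ) (v w : Fin n → ℝ) : bq G v w = v ⬝ᵥ G.mulVec w := by
  simp only [bq, dotProduct, Matrix.mulVec, Finset.mul_sum]
  exact Finset.sum_congr rfl fun i _ => Finset.sum_congr rfl fun j _ => by ring

theorem symm_of_posDef {G : Matrix (Fin n) (Fin n) ℝ} (hG : G.PosDef) (i j : Fin n) :
    G i j = G j i := by
  simpa using (hG.isHermitian.apply j i)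

theorem bq_comm {G : Matrix (Fin n) (Fin n) ℝ} (hG : G.PosDef) (v w : Fin n → ℝ) :
    bq G v w = bq G w v := by
  unfold bq
  rw [Finset.sum_comm]
  exact Finset.sum_congr rfl fun i _ => Finset.sum_congr rfl fun j _ => by
    rw [symm_of_posDef hG]; ring

theorem bq_nonneg {G : Matrix (Fin n) (Fin n) ℝ} (hG : G.PosDef) (v : Fin n → ℝ) :
    0 ≤ bq G v v := by
  rw [bq_eq]
  simpa using hG.posSemidef.dotProduct_mulVec_nonneg v

theorem bq_cs {G : Matrix (Fin n) (Fin n) ℝ} (hG : G.PosDef) (v w : Fin n → ℝ) :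
    bq G v w ^ 2 ≤ bq G v v * bq G w w := by
  have h := discrim_le_zero (a := bq G w w) (b := 2 * bq G v w) (c := bq G v v) fun t => by
    have h1 := bq_nonneg hG (v + t • w)
    have h2 := bq_comm hG w v
    simp only [bq_eq, Matrix.mulVec_add, Matrix.mulVec_smul, add_dotProduct, dotProduct_add,
      smul_dotProduct, dotProduct_smul, smul_eq_mul] at h1 h2 ⊢
    rw [h2] at h1
    linarith
  rw [discrim] at h
  linarith

/-- covector–vector Cauchy–Schwarz -/
theorem dot_sq_le {G : Matrix (Fin n) (Fin n) ℝ} (hG : G.PosDef) (J w : Fin n → ℝ) :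
    (J ⬝ᵥ w) ^ 2 ≤ bq G⁻¹ J J * bq G w w := by
  have hu : G.mulVec (G⁻¹.mulVec J) = J := by
    rw [Matrix.mulVec_mulVec, Matrix.mul_nonsing_inv _ (Ne.isUnit hG.det_pos.ne'),
      Matrix.one_mulVec]
  have h := bq_cs hG (G⁻¹.mulVec J) w
  rw [bq_comm hG _ w, bq_eq G w, bq_eq G (G⁻¹.mulVec J), hu, dotProduct_comm w,
    dotProduct_comm _ J, ← bq_eq] at h
  exact h

theorem abs_dot_le {G : Matrix (Fin n) (Fin n) ℝ} (hG : G.PosDef) (J w : Fin n → ℝ)
    (hw : bq G w w ≤ 1) : |J ⬝ᵥ w| ≤ Real.sqrt (bq G⁻¹ J J) :=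
  Real.abs_le_sqrt ((dot_sq_le hG J w).trans
    (mul_le_of_le_one_right (bq_nonneg hG.inv J) hw))

/-- the Gram identity for the cross product -/
theorem gram {G : Matrix (Fin 3) (Fin 3) ℝ} (hG : G.PosDef) (a b : Fin 3 → ℝ) :
    G.det * bq G⁻¹ (crossProduct a b) (crossProduct a b) = bq G a a * bq G b b - bq G a b ^ 2 := by
  have hd := hG.det_pos.ne'
  have h1 : G.det * bq G⁻¹ (crossProduct a b) (crossProduct a b) =
      bq G.adjugate (crossProduct a b) (crossProduct a b) := by
    simp only [bq, Matrix.inv_def, Ring.inverse_eq_inv', Matrix.smul_apply, smul_eq_mul,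
      Finset.mul_sum]
    refine Finset.sum_congr rfl fun i _ => Finset.sum_congr rfl fun j _ => ?_
    field_simp
  rw [h1, Matrix.adjugate_fin_three, cross_apply]
  simp only [bq, Fin.sum_univ_three, Matrix.of_apply, Matrix.cons_val', Matrix.cons_val_zero,
    Matrix.cons_val_one, Matrix.cons_val_two, Matrix.cons_val_fin_one, Matrix.head_cons,
    Matrix.tail_cons, Matrix.head_fin_const, Nat.succ_eq_add_one, Matrix.empty_val']
  rw [symm_of_posDef hG 1 0, symm_of_posDef hG 2 0, symm_of_posDef hG 2 1]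
  ring

theorem cross_le {G : Matrix (Fin 3) (Fin 3) ℝ} (hG : G.PosDef) (w a b : Fin 3 → ℝ) :
    2 * |Real.sqrt G.det * (crossProduct a b ⬝ᵥ w)| ≤
      bq G w w * bq G a a - bq G w a ^ 2 + bq G b b := by
  have hd := hG.det_pos
  have h1 : crossProduct a b ⬝ᵥ w = crossProduct w a ⬝ᵥ b := by
    rw [dotProduct_comm, dotProduct_comm _ b, triple_product_permutation b, 
      triple_product_permutation w]
  have h2 := mul_le_mul_of_nonneg_left (dot_sq_le hG (crossProduct w a) b) hd.le
  rw [← mul_assoc, gram hG] at h2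
  have hA : 0 ≤ bq G w w * bq G a a - bq G w a ^ 2 := sub_nonneg.2 (bq_cs hG w a)
  have hB := bq_nonneg hG b
  set A := bq G w w * bq G a a - bq G w a ^ 2
  have h3 : |Real.sqrt G.det * (crossProduct a b ⬝ᵥ w)| ^ 2 ≤ ((A + bq G b b) / 2) ^ 2 := by
    rw [sq_abs, mul_pow, Real.sq_sqrt hd.le, h1]
    nlinarith [sq_nonneg (A - bq G b b)]
  have h4 := (pow_le_pow_iff_left₀ (abs_nonneg _) (by positivity) two_ne_zero).1 h3
  linarith

/-! ### the volume density -/

theorem contDiff_g {g : MetricField n} (hg : IsRiemannianOn g univ) (i j : Fin n) :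
    ContDiff ℝ ∞ fun x => g x i j := contDiffOn_univ.1 (hg.contDiffOn i j)

theorem vol_pos {g : MetricField n} (hg : IsRiemannianOn g univ) (x : E n) : 0 < volDensity g x :=
  Real.sqrt_pos.2 (hg.posDef x trivial).det_pos

theorem contDiff_vol {g : MetricField n} (hg : IsRiemannianOn g univ) :
    ContDiff ℝ ∞ (volDensity g) := by
  have h : ContDiff ℝ ∞ fun x => (g x).det := by
    simp only [Matrix.det_apply, Units.smul_def, zsmul_eq_mul]
    exact ContDiff.sum fun σ _ => contDiff_const.mul (contDiff_prod fun i _ => contDiff_g hg _ _)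
  exact h.sqrt fun x => (hg.posDef x trivial).det_pos.ne'

theorem vol_bdd {g : MetricField n} {j : ℕ} {q : ℝ} (hq : 0 ≤ q)
    (hd : ∀ a b, DecaysAt j q fun x => g x a b - (1 : Matrix (Fin n) (Fin n) ℝ) a b) :
    ∃ M : ℝ, 0 ≤ M ∧ ∀ x : E n, 1 ≤ ‖x‖ → volDensity g x ≤ M := by
  choose C hC0 hC using fun a b => decaysAt_bound (hd a b)
  set M := 1 + ∑ a, ∑ b, C a b with hM
  refine ⟨Real.sqrt ((Fintype.card (Fin n)).factorial • M ^ Fintype.card (Fin n)),
    Real.sqrt_nonneg _, fun x hx => Real.sqrt_le_sqrt ((le_abs_self _).trans ?_)⟩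
  refine Matrix.det_le (abv := AbsoluteValue.abs) fun a b => ?_
  have h1 := hC a b x hx
  have h2 : ‖x‖ ^ (-q) ≤ 1 := Real.rpow_le_one_of_one_le_of_nonpos hx (by linarith)
  have h3 : C a b ≤ ∑ a, ∑ b, C a b :=
    (Finset.single_le_sum (f := fun b => C a b) (fun b _ => hC0 a b) (Finset.mem_univ b)).trans
      (Finset.single_le_sum (f := fun a => ∑ b, C a b)
        (fun a _ => Finset.sum_nonneg fun b _ => hC0 a b) (Finset.mem_univ a))
  have h4 : |(1 : Matrix (Fin n) (Fin n) ℝ) a b| ≤ 1 := by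
    rw [Matrix.one_apply]; split_ifs <;> simp
  have h5 := mul_le_of_le_one_right (hC0 a b) h2
  have h6 := abs_add_le (g x a b - (1 : Matrix (Fin n) (Fin n) ℝ) a b)
    ((1 : Matrix (Fin n) (Fin n) ℝ) a b)
  rw [sub_add_cancel] at h6
  change |g x a b| ≤ M
  linarith

theorem global_decay {f : E n → ℝ} (hf : Continuous f) {a C : ℝ} (ha : 0 ≤ a) (hC0 : 0 ≤ C)
    (hC : ∀ x : E n, 1 ≤ ‖x‖ → |f x| ≤ C * ‖x‖ ^ (-a)) :
    ∃ C' : ℝ, 0 ≤ C' ∧ ∀ x : E n, |f x| ≤ C' * (1 + ‖x‖) ^ (-a) := by
  obtain ⟨M, hM⟩ := (isCompact_closedBall (0 : E n) 1).exists_bound_of_continuousOn hf.continuousOn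
  have hM0 : 0 ≤ M := (norm_nonneg _).trans (hM 0 (mem_closedBall_self zero_le_one))
  have key : ∀ r s : ℝ, 0 < r → 0 < s → s ≤ 2 * r → r ^ (-a) ≤ 2 ^ a * s ^ (-a) := by
    intro r s hr hs h
    have h1 : (2 * r) ^ (-a) ≤ s ^ (-a) := Real.rpow_le_rpow_of_nonpos hs h (by linarith)
    rw [Real.mul_rpow (by norm_num) hr.le, Real.rpow_neg (by norm_num)] at h1
    have h2 : (0 : ℝ) < 2 ^ a := by positivity
    rwa [inv_mul_le_iff₀ h2] at h1
  refine ⟨(C + M) * 2 ^ a, by positivity, fun x => ?_⟩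
  have hx0 := norm_nonneg x
  rcases le_total 1 ‖x‖ with h | h
  · have h1 := key ‖x‖ (1 + ‖x‖) (by linarith) (by linarith) (by linarith)
    calc |f x| ≤ C * ‖x‖ ^ (-a) := hC x h
      _ ≤ (C + M) * (2 ^ a * (1 + ‖x‖) ^ (-a)) := by gcongr; linarith
      _ = _ := by ring
  · have h1 := key 1 (1 + ‖x‖) one_pos (by linarith) (by linarith)
    rw [Real.one_rpow] at h1
    calc |f x| ≤ M * 1 := by rw [mul_one]; exact hM x (mem_closedBall_zero_iff.2 h)
      _ ≤ (C + M) * (2 ^ a * (1 + ‖x‖) ^ (-a)) := by gcongr; linarith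
      _ = _ := by ring

/-! ### the charge -/

theorem continuous_divE {X : VectorField n} (hX : ∀ i, ContDiff ℝ 1 fun x => X x i) :
    Continuous (divE X) := continuous_finsetSum _ fun i _ => T.continuous_pderiv (hX i) i

theorem integrable_divE {X : VectorField n} (hX : ∀ i, ContDiff ℝ 1 fun x => X x i)
    (h0 : ∀ x : E n, 1 ≤ ‖x‖ → divE X x = 0) : Integrable (divE X) :=
  (continuous_divE hX).integrable_of_hasCompactSupport
    (HasCompactSupport.intro (isCompact_closedBall (0 : E n) 1) fun x hx =>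
      h0 x (not_le.1 (mt mem_closedBall_zero_iff.2 hx)).le)

theorem divE_of_gDiv {g : MetricField n} (hg : IsRiemannianOn g univ) {V : VectorField n} {x : E n}
    (h : gDiv g V x = 0) : divE (fun y i => volDensity g y * V y i) x = 0 :=
  (div_eq_zero_iff.1 h).resolve_right (vol_pos hg x).ne'

theorem charge_of_flux (hn : 2 ≤ n) {g : MetricField n} (hg : IsRiemannianOn g univ)
    {V : VectorField n} (hV : ∀ i, ContDiff ℝ ∞ fun x => V x i)
    (h0 : ∀ x ∈ exteriorRegion n, gDiv g V x = 0) {Q : ℝ}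
    (hQ : Tendsto (chargeFlux g V) atTop (𝓝 Q)) :
    ∫ x, divE (fun y i => volDensity g y * V y i) x = unitSphereArea n * Q := by
  have hω := T.unitSphereArea_pos (n := n) (by omega)
  set X : VectorField n := fun y i => volDensity g y * V y i with hX
  have hXs : ∀ i, ContDiff ℝ 1 fun x => X x i := fun i =>
    ((contDiff_vol hg).mul (hV i)).of_le (by exact_mod_cast le_top)
  have h1 : ∀ R : ℝ, 1 ≤ R → unitSphereArea n * chargeFlux g V R = ∫ x, divE X x := by
    intro R hR
    rw [← setIntegral_eq_integral_of_forall_compl_eq_zero (s := closedBall 0 R) (fun x hx =>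
      divE_of_gDiv hg (h0 x (hR.trans (not_le.1 (mt mem_closedBall_zero_iff.2 hx)).le))),
      T.div_ball hn X hXs (by linarith), chargeFlux, ← mul_assoc, mul_one_div_cancel hω.ne',
      one_mul]
    simp only [hX, Finset.mul_sum, mul_assoc]
  refine tendsto_nhds_unique (tendsto_const_nhds.congr' ?_) (hQ.const_mul _)
  filter_upwards [eventually_ge_atTop 1] with R hR
  exact (h1 R hR).symm

theorem divE_lin {X Y : VectorField n} (hX : ∀ i, ContDiff ℝ 1 fun x => X x i)
    (hY : ∀ i, ContDiff ℝ 1 fun x => Y x i) (c s : ℝ) (x : E n) :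
    divE (fun y i => c * X y i + s * Y y i) x = c * divE X x + s * divE Y x := by
  simp only [divE, Finset.mul_sum, ← Finset.sum_add_distrib]
  refine Finset.sum_congr rfl fun i _ => ?_
  have h1 := ((hX i).differentiable one_ne_zero x).hasFDerivAt
  have h2 := ((hY i).differentiable one_ne_zero x).hasFDerivAt
  simp only [pderiv]
  rw [((h1.const_mul c).fun_add (h2.const_mul s)).fderiv]
  simp

theorem exists_rot (a b : ℝ) :
    ∃ c s : ℝ, c ^ 2 + s ^ 2 = 1 ∧ c * a + s * b = Real.sqrt (a ^ 2 + b ^ 2) := by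
  rcases (show 0 ≤ a ^ 2 + b ^ 2 by positivity).eq_or_lt with h | h
  · have ha : a = 0 := by nlinarith [sq_nonneg a, sq_nonneg b]
    exact ⟨1, 0, by norm_num, by rw [← h, ha]; simp⟩
  · have h1 := Real.sqrt_pos.2 h
    have h2 := Real.sq_sqrt h.le
    refine ⟨a / Real.sqrt (a ^ 2 + b ^ 2), b / Real.sqrt (a ^ 2 + b ^ 2), ?_, ?_⟩
    · rw [div_pow, div_pow, h2, ← add_div, div_self h.ne']
    · field_simp
      linarith

/-- the charged energy condition for either sign of `K` -/
theorem dece {g K K' : MetricField 3} (hg : IsRiemannianOn g univ) {Ef B : VectorField 3}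
    {x : E 3} (h : chargedMomentumNorm g K Ef B x ≤ chargedEnergyDensity g K Ef B x) {σ : ℝ}
    (hσ : |σ| = 1) (h1 : energyDensity g K' x = energyDensity g K x)
    (h2 : ∀ i, momentumDensity g K' x i = σ * momentumDensity g K x i) {c s : ℝ}
    (hcs : c ^ 2 + s ^ 2 = 1) :
    DECE g K' (fun y i => c * (volDensity g y * Ef y i) + s * (volDensity g y * B y i)) 0 x := by
  intro w hw
  have hG := hg.posDef x trivial
  have hd := hG.det_pos
  have hv := vol_pos hg x
  have hv2 : volDensity g x ^ 2 = (g x).det := Real.sq_sqrt hd.le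
  set a : Fin 3 → ℝ := c • Ef x + s • B x with ha
  set b : Fin 3 → ℝ := (-s) • Ef x + c • B x with hb
  have e1 : eSq g (fun y i => c * (volDensity g y * Ef y i) + s * (volDensity g y * B y i)) x =
      bq (g x) a a := by
    rw [eSq, div_eq_iff hd.ne', ← hv2]
    simp only [vecNormSq, bq, ha, Finset.sum_mul, Pi.add_apply, Pi.smul_apply, smul_eq_mul]
    exact Finset.sum_congr rfl fun i _ => Finset.sum_congr rfl fun j _ => by ring
  have e2 : eDot g (fun y i => c * (volDensity g y * Ef y i) + s * (volDensity g y * B y i)) x w =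
      bq (g x) w a := by
    rw [eDot, div_eq_iff hv.ne']
    simp only [bq, ha, Finset.sum_mul, Pi.add_apply, Pi.smul_apply, smul_eq_mul]
    exact Finset.sum_congr rfl fun i _ => Finset.sum_congr rfl fun j _ => by ring
  have e3 : bq (g x) a a + bq (g x) b b = vecNormSq g Ef x + vecNormSq g B x := by
    simp only [vecNormSq, bq, ha, hb, Pi.add_apply, Pi.smul_apply, smul_eq_mul,
      ← Finset.sum_add_distrib]
    exact Finset.sum_congr rfl fun i _ => Finset.sum_congr rfl fun j _ => by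
      linear_combination (g x i j * Ef x i * Ef x j + g x i j * B x i * B x j) * hcs
  have e4 : crossProduct a b = crossProduct (Ef x) (B x) := by
    simp only [ha, hb, map_add, map_smul, LinearMap.add_apply, LinearMap.smul_apply, cross_self,
      ← cross_anticomm (Ef x) (B x), smul_zero, smul_neg]
    rw [zero_add, add_zero, ← neg_smul, smul_smul, smul_smul, ← add_smul,
      show -s * -s + c * c = 1 by linarith, one_smul]
  have e5 : ∑ i, momentumDensity g K' x i * w i =
      σ * (chargedMomentumDensity g K Ef B x ⬝ᵥ w) +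
        σ * (2 * (Real.sqrt (g x).det * (crossProduct a b ⬝ᵥ w))) := by
    simp only [e4, h2, dotProduct, chargedMomentumDensity, crossLower, volDensity, Finset.mul_sum,
      ← Finset.sum_add_distrib]
    exact Finset.sum_congr rfl fun i _ => by ring
  have h3 := abs_dot_le hG (chargedMomentumDensity g K Ef B x) w hw
  have h4 := cross_le hG w a b
  have h5 := le_abs_self (σ * (chargedMomentumDensity g K Ef B x ⬝ᵥ w))
  have h6 := le_abs_self (σ * (2 * (Real.sqrt (g x).det * (crossProduct a b ⬝ᵥ w))))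
  rw [abs_mul, hσ, one_mul] at h5 h6
  rw [abs_mul, abs_two] at h6
  have h7 : Real.sqrt (bq (g x)⁻¹ (chargedMomentumDensity g K Ef B x)
      (chargedMomentumDensity g K Ef B x)) ≤
      energyDensity g K x - (vecNormSq g Ef x + vecNormSq g B x) := h
  have e6 : quadForm g x w = bq (g x) w w := rfl
  rw [e1, e2, e5, h1, e6]
  nlinarith

end Nrm

open Nrm

theorem normU : NormUStmt := by
  intro n hn q hq g K hg hK hKs hgd hKd hdec htr En P hE hP
  have hdiv : ∀ x : E n, divE (fun _ _ => 0) x = 0 := fun x => by simp [divE, pderiv]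
  refine ⟨hq, hg, fun i j => (hK i j).neg, fun x i j => by simp [hKs x i j], hgd,
    fun i j => decaysAt_neg (hKd i j), fun i => contDiff_const, ⟨0, fun x i => by simp⟩,
    fun x _ => hdiv x, by simp [hdiv], fun x hx w hw => ?_,
    fun x hx => by rw [pastExpansion_neg]; exact htr x hx, hE, fun i => ?_⟩
  · have h1 := abs_dot_le (hg.posDef x trivial) (momentumDensity g K x) w hw
    have h2 : Real.sqrt (bq (g x)⁻¹ (momentumDensity g K x) (momentumDensity g K x)) ≤
      energyDensity g K x := hdec x hx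
    have h3 := neg_abs_le (momentumDensity g K x ⬝ᵥ w)
    simp only [eSq, eDot, vecNormSq, energyDensity_neg, momentumDensity_neg, mul_zero,
      Finset.sum_const_zero, zero_div, neg_mul, Finset.sum_neg_distrib]
    simp only [dotProduct] at h1 h3
    linarith
  · simp only [momentumFlux_neg, PiLp.neg_apply]
    exact (hP i).neg

theorem normC : NormCStmt := by
  intro q hq g K hg hK hKs Ef B hEs hBs hgd hKd hEd hBd hE0 hB0 hdec htr En P QE QB hE hP hQE hQB
  obtain ⟨c, s, hcs, hQ⟩ := exists_rot QE QB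
  set X : VectorField 3 := fun y i => volDensity g y * Ef y i with hX
  set Y : VectorField 3 := fun y i => volDensity g y * B y i with hY
  have hXs : ∀ i, ContDiff ℝ ∞ fun x => X x i := fun i => (contDiff_vol hg).mul (hEs i)
  have hYs : ∀ i, ContDiff ℝ ∞ fun x => Y x i := fun i => (contDiff_vol hg).mul (hBs i)
  have hX1 : ∀ i, ContDiff ℝ 1 fun x => X x i := fun i => (hXs i).of_le (by exact_mod_cast le_top)
  have hY1 : ∀ i, ContDiff ℝ 1 fun x => Y x i := fun i => (hYs i).of_le (by exact_mod_cast le_top)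
  have hX0 : ∀ x : E 3, 1 ≤ ‖x‖ → divE X x = 0 := fun x hx => divE_of_gDiv hg (hE0 x hx)
  have hY0 : ∀ x : E 3, 1 ≤ ‖x‖ → divE Y x = 0 := fun x hx => divE_of_gDiv hg (hB0 x hx)
  set EE : VectorField 3 := fun y i => c * X y i + s * Y y i with hEE
  have hsm : ∀ i, ContDiff ℝ ∞ fun x => EE x i := fun i =>
    (contDiff_const.mul (hXs i)).add (contDiff_const.mul (hYs i))
  have hdec' : ∃ C : ℝ, ∀ x i, |EE x i| ≤ C * (1 + ‖x‖) ^ (1 - ((3 : ℕ) : ℝ)) := by
    obtain ⟨M, hM0, hM⟩ := vol_bdd (by linarith : 0 ≤ q) hgd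
    have h1 : ∀ i, ∃ C : ℝ, 0 ≤ C ∧ ∀ x : E 3, |EE x i| ≤ C * (1 + ‖x‖) ^ (-2 : ℝ) := fun i => by
      obtain ⟨C₁, h10, h1⟩ := decaysAt_bound (hEd i)
      obtain ⟨C₂, h20, h2⟩ := decaysAt_bound (hBd i)
      refine global_decay (hsm i).continuous (by norm_num) (C := |c| * (M * C₁) + |s| * (M * C₂))
        (by positivity) fun x hx => ?_
      have hv := (vol_pos hg x).le
      calc |EE x i| ≤ |c| * (volDensity g x * |Ef x i|) + |s| * (volDensity g x * |B x i|) := by
            refine (abs_add_le _ _).trans (le_of_eq ?_)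
            simp only [hX, hY, abs_mul, abs_of_nonneg hv]
        _ ≤ |c| * (M * (C₁ * ‖x‖ ^ (-2 : ℝ))) + |s| * (M * (C₂ * ‖x‖ ^ (-2 : ℝ))) := by
            gcongr
            exacts [hM x hx, h1 x hx, hM x hx, h2 x hx]
        _ = _ := by ring
    choose C hC0 hC using h1
    refine ⟨∑ i, C i, fun x i => ?_⟩
    rw [show (1 : ℝ) - ((3 : ℕ) : ℝ) = -2 by norm_num]
    exact (hC i x).trans (mul_le_mul_of_nonneg_right
      (Finset.single_le_sum (fun i _ => hC0 i) (Finset.mem_univ i)) (by positivity))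
  have hdiv : ∀ x : E 3, 1 ≤ ‖x‖ → divE EE x = 0 := fun x hx => by
    rw [hEE, divE_lin hX1 hY1, hX0 x hx, hY0 x hx]; simp
  have hch : ∫ x, divE EE x = unitSphereArea 3 * Real.sqrt (QE ^ 2 + QB ^ 2) := by
    simp only [hEE, divE_lin hX1 hY1]
    rw [integral_add ((integrable_divE hX1 hX0).const_mul c) ((integrable_divE hY1 hY0).const_mul s),
      integral_const_mul, integral_const_mul, charge_of_flux (by norm_num) hg hEs hE0 hQE,
      charge_of_flux (by norm_num) hg hBs hB0 hQB, ← hQ]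
    ring
  have hq' : (((3 : ℕ) : ℝ) - 2) / 2 < q := by norm_num; linarith
  rcases htr with htr | htr
  · refine ⟨fun x => -K x, EE, -P, norm_neg P, hq', hg, fun i j => (hK i j).neg,
      fun x i j => by simp [hKs x i j], hgd, fun i j => decaysAt_neg (hKd i j), hsm, hdec', hdiv,
      hch, fun x hx => dece hg (hdec x hx) (σ := -1) (by simp) (energyDensity_neg g K x)
        (fun i => by rw [momentumDensity_neg]; ring) hcs,
      fun x hx => by rw [pastExpansion_neg]; exact htr x hx, hE, fun i => ?_⟩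
    simp only [momentumFlux_neg, PiLp.neg_apply]
    exact (hP i).neg
  · exact ⟨K, EE, P, rfl, hq', hg, hK, hKs, hgd, hKd, hsm, hdec', hdiv, hch,
      fun x hx => dece hg (hdec x hx) (σ := 1) (by simp) rfl (fun i => by ring) hcs, htr, hE, hP⟩

end Crest.Agent.N346

end
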