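import Crest.Agent.N346.P0.Lin

-- ▼ part N346/P0/GA1
section

/-! Row 346, Part 0, step GA (helper15), file 1: the compactly supported sources. -/

set_option autoImplicit false
open MeasureTheory Filter Topology Matrix
open scoped ContDiff
open Crest.GeometryTopology.CoordMetric
open Crest.MathPhysics.ExteriorData

noncomputable section

namespace Crest.Agent.N346.P0.GA
open Bs

variable {n : ℕ} {u G G' : E n → ℝ} {x : E n} {r a b R ρ M M' : ℝ} {k K : MetricField n}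

/-- a compactly supported source of size `M` at scale `ρ` -/
structure Src (G : E n → ℝ) (ρ M : ℝ) : Prop where
  sm : ContDiff ℝ ∞ G
  far : ∀ y, ρ ≤ ‖y‖ → G y = 0
  jet : ∀ y, Jb 1 G y ρ M

theorem Src.add (h : Src G ρ M) (h' : Src G' ρ M') : Src (fun y => G y + G' y) ρ (M + M') :=
  ⟨h.sm.add h'.sm, fun y hy => by rw [h.far y hy, h'.far y hy, add_zero],
    fun y => Jb.add h.sm h'.sm (h.jet y) (h'.jet y)⟩

theorem Src.neg (h : Src G ρ M) : Src (fun y => -G y) ρ M :=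
  ⟨h.sm.neg, fun y hy => by rw [h.far y hy, neg_zero], fun y => (h.jet y).neg⟩

theorem Src.const_mul (h : Src G ρ M) (c : ℝ) : Src (fun y => c * G y) ρ (|c| * M) :=
  ⟨contDiff_const.mul h.sm, fun y hy => by rw [h.far y hy, mul_zero],
    fun y => Jb.const_mul h.sm c (h.jet y)⟩

theorem Src.mono (h : Src G ρ M) (hρ : 0 < ρ) (hM : M ≤ M') : Src G ρ M' :=
  ⟨h.sm, h.far, fun y => (h.jet y).mono hρ hM⟩

theorem Src.nonneg (h : Src G ρ M) : 0 ≤ M := (h.jet 0).nonneg

theorem Src.integrable (h : Src G ρ M) : Integrable G :=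
  h.sm.continuous.integrable_of_hasCompactSupport
    (hasCompactSupport_of_far (R := ρ) fun y hy => h.far y hy.le)

/-- commutator of `Lmu` with the cut-off -/
def F0 (k : MetricField n) (R : ℝ) (x : E n) : ℝ :=
  Lmu (fun y => eta R y • k y) x - eta R x * Lmu k x

/-- commutator of `LJ` with the cut-off -/
def Fi (K : MetricField n) (R : ℝ) (i : Fin n) (x : E n) : ℝ :=
  LJ (fun y => eta R y • K y) x i - eta R x * LJ K x i

/-- auxiliary vector field -/
def UU (u : E n → ℝ) (k : MetricField n) : VectorField n :=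
  fun y i => ∑ j, (pderiv j u y * k y i j - pderiv i u y * k y j j)

theorem contDiff_UU (hu : ContDiff ℝ ∞ u) (hk : Sm k) (i : Fin n) :
    ContDiff ℝ ∞ fun y => UU u k y i :=
  ContDiff.sum fun j _ => ((contDiff_pd hu j).mul (hk i j)).sub ((contDiff_pd hu i).mul (hk j j))

theorem Lmu_smul (hu : ContDiff ℝ ∞ u) (hk : Sm k) (x : E n) :
    Lmu (fun y => u y • k y) x - u x * Lmu k x
      = (∑ i, pderiv i u x * eV k x i + divE (UU u k) x) * (1 / 2) := by
  have e : eV (fun y => u y • k y) = fun y i => u y * eV k y i + UU u k y i := by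
    funext y i
    simp only [eV, UU, Matrix.smul_apply, smul_eq_mul,
      pd_mul (smooth_diff hu y) (smooth_diff (hk _ _) y), Finset.mul_sum, ← Finset.sum_add_distrib]
    exact Finset.sum_congr rfl fun j _ => by ring
  rw [Lmu, e, divE_add (fun i => hu.mul (contDiff_eV hk i)) (contDiff_UU hu hk),
    divE_smul (smooth_diff hu x) fun i => smooth_diff (contDiff_eV hk i) x, Lmu]
  ring

theorem pV_smul (u : E n → ℝ) (K : MetricField n) (i : Fin n) :
    pV (fun y => u y • K y) i = fun y j => u y * pV K i y j := by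
  funext y j
  simp only [pV, Matrix.smul_apply, smul_eq_mul, ← Finset.mul_sum]
  ring

theorem LJ_smul (hu : ContDiff ℝ ∞ u) (hK : Sm K) (x : E n) (i : Fin n) :
    LJ (fun y => u y • K y) x i - u x * LJ K x i = ∑ j, pderiv j u x * pV K i x j := by
  rw [LJ, pV_smul, divE_smul (smooth_diff hu x) fun j => smooth_diff (contDiff_pV hK i j) x, LJ]
  ring

theorem contDiff_F0 (hk : Sm k) (R : ℝ) : ContDiff ℝ ∞ (F0 k R) :=
  (contDiff_Lmu (Sm.smul (contDiff_eta R) hk)).sub ((contDiff_eta R).mul (contDiff_Lmu hk))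

theorem contDiff_Fi (hK : Sm K) (R : ℝ) (i : Fin n) : ContDiff ℝ ∞ (Fi K R i) :=
  (contDiff_LJ (Sm.smul (contDiff_eta R) hK) i).sub ((contDiff_eta R).mul (contDiff_LJ hK i))

theorem pd_eta_out (hR : 0 < R) (hx : ‖x‖ < R ∨ 2 * R < ‖x‖) (i : Fin n) :
    pderiv i (eta R) x = 0 :=
  hx.elim (fun h => pd_eta_of_le hR h.le i) fun h => pd_eta_of_ge hR h.le i

theorem out_nhds (hx : ‖x‖ < R ∨ 2 * R < ‖x‖) : ∀ᶠ y in 𝓝 x, ‖y‖ < R ∨ 2 * R < ‖y‖ :=
  ((isOpen_lt continuous_norm continuous_const).union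
    (isOpen_lt continuous_const continuous_norm)).mem_nhds hx

theorem F0_out (hk : Sm k) (hR : 0 < R) (hx : ‖x‖ < R ∨ 2 * R < ‖x‖) : F0 k R x = 0 := by
  have e : UU (eta R) k =ᶠ[𝓝 x] fun _ _ => 0 := (out_nhds hx).mono fun y hy => by
    funext i; simp [UU, pd_eta_out hR hy]
  rw [F0, Lmu_smul (contDiff_eta R) hk, divE_congr e]
  simp [pd_eta_out hR hx, divE]

theorem Fi_out (hK : Sm K) (hR : 0 < R) (hx : ‖x‖ < R ∨ 2 * R < ‖x‖) (i : Fin n) :
    Fi K R i x = 0 := by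
  rw [Fi, LJ_smul (contDiff_eta R) hK]
  simp [pd_eta_out hR hx]

theorem src_of_annulus (hG : ContDiff ℝ ∞ G) (hR : 0 < R) (ha : 0 ≤ a)
    (h0 : ∀ x, ‖x‖ < R ∨ 2 * R < ‖x‖ → G x = 0)
    (h : ∀ x, R ≤ ‖x‖ → ‖x‖ ≤ 2 * R → Jb 1 G x R a) : Src G (3 * R) (3 * a) := by
  refine ⟨hG, fun y hy => h0 y (.inr (by linarith)), fun y => ?_⟩
  have : Jb 1 G y R a := by
    by_cases hy : ‖y‖ < R ∨ 2 * R < ‖y‖
    · exact Jb.of_eventually_zero ((out_nhds hy).mono h0) hR ha
    · push Not at hy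
      exact h y hy.1 hy.2
  simpa using this.rescale hR (t := 3) (by norm_num)

/-- the commutators are sources -/
theorem exists_F (n : ℕ) : ∃ C : ℝ, 0 ≤ C ∧ ∀ k K : MetricField n, Sm k → Sm K → ∀ R a : ℝ,
    0 < R → 0 ≤ a → (∀ x, R ≤ ‖x‖ → ‖x‖ ≤ 2 * R → JB k K x R a) →
    Src (F0 k R) (3 * R) (C * (a / R ^ 2)) ∧ ∀ i, Src (Fi K R i) (3 * R) (C * (a / R ^ 2)) := by
  obtain ⟨D, hD, hη⟩ := exists_eta_jb n 3
  refine ⟨3 * ((6 * n ^ 2 + 2 * n * (n + 1)) * D), by positivity, fun k K hk hK R a hR ha h => ?_⟩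
  have he := contDiff_eta (n := n) R
  have hp : 0 ≤ D * (a / R ^ 2) := by positivity
  refine ⟨(src_of_annulus (a := 6 * n ^ 2 * D * (a / R ^ 2)) (contDiff_F0 hk R) hR
    (by positivity) (fun x hx => F0_out hk hR hx) fun x h1 h2 => ?_).mono (by positivity) ?_,
    fun i => (src_of_annulus (a := 2 * n * (n + 1) * D * (a / R ^ 2)) (contDiff_Fi hK R i) hR
    (by positivity) (fun x hx => Fi_out hK hR hx i) fun x h1 h2 => ?_).mono (by positivity) ?_⟩
  · have hd : ∀ i, Jb 2 (pderiv i (eta R)) x R (D / R) := fun i => (hη R hR x).1.pd he i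
    have j1 := Jb.sum_fin hR (fun i => (contDiff_pd he i).mul (contDiff_eV hk i)) fun i =>
      Jb.mul (contDiff_pd he i) (contDiff_eV hk i) hR ((hd i).of_le one_le_two)
        (jb_eV (j := 1) hR hk (h x h1 h2).1 i)
    have j2 : ∀ i, Jb 2 (fun y => UU (eta R) k y i) x R _ := fun i =>
      Jb.sum_fin hR (fun j => ((contDiff_pd he j).mul (hk i j)).sub
        ((contDiff_pd he i).mul (hk j j))) fun j =>
        Jb.sub ((contDiff_pd he j).mul (hk i j)) ((contDiff_pd he i).mul (hk j j))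
          (Jb.mul (contDiff_pd he j) (hk i j) hR (hd j) ((h x h1 h2).1 i j))
          (Jb.mul (contDiff_pd he i) (hk j j) hR (hd i) ((h x h1 h2).1 j j))
    have j3 := jb_divE (j := 1) hR (contDiff_UU he hk) j2
    have s1 : ContDiff ℝ ∞ fun y => ∑ i, pderiv i (eta R) y * eV k y i :=
      ContDiff.sum fun i _ => (contDiff_pd he i).mul (contDiff_eV hk i)
    have s2 := contDiff_divE (contDiff_UU he hk)
    have j4 := Jb.mul_const (s1.add s2) (1 / 2) (Jb.add s1 s2 j1 j3)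
    refine (j4.congr (.of_forall fun y => Lmu_smul he hk y)).mono hR (le_of_eq ?_)
    rw [abs_of_pos (by norm_num)]
    field_simp
    ring
  · have : 0 ≤ (n : ℝ) * (n + 1) * (D * (a / R ^ 2)) := by positivity
    nlinarith
  · have j1 := Jb.sum_fin hR (fun j => (contDiff_pd he j).mul (contDiff_pV hK i j)) fun j =>
      Jb.mul (contDiff_pd he j) (contDiff_pV hK i j) hR
        (((hη R hR x).1.pd he j).of_le one_le_two) (jb_pV hR hK (h x h1 h2).2 i j)
    refine (j1.congr (.of_forall fun y => LJ_smul he hK y i)).mono hR (le_of_eq ?_)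
    field_simp
    ring
  · have : 0 ≤ (n : ℝ) ^ 2 * (D * (a / R ^ 2)) := by positivity
    nlinarith

theorem integrable_eta_mul (hR : 0 < R) (hu : Continuous u) : Integrable fun x => eta R x * u x :=
  ((contDiff_eta R).continuous.mul hu).integrable_of_hasCompactSupport
    (hasCompactSupport_eta hR).mul_right

theorem integral_F0 (hk : Sm k) (hR : 0 < R) (hi : Integrable (F0 k R)) :
    ∫ x, F0 k R x = -∫ x, eta R x * Lmu k x := by
  have h1 := integrable_eta_mul hR (contDiff_Lmu hk).continuous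
  have h2 := integral_Lmu (Sm.smul (contDiff_eta R) hk) (R := 2 * R) fun y hy => by
    rw [eta_eq_zero hR hy.le, zero_smul]
  have h3 := integral_add hi h1
  simp only [F0, sub_add_cancel, h2] at h3 ⊢
  linarith

theorem integral_Fi (hK : Sm K) (hR : 0 < R) (i : Fin n) (hi : Integrable (Fi K R i)) :
    ∫ x, Fi K R i x = -∫ x, eta R x * LJ K x i := by
  have h1 := integrable_eta_mul hR (contDiff_LJ hK i).continuous
  have h2 := integral_LJ (Sm.smul (contDiff_eta R) hK) (R := 2 * R) (fun y hy => by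
    rw [eta_eq_zero hR hy.le, zero_smul]) i
  have h3 := integral_add hi h1
  simp only [Fi, sub_add_cancel, h2] at h3 ⊢
  linarith

/-- the normalised bump -/
def rho (R : ℝ) (x : E n) : ℝ := (∫ y : E n, eta R y)⁻¹ * eta R x

theorem integral_eta (hR : 0 < R) : ∫ y : E n, eta R y = R ^ n * ∫ y : E n, eta 1 y := by
  have := Measure.integral_comp_inv_smul_of_nonneg (volume : Measure (E n)) (eta 1) hR.le
  simp only [finrank_euclideanSpace, Fintype.card_fin, smul_eq_mul] at this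
  rw [← this]
  exact integral_congr_ae (.of_forall fun y => eta_scale R y)

theorem integral_eta_pos (hR : 0 < R) : 0 < ∫ y : E n, eta R y :=
  (contDiff_eta R).continuous.integral_pos_of_hasCompactSupport_nonneg_nonzero
    (hasCompactSupport_eta hR) (eta_nonneg R) (x := 0)
    (by rw [eta_eq_one hR (by simpa using hR.le)]; exact one_ne_zero)

theorem rho_nonneg (hR : 0 < R) (x : E n) : 0 ≤ rho R x :=
  mul_nonneg (inv_pos.2 (integral_eta_pos hR)).le (eta_nonneg R x)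

theorem integral_rho (hR : 0 < R) : ∫ x : E n, rho R x = 1 := by
  simp only [rho]
  rw [integral_const_mul, inv_mul_cancel₀ (integral_eta_pos hR).ne']

theorem exists_rho (n : ℕ) : ∃ C : ℝ, 0 ≤ C ∧ ∀ R : ℝ, 0 < R →
    Src (rho R : E n → ℝ) (3 * R) (C / R ^ n) := by
  obtain ⟨D, hD, hη⟩ := exists_eta_jb n 1
  have hI := integral_eta_pos (n := n) one_pos
  refine ⟨(∫ y : E n, eta 1 y)⁻¹ * (3 * D), by positivity, fun R hR => ?_⟩
  have h : Src (eta R : E n → ℝ) (3 * R) (3 * D) :=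
    ⟨contDiff_eta R, fun y hy => eta_eq_zero hR (by linarith), fun y => by
      simpa using (hη R hR y).1.rescale hR (t := 3) (by norm_num)⟩
  refine (h.const_mul _).mono (by positivity) (le_of_eq ?_)
  rw [abs_of_pos (inv_pos.2 (integral_eta_pos hR)), integral_eta hR]
  field_simp

end Crest.Agent.N346.P0.GA

end
end

-- ▼ part N346/P0/GA2
section

/-! Row 346, Part 0, step GA (helper15), file 2: a compactly supported symmetric tensor with
(almost) prescribed linearised momentum density. -/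

set_option autoImplicit false
open MeasureTheory Filter Topology Matrix
open scoped ContDiff
open Crest.GeometryTopology.CoordMetric
open Crest.MathPhysics.ExteriorData

noncomputable section

namespace Crest.Agent.N346.P0.GA
open Bs

variable {n : ℕ} {u : E n → ℝ} {x : E n} {r a : ℝ} {Y : Fin n → E n → ℝ}

/-- divergence of the potentials -/
def dY (Y : Fin n → E n → ℝ) (x : E n) : ℝ := ∑ c, pderiv c (Y c) x

/-- `∂ᵢYⱼ + ∂ⱼYᵢ - t (div Y) δᵢⱼ` -/
def SS (t : ℝ) (Y : Fin n → E n → ℝ) : MetricField n := fun x => Matrix.of fun i j =>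
  pderiv i (Y j) x + pderiv j (Y i) x - dY Y x * (t * (1 : Matrix (Fin n) (Fin n) ℝ) i j)

theorem contDiff_dY (hY : ∀ i, ContDiff ℝ ∞ (Y i)) : ContDiff ℝ ∞ (dY Y) :=
  ContDiff.sum fun c _ => contDiff_pd (hY c) c

theorem sm_SS (hY : ∀ i, ContDiff ℝ ∞ (Y i)) (t : ℝ) : Sm (SS t Y) := fun i j =>
  ((contDiff_pd (hY j) i).add (contDiff_pd (hY i) j)).sub ((contDiff_dY hY).mul contDiff_const)

theorem sy_SS (t : ℝ) (Y : Fin n → E n → ℝ) : Sy (SS t Y) := fun x i j => by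
  simp only [SS, Matrix.of_apply, Matrix.one_apply, eq_comm (a := i), add_comm]

theorem pV_SS (hn : 3 ≤ n) (Y : Fin n → E n → ℝ) (i : Fin n) :
    pV (SS ((n : ℝ) - 1)⁻¹ Y) i = fun y j => SS 1 Y y i j := by
  funext y j
  have h3 : (3 : ℝ) ≤ n := by exact_mod_cast hn
  have h1 : (n : ℝ) - 1 ≠ 0 := by linarith
  have e : ∑ c, SS ((n : ℝ) - 1)⁻¹ Y y c c = dY Y y * (1 - ((n : ℝ) - 1)⁻¹) := by
    simp only [SS, Matrix.of_apply, Matrix.one_apply_eq, Finset.sum_sub_distrib,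
      Finset.sum_add_distrib, Finset.sum_const, Finset.card_univ, Fintype.card_fin, nsmul_eq_mul]
    rw [show ∑ c, pderiv c (Y c) y = dY Y y from rfl]
    field_simp
    ring
  rw [pV, e]
  simp only [SS, Matrix.of_apply]
  ring

theorem divE_SS (hY : ∀ i, ContDiff ℝ ∞ (Y i)) (x : E n) (i : Fin n) :
    divE (fun y j => SS 1 Y y i j) x = lap (Y i) x := by
  have h1 : ∀ j, pderiv j (fun y => SS 1 Y y i j) x = pderiv i (pderiv j (Y j)) x
      + pderiv j (pderiv j (Y i)) x - if i = j then pderiv i (dY Y) x else 0 := fun j => by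
    simp only [SS, Matrix.of_apply]
    rw [pd_sub (smooth_diff ((contDiff_pd (hY j) i).add (contDiff_pd (hY i) j)) x)
      (smooth_diff ((contDiff_dY hY).mul contDiff_const) x),
      pd_add (smooth_diff (contDiff_pd (hY j) i) x) (smooth_diff (contDiff_pd (hY i) j) x),
      pd_mul_const, pd_comm ((hY j).of_le (natle 2)).contDiffAt j i, Matrix.one_apply]
    split_ifs with h
    · subst h; simp
    · simp
  have h2 : pderiv i (dY Y) x = ∑ j, pderiv i (pderiv j (Y j)) x :=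
    pd_sum (fun j _ => smooth_diff (contDiff_pd (hY j) j) x) i
  simp only [divE, h1, Finset.sum_sub_distrib, Finset.sum_add_distrib, Finset.sum_ite_eq,
    Finset.mem_univ, if_true, h2, lap]
  ring

theorem LJ_T (hn : 3 ≤ n) (hu : ContDiff ℝ ∞ u) (hY : ∀ i, ContDiff ℝ ∞ (Y i)) (x : E n)
    (i : Fin n) : LJ (fun y => u y • SS ((n : ℝ) - 1)⁻¹ Y y) x i
      = ∑ j, pderiv j u x * SS 1 Y x i j + u x * lap (Y i) x := by
  have := LJ_smul hu (sm_SS hY ((n : ℝ) - 1)⁻¹) x i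
  rw [LJ.eq_1 (SS _ Y), pV_SS hn, divE_SS hY] at this
  linarith

theorem jb_SS {j : ℕ} {t : ℝ} (ht : |t| ≤ 1) (hY : ∀ i, ContDiff ℝ ∞ (Y i)) (hr : 0 < r)
    (h : ∀ i l, Jb j (pderiv l (Y i)) x r a) (i l : Fin n) :
    Jb j (fun y => SS t Y y i l) x r ((n + 2) * a) := by
  have ha := (h i l).nonneg
  refine (Jb.sub ((contDiff_pd (hY l) i).add (contDiff_pd (hY i) l))
    ((contDiff_dY hY).mul contDiff_const)
    (Jb.add (contDiff_pd (hY l) i) (contDiff_pd (hY i) l) (h l i) (h i l))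
    (Jb.mul_const (contDiff_dY hY) (t * (1 : Matrix (Fin n) (Fin n) ℝ) i l)
      (Jb.sum_fin hr (fun c => contDiff_pd (hY c) c) fun c => h c c))).mono hr ?_
  have h1 : |t * (1 : Matrix (Fin n) (Fin n) ℝ) i l| ≤ 1 := by
    rw [Matrix.one_apply]; split_ifs <;> simp [ht]
  have h2 : 0 ≤ (n : ℝ) * a := by positivity
  nlinarith

theorem one_add_rpow_le {s t : ℝ} (hx : 1 ≤ ‖x‖) (hs : s ≤ 0) (hst : s ≤ t) :
    (1 + ‖x‖) ^ s ≤ ‖x‖ ^ t :=
  (Real.rpow_le_rpow_of_nonpos (by linarith) (by linarith) hs).trans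
    (Real.rpow_le_rpow_of_exponent_le hx hst)

/-- the tensor `T` -/
theorem exists_T (hN : NewtStmt) (hn : 3 ≤ n) : ∃ C : ℝ, 0 ≤ C ∧
    ∀ (G : Fin n → E n → ℝ) (ρ M : ℝ), 1 ≤ ρ → (∀ i, Src (G i) ρ M) → (∀ i, ∫ y, G i y = 0) →
    ∀ e0 : ℝ, 0 ≤ e0 → e0 < 1 → ∀ η : ℝ, 0 < η → ∃ (T : MetricField n) (R2 : ℝ),
      Sm T ∧ Sy T ∧ (∀ x, R2 ≤ ‖x‖ → T x = 0) ∧
      (∀ i j x, Jb 1 (fun y => T y i j) x (ρ + ‖x‖)
        (C * (M * ρ ^ n * (ρ + ‖x‖) ^ (1 - (n : ℝ))))) ∧
      ∀ x : E n, 1 ≤ ‖x‖ → ∀ i, |LJ T x i - G i x| ≤ η * ‖x‖ ^ (-(n : ℝ) - e0) := by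
  obtain ⟨C, hC, hN⟩ := hN n hn
  obtain ⟨D, hD, hη⟩ := exists_eta_jb n 1
  have h3 : (3 : ℝ) ≤ n := by exact_mod_cast hn
  refine ⟨2 * (D * ((n + 2) * C)), by positivity, fun G ρ M hρ hG h0 e0 he0 he1 η hη0 => ?_⟩
  choose Y hY hYj hYl _ hYd using fun i => hN (fun y => -G i y) ρ M (hG i).neg.sm hρ
    (hG i).neg.far (hG i).neg.jet (η / 2) (by positivity)
  choose A hA using fun i => hYd i (by rw [integral_neg, h0, neg_zero])
  set A0 := ∑ i, |A i|
  have hA0 : 0 ≤ A0 := by positivity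
  have hA' : ∀ i l y, |pderiv l (Y i) y| ≤ A0 * (1 + ‖y‖) ^ (-(n : ℝ)) := fun i l y =>
    ((abs_pd_le l _ y).trans (hA i y)).trans (by
      gcongr
      exact (le_abs_self _).trans (Finset.single_le_sum (f := fun i => |A i|)
        (fun i _ => abs_nonneg _) (Finset.mem_univ i)))
  have hlim : Tendsto (fun R : ℝ => n * D * ((n + 2) * A0) * 2 * R ^ (-(1 - e0))) atTop (𝓝 0) := by
    simpa using (tendsto_rpow_neg_atTop (by linarith : 0 < 1 - e0)).const_mul
      (n * D * ((n + 2) * A0) * 2)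
  obtain ⟨R, hR1, hR2⟩ := ((eventually_ge_atTop ρ).and
    (hlim.eventually_le_const (by positivity : 0 < η / 2))).exists
  have hR : 0 < R := by linarith
  have he := contDiff_eta (n := n) R
  have ht : |((n : ℝ) - 1)⁻¹| ≤ 1 := by
    rw [abs_of_nonneg (inv_nonneg.2 (by linarith))]
    exact inv_le_one_of_one_le₀ (by linarith)
  refine ⟨fun y => eta R y • SS ((n : ℝ) - 1)⁻¹ Y y, 2 * R, Sm.smul he (sm_SS hY _),
    Sy.smul _ (sy_SS _ Y), fun x hx => by simp only [eta_eq_zero hR hx, zero_smul],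
    fun i j x => ?_, fun x hx i => ?_⟩
  · have hr : 0 < ρ + ‖x‖ := by positivity
    have h1 : ∀ i l, Jb 1 (pderiv l (Y i)) x (ρ + ‖x‖)
        (C * M * ρ ^ n * (ρ + ‖x‖) ^ (2 - (n : ℝ)) / (ρ + ‖x‖)) := fun i l =>
      (Jb.of_rpow hr fun k hk => hYj i k hk x).pd (hY i) l
    refine (Jb.mul he (sm_SS hY _ i j) hr ((hη R hR x).2 _ hr (by linarith))
      (jb_SS ht hY hr h1 i j)).mono hr (le_of_eq ?_)
    rw [show (1 : ℝ) - n = 2 - n - 1 by ring, Real.rpow_sub_one hr.ne']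
    ring
  · have hp : 0 < ‖x‖ ^ (-(n : ℝ) - e0) := by positivity
    have h1 : eta R x * G i x = G i x := by
      rcases le_total ‖x‖ R with h | h
      · rw [eta_eq_one hR h, one_mul]
      · rw [(hG i).far x (hR1.trans h), mul_zero]
    have h2 : |eta R x * (lap (Y i) x + -G i x)| ≤ η / 2 * ‖x‖ ^ (-(n : ℝ) - e0) := by
      rw [abs_mul, abs_of_nonneg (eta_nonneg R x)]
      refine (mul_le_of_le_one_left (abs_nonneg _) (eta_le_one R x)).trans ((hYl i x).trans ?_)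
      gcongr
      exact one_add_rpow_le hx (by linarith) (by linarith)
    have h4 : |∑ j, pderiv j (eta R) x * SS 1 Y x i j| ≤ η / 2 * ‖x‖ ^ (-(n : ℝ) - e0) := by
      rcases le_total (2 * R) ‖x‖ with h | h
      · simp only [pd_eta_of_ge hR h, zero_mul, Finset.sum_const_zero, abs_zero]; positivity
      have h5 : ∀ j, |SS 1 Y x i j| ≤ (n + 2) * (A0 * (1 + ‖x‖) ^ (-(n : ℝ))) := fun j =>
        (jb_SS (j := 0) (r := 1) (by simp) hY one_pos (fun i l k hk => by
          obtain rfl : k = 0 := by omega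
          simpa using hA' i l x) i j).abs_le
      have h6 : (1 + ‖x‖) ^ (-(n : ℝ)) ≤ 2 * R * R ^ (-(1 - e0)) * ‖x‖ ^ (-(n : ℝ) - e0) := by
        refine (one_add_rpow_le hx (by linarith) le_rfl).trans ?_
        have e1 : ‖x‖ ^ (-(n : ℝ)) = ‖x‖ ^ e0 * ‖x‖ ^ (-(n : ℝ) - e0) := by
          rw [← Real.rpow_add (by linarith)]; congr 1; ring
        have e2 : R * R ^ (-(1 - e0)) = R ^ e0 := by
          rw [show -(1 - e0) = e0 - 1 by ring, Real.rpow_sub_one hR.ne']; field_simp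
        rw [e1, mul_assoc 2, e2]
        gcongr
        calc ‖x‖ ^ e0 ≤ (2 * R) ^ e0 := by gcongr
          _ = 2 ^ e0 * R ^ e0 := Real.mul_rpow (by norm_num) hR.le
          _ ≤ 2 ^ (1 : ℝ) * R ^ e0 := by gcongr; norm_num
          _ = _ := by rw [Real.rpow_one]
      calc _ ≤ ∑ j, |pderiv j (eta R) x * SS 1 Y x i j| := Finset.abs_sum_le_sum_abs _ _
        _ ≤ ∑ _j : Fin n, D / R * ((n + 2) * (A0 *
            (2 * R * R ^ (-(1 - e0)) * ‖x‖ ^ (-(n : ℝ) - e0)))) := by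
          refine Finset.sum_le_sum fun j _ => ?_
          rw [abs_mul]
          gcongr
          · exact (hη R hR x).1.abs_pd_le j
          · exact (h5 j).trans (by gcongr)
        _ = n * D * ((n + 2) * A0) * 2 * R ^ (-(1 - e0)) * ‖x‖ ^ (-(n : ℝ) - e0) := by
          simp only [Finset.sum_const, Finset.card_univ, Fintype.card_fin, nsmul_eq_mul]
          field_simp
        _ ≤ _ := by gcongr
    rw [LJ_T hn he hY]
    calc _ = |∑ j, pderiv j (eta R) x * SS 1 Y x i j + eta R x * (lap (Y i) x + -G i x)| := by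
          congr 1; linear_combination h1
      _ ≤ _ := abs_add_le _ _
      _ ≤ _ := by linarith

end Crest.Agent.N346.P0.GA

end
end

-- ▼ part N346/P0/GA3

/-! Row 346, Part 0, step GA (helper15), file 3: the far-field function `ψ`. -/

set_option autoImplicit false
open MeasureTheory Filter Topology Matrix
open scoped ContDiff
open Crest.GeometryTopology.CoordMetric
open Crest.MathPhysics.ExteriorData

noncomputable section

namespace Crest.Agent.N346.P0.GA
open Bs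

variable {n : ℕ} {u v : E n → ℝ}

theorem lap_add (hu : ContDiff ℝ ∞ u) (hv : ContDiff ℝ ∞ v) (x : E n) :
    lap (fun y => u y + v y) x = lap u x + lap v x := by
  have e : ∀ i, pderiv i (fun y => u y + v y) = fun y => pderiv i u y + pderiv i v y :=
    fun i => funext fun y => pd_add (smooth_diff hu y) (smooth_diff hv y) i
  simp only [lap, e, pd_add (smooth_diff (contDiff_pd hu _) x) (smooth_diff (contDiff_pd hv _) x),
    Finset.sum_add_distrib]

theorem norm_iter_add (hu : ContDiff ℝ ∞ u) (hv : ContDiff ℝ ∞ v) (k : ℕ) (x : E n) :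
    ‖iteratedFDeriv ℝ k (fun y => u y + v y) x‖
      ≤ ‖iteratedFDeriv ℝ k u x‖ + ‖iteratedFDeriv ℝ k v x‖ := by
  have := iteratedFDeriv_add_apply (𝕜 := ℝ) (i := k) (x := x)
    (hu.of_le (natle k)).contDiffAt (hv.of_le (natle k)).contDiffAt
  rw [show (fun y => u y + v y) = u + v from rfl, this]
  exact norm_add_le _ _

theorem size {R ρ t q s : ℝ} (hR : 0 < R) (hρ : R ≤ ρ) (ht : 0 ≤ t) (hq : q ≤ (n : ℝ) - 2)
    (hs : s ≤ 0) : R ^ (-q - 2) * R ^ n * (ρ + t) ^ s ≤ (R + t) ^ ((n : ℝ) - q - 2 + s) := by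
  rw [← Real.rpow_natCast, ← Real.rpow_add hR, Real.rpow_add (x := R + t) (by positivity),
    show -q - 2 + n = n - q - 2 by ring]
  exact mul_le_mul (Real.rpow_le_rpow hR.le (by linarith) (by linarith))
    (Real.rpow_le_rpow_of_nonpos (by positivity) (by linarith) hs)
    (Real.rpow_nonneg (by linarith) _) (by positivity)

theorem integrable_of_le {s A : ℝ} (hu : Continuous u) (hs : 0 < s)
    (h : ∀ y, |u y| ≤ A * (1 + ‖y‖) ^ (-(n : ℝ) - s)) : Integrable u := by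
  have h1 : Integrable fun y : E n => (1 + ‖y‖) ^ (-((n : ℝ) + s)) :=
    integrable_one_add_norm (by simpa using hs)
  refine (h1.const_mul A).mono' hu.aestronglyMeasurable (.of_forall fun y => ?_)
  rw [show -((n : ℝ) + s) = -(n : ℝ) - s by ring]
  exact h y

theorem lower {c t R y z s : ℝ} (hc : 0 ≤ c) (hy : 0 < y) (hR : 0 ≤ R) (hRy : R ≤ y) (hz : y ≤ z)
    (hzt : z ≤ t * y) (hs : s ≤ 0) :
    c * (1 + t) ^ (s - 2) * y ^ s ≤ c * z ^ 2 * (R + z) ^ (s - 2) := by
  have ht : 0 ≤ 1 + t := by nlinarith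
  calc _ = c * y ^ 2 * ((1 + t) * y) ^ (s - 2) := by
        rw [Real.mul_rpow ht hy.le, Real.rpow_sub hy, Real.rpow_two]; field_simp
    _ ≤ _ := by
        gcongr c * ?_ * ?_
        · gcongr
        · exact Real.rpow_le_rpow_of_nonpos (by linarith) (by linarith) (by linarith)

/-- the function `ψ` and the margin `s2` -/
theorem exists_psi (hN : NewtStmt) (hV : VStmt) {q e0 : ℝ} (hE : Expo n q e0) {w ξ : E n} {g0 : ℝ}
    {B : Matrix (Fin n) (Fin n) ℝ} (hB : Boost w ξ g0 B) {M0 : ℝ} (hM0 : 0 ≤ M0) :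
    ∃ C c1 : ℝ, 0 ≤ C ∧ 0 < c1 ∧ ∀ η : ℝ, 0 < η → ∀ᶠ R in atTop, ∀ (G : E n → ℝ) (m : ℝ),
      Src G (3 * R) (M0 * R ^ (-q - 2)) → ∫ x, G x = ((n : ℝ) - 1) * unitSphereArea n * m →
      ∃ (ψ s2 : E n → ℝ) (C' c' : ℝ), Far n e0 (m / g0 + η) ψ (g0 * (3 * R)) C' c' ∧ 0 < c' ∧
        (∀ k : ℕ, k ≤ 2 → ∀ y, ‖iteratedFDeriv ℝ k ψ y‖ ≤ C * (R + ‖y‖) ^ (-q - (k : ℝ))) ∧
        (∀ x, 0 ≤ s2 x) ∧ (∀ x, s2 x ≤ C * (R + ‖x‖) ^ (-q - 2)) ∧
        (∀ x : E n, R ≤ ‖x‖ → c1 * ‖x‖ ^ (-(n : ℝ) - e0) ≤ s2 x) ∧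
        ∀ x : E n, 1 ≤ ‖x‖ → |((n : ℝ) - 1) * g0 ^ 2 * lap ψ (lin B x) + G x + s2 x|
          ≤ η * ‖x‖ ^ (-(n : ℝ) - e0) := by
  have hn := hE.n_ge
  have h3 : (3 : ℝ) ≤ n := by exact_mod_cast hn
  have he0 := hE.e0_pos
  have he1 := hE.e0_lt_one
  have hq := hE.q_lt
  have hg1 := hB.g0_ge
  have hg0 := hB.g0_pos
  obtain ⟨CN, hCN, hN⟩ := hN n hn
  obtain ⟨hVj, CV, cV, hCV, hcV, hV⟩ := hV n hn e0 he0 he1
  choose D hD0 hD using hVj
  set D' := D 0 + D 1 + D 2
  have hD' : ∀ k ≤ 2, D k ≤ D' := fun k hk => by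
    have := hD0 0; have := hD0 1; have := hD0 2
    interval_cases k <;> simp only [D'] <;> linarith
  have hD'0 : 0 ≤ D' := (hD0 0).trans (hD' 0 (by norm_num))
  obtain ⟨κ, hκ⟩ : ∃ κ : ℝ, κ = ((n : ℝ) - 1) * g0 ^ 2 := ⟨_, rfl⟩
  have hκ0 : 0 < κ := by rw [hκ]; exact mul_pos (by linarith) (by positivity)
  rw [← hκ]
  have hω := unitSphereArea_pos (n := n) (by omega)
  set I := ∫ y : E n, (1 + ‖y‖) ^ (-(n : ℝ) - 1)
  have hI : 0 ≤ I := integral_nonneg fun y => by positivity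
  set A := CN * (κ⁻¹ * (g0 * M0)) * (g0 * 3) ^ n
  have hA : 0 ≤ A := by positivity
  refine ⟨A + D' + κ * CV, κ * (cV * (1 + g0) ^ (-(n : ℝ) - e0 - 2)), by positivity, by positivity,
    fun η hη => ?_⟩
  have hlim : Tendsto (fun R : ℝ => CV * R ^ (-e0)) atTop (𝓝 0) := by
    simpa using (tendsto_rpow_neg_atTop he0).const_mul CV
  filter_upwards [eventually_ge_atTop 1,
    hlim.eventually_le_const (by positivity : 0 < unitSphereArea n * η / 2)] with R hR1 hRe G m hG hm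
  have hR : 0 < R := by linarith
  obtain ⟨hVs, -, hVl, hVu, hVm, -⟩ := hV R hR1
  set c2 := cV * (1 + 1) ^ (-(n : ℝ) - e0 - 2)
  have hc2 : 0 < c2 := by positivity
  obtain ⟨η1, hη1, h1, h2, h4⟩ : ∃ η1 : ℝ, 0 < η1 ∧ κ * η1 ≤ η ∧ η1 ≤ c2 / 2 ∧
      η1 * I ≤ unitSphereArea n * η / 2 := by
    refine ⟨min (η / κ) (min (c2 / 2) (unitSphereArea n * η / 2 / (I + 1))), by positivity,
      ?_, (min_le_right _ _).trans (min_le_left _ _), ?_⟩
    · rw [mul_comm, ← le_div_iff₀ hκ0]; exact min_le_left _ _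
    · calc _ ≤ unitSphereArea n * η / 2 / (I + 1) * (I + 1) := by
            gcongr
            · exact (min_le_right _ _).trans (min_le_right _ _)
            · linarith
        _ = _ := by field_simp
  have hρ : R ≤ g0 * (3 * R) := by nlinarith
  have hG' : Src (fun y => κ⁻¹ * G (lin B⁻¹ y)) (g0 * (3 * R))
      (κ⁻¹ * (g0 * (M0 * R ^ (-q - 2)))) := by
    have h : Src (fun y => G (lin B⁻¹ y)) (g0 * (3 * R)) (g0 * (M0 * R ^ (-q - 2))) :=
      ⟨contDiff_comp_lin _ hG.sm, fun y hy => hG.far _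
        (le_of_mul_le_mul_left (hy.trans (hB.le_norm_inv y)) hg0), fun y => by
        simpa using (Jb.comp_clm (lin B⁻¹) le_rfl hB.norm_lin_inv_le hG.sm (by positivity)
          (hG.jet _)).rescale (by positivity) hg1⟩
    simpa only [abs_of_pos (inv_pos.2 hκ0)] using h.const_mul κ⁻¹
  obtain ⟨c, hc, hcj, hcl, hcb, -⟩ := hN _ _ _ hG'.sm (by linarith) hG'.far hG'.jet η1 hη1
  set M' := κ⁻¹ * (g0 * (M0 * R ^ (-q - 2)))
  have hM' : 0 ≤ M' := hG'.nonneg
  have hRe0 : R ^ (-e0) ≤ 1 := Real.rpow_le_one_of_one_le_of_nonpos hR1 (by linarith)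
  have hVj : ∀ k : ℕ, ∀ y : E n, ‖iteratedFDeriv ℝ k (VV e0 R) y‖
      ≤ D k * (R + ‖y‖) ^ (2 - (n : ℝ) - (k : ℝ)) := fun k y =>
    (hD k R hR1 y).trans (by
      gcongr
      exact mul_le_of_le_one_right (hD0 k) hRe0)
  have hone : ∀ (ρ s : ℝ) (y : E n), 1 ≤ ρ → s ≤ 0 → (ρ + ‖y‖) ^ s ≤ (1 + ‖y‖) ^ s :=
    fun ρ s y h hs => Real.rpow_le_rpow_of_nonpos (by positivity) (by linarith) hs
  have hVu' : ∀ y : E n, |lap (VV e0 R) y| ≤ CV * (1 + ‖y‖) ^ (-(n : ℝ) - e0) := fun y =>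
    (hVu y).trans (mul_le_mul_of_nonneg_left (hone _ _ y hR1 (by linarith)) hCV)
  have hcl' : ∀ y : E n, |lap c y + κ⁻¹ * G (lin B⁻¹ y)| ≤ η1 * (1 + ‖y‖) ^ (-(n : ℝ) - e0) :=
    fun y => (hcl y).trans (by
      gcongr
      · linarith [norm_nonneg y])
  set A1 := M' * (1 + g0 * (3 * R)) ^ ((n : ℝ) + e0)
  have hA1 : 0 ≤ A1 := by positivity
  have hGb : ∀ y : E n, |κ⁻¹ * G (lin B⁻¹ y)| ≤ A1 * (1 + ‖y‖) ^ (-(n : ℝ) - e0) := fun y => by
    rcases le_total (g0 * (3 * R)) ‖y‖ with h | h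
    · rw [hG'.far y h, abs_zero]; positivity
    · refine (hG'.jet y).abs_le.trans ?_
      rw [mul_assoc, show -(n : ℝ) - e0 = -((n : ℝ) + e0) by ring, Real.rpow_neg (by positivity),
        ← div_eq_mul_inv]
      refine le_mul_of_one_le_right hM' ((one_le_div (by positivity)).2 ?_)
      gcongr
  set A2 := CN * M' * (g0 * (3 * R)) ^ n
  have hA2 : 0 ≤ A2 := by positivity
  refine ⟨fun y => c y + VV e0 R y, fun x => κ * -lap (VV e0 R) (lin B x),
    A2 + D' + (η1 + A1 + CV), c2 / 2, ⟨hc.add hVs, fun k hk y => ?_, fun k => ?_, fun y => ?_,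
      fun y hy => ?_, ?_⟩, by positivity, fun k hk y => ?_, fun x => ?_, fun x => ?_,
      fun x hx => ?_, fun x hx => ?_⟩
  · have hk0 : (0 : ℝ) ≤ k := Nat.cast_nonneg k
    have hs : 2 - (n : ℝ) - k ≤ 0 := by linarith
    have e1 := (hcj k hk y).trans (mul_le_mul_of_nonneg_left (hone _ _ y (by linarith) hs) hA2)
    have e2 := (hVj k y).trans (mul_le_mul (hD' k hk) (hone _ _ y hR1 hs) (by positivity) hD'0)
    have e3 : 0 ≤ (η1 + A1 + CV) * (1 + ‖y‖) ^ (2 - (n : ℝ) - k) := by positivity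
    have := norm_iter_add hc hVs k y
    linarith
  · obtain ⟨D1, hD1⟩ := hcb k
    have hk0 : (0 : ℝ) ≤ k := Nat.cast_nonneg k
    refine ⟨D1 + D k, fun y => (norm_iter_add hc hVs k y).trans (add_le_add (hD1 y) ?_)⟩
    exact (hVj k y).trans (mul_le_of_le_one_right (hD0 k)
      (Real.rpow_le_one_of_one_le_of_nonpos (by linarith [norm_nonneg y]) (by linarith)))
  · have e3 : 0 ≤ (A2 + D') * (1 + ‖y‖) ^ (-(n : ℝ) - e0) := by positivity
    have e1 := abs_le.1 (hcl' y)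
    have e2 := abs_le.1 (hGb y)
    have e4 := abs_le.1 (hVu' y)
    rw [lap_add hc hVs, abs_le]
    constructor <;> linarith [e1.1, e1.2, e2.1, e2.2, e4.1, e4.2]
  · have hy1 : 1 ≤ ‖y‖ := by linarith
    have e1 := (abs_le.1 (hcl y)).2
    rw [hG'.far y hy, add_zero] at e1
    have e2 : η1 * (1 + ‖y‖) ^ (-(n : ℝ) - 1) ≤ c2 / 2 * ‖y‖ ^ (-(n : ℝ) - e0) := by
      gcongr
      exact one_add_rpow_le hy1 (by linarith) (by linarith)
    have e3 := (lower (t := 1) (s := -(n : ℝ) - e0) hcV.le (by linarith : 0 < ‖y‖) hR.le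
      (hρ.trans hy) le_rfl (by simp) (by linarith)).trans (hVl y)
    rw [lap_add hc hVs]
    linarith
  · have i1 : Integrable fun y => lap c y + κ⁻¹ * G (lin B⁻¹ y) :=
      integrable_of_le ((contDiff_lap hc).add hG'.sm).continuous he0 hcl'
    have i2 := hG'.integrable
    have i3 : Integrable (lap (VV e0 R : E n → ℝ)) :=
      integrable_of_le (contDiff_lap hVs).continuous he0 hVu'
    have i4 : Integrable fun y : E n => (1 + ‖y‖) ^ (-(n : ℝ) - 1) :=
      integrable_of_le (A := 1) (s := 1) ((continuous_const.add continuous_norm).rpow_const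
        fun y => .inl (by change 1 + ‖y‖ ≠ 0; positivity)) one_pos fun y => by rw [abs_of_nonneg (by positivity), one_mul]
    have e1 : ∫ y, lap (fun y => c y + VV e0 R y) y = (∫ y, lap c y + κ⁻¹ * G (lin B⁻¹ y))
        - (∫ y, κ⁻¹ * G (lin B⁻¹ y)) + ∫ y : E n, lap (VV e0 R) y := by
      rw [← integral_sub i1 i2, ← integral_add (f := fun y => lap c y + κ⁻¹ * G (lin B⁻¹ y)
        - κ⁻¹ * G (lin B⁻¹ y)) (i1.sub i2) i3]
      refine integral_congr_ae (.of_forall fun y => ?_)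
      simp only [lap_add hc hVs]
      ring
    have e2 : ∫ y, κ⁻¹ * G (lin B⁻¹ y) = unitSphereArea n * (m / g0) := by
      have hd : B⁻¹.det = g0⁻¹ := by rw [det_nonsing_inv, hB.det, Ring.inverse_eq_inv']
      have : (n : ℝ) - 1 ≠ 0 := by linarith
      rw [integral_const_mul, integral_comp_lin (by rw [hd]; positivity), hd, hm, hκ,
        abs_of_pos (by positivity)]
      field_simp
    have e3 : -∫ y, lap c y + κ⁻¹ * G (lin B⁻¹ y) ≤ η1 * I := by
      rw [← integral_neg, ← integral_const_mul]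
      exact integral_mono i1.neg (i4.const_mul _) fun y => (neg_le_abs _).trans (hcl y)
    rw [e1, e2]
    linarith
  · have hk0 : (0 : ℝ) ≤ k := Nat.cast_nonneg k
    have hy := norm_nonneg y
    have e1 : ‖iteratedFDeriv ℝ k c y‖ ≤ A * (R + ‖y‖) ^ (-q - (k : ℝ)) := by
      refine (hcj k hk y).trans ?_
      have := size (n := n) (s := 2 - (n : ℝ) - k) hR hρ hy hq.le (by linarith)
      rw [show (n : ℝ) - q - 2 + (2 - n - k) = -q - k by ring] at this
      calc _ = A * (R ^ (-q - 2) * R ^ n * (g0 * (3 * R) + ‖y‖) ^ (2 - (n : ℝ) - k)) := by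
            simp only [A, A2, M', mul_pow]; ring
        _ ≤ _ := by gcongr
    have e2 : ‖iteratedFDeriv ℝ k (VV e0 R) y‖ ≤ D' * (R + ‖y‖) ^ (-q - (k : ℝ)) :=
      (hVj k y).trans (by
        gcongr
        · exact hD' k hk
        · linarith
        · linarith)
    have e3 : 0 ≤ κ * CV * (R + ‖y‖) ^ (-q - (k : ℝ)) := by positivity
    have := norm_iter_add hc hVs k y
    linarith
  · exact mul_nonneg hκ0.le (le_trans (by positivity) (hVl _))
  · have hx := norm_nonneg x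
    have e1 : (R + ‖lin B x‖) ^ (-(n : ℝ) - e0) ≤ (R + ‖x‖) ^ (-q - 2) :=
      (Real.rpow_le_rpow_of_nonpos (by positivity) (by linarith [hB.lo x]) (by linarith)).trans
        (Real.rpow_le_rpow_of_exponent_le (by linarith) (by linarith))
    have e2 := ((neg_le_abs _).trans (hVu (lin B x))).trans (mul_le_mul_of_nonneg_left e1 hCV)
    have e3 : 0 ≤ (A + D') * (R + ‖x‖) ^ (-q - 2) := by positivity
    have := mul_le_mul_of_nonneg_left e2 hκ0.le
    linarith
  · rw [mul_assoc]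
    exact mul_le_mul_of_nonneg_left ((lower (s := -(n : ℝ) - e0) hcV.le (by linarith) hR.le hx
      (hB.lo x) (hB.hi x) (by linarith)).trans (hVl _)) hκ0.le
  · have e1 := hcl (lin B x)
    rw [lin_inv_lin hB.det_ne] at e1
    have e2 : (1 + ‖lin B x‖) ^ (-(n : ℝ) - 1) ≤ ‖x‖ ^ (-(n : ℝ) - e0) :=
      (Real.rpow_le_rpow_of_nonpos (by positivity) (by linarith [hB.lo x]) (by linarith)).trans
        (one_add_rpow_le hx (by linarith) (by linarith))
    rw [lap_add hc hVs]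
    calc _ = κ * |lap c (lin B x) + κ⁻¹ * G x| := by
          rw [← abs_of_pos hκ0, ← abs_mul, abs_of_pos hκ0]; congr 1; field_simp; ring
      _ ≤ κ * (η1 * ‖x‖ ^ (-(n : ℝ) - e0)) := by gcongr; exact e1.trans (by gcongr)
      _ ≤ _ := by rw [← mul_assoc]; gcongr

end Crest.Agent.N346.P0.GA

end
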